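/-
Row 269, P1 Section 11: THE CROSS-SECTION INPUTS of Sections 11.1-11.5, in the exact form used here (written by helper171).
 * `Shape.witness` = Section 6 (Proposition 6.6 "a witness near every center", OWNED by helper218, who replaces the `sorry` by a call of his theorem, or tells
   helper171 which change of the statement he needs);
 * Theorem 8.6 is consumed in helper149's form `Shape.s9i_no_quiet_cone` (S9/Imports.lean), see S11/Large.lean.
-/
import Claimed.Agent.R269.Shape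
import Claimed.Agent.R269.S6.Sub

set_option autoImplicit false

namespace Claimed.Agent.R269

open Complex Metric Set Filter Topology MeasureTheory
open scoped Real ENNReal

namespace Shape

variable (Sh : Shape)

/-- the standing hypotheses of Sections 11.1-11.5: finite critical wall and the polynomial bounds (11.1) -/
structure CritPoly : Prop where
  fin : Sh.H ≠ ⊤
  crit : Sh.order = 1
  poly : ∃ (C k₀ : ℝ), 1 ≤ k₀ ∧ ∀ k, k₀ ≤ k →
    Sh.μ k ≤ C * (1 + k) ∧ Real.exp (-k) * Sh.rowMax (Sh.Hr - Real.exp (-k)) ≤ C * (1 + k) ^ 2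

/-- depth `δ(z) = H - |Im z|` -/
noncomputable def dep (z : ℂ) : ℝ := Sh.Hr - |z.im|

/-- the point of the upper row of depth `d` over `x` -/
noncomputable def up (x d : ℝ) : ℂ := ⟨x, Sh.Hr - d⟩

/-- **P1 Proposition 6.6 (a witness near every center)** under the polynomial bounds. -/
theorem witness (h : Sh.CritPoly) : ∃ L₀ C₁ C₂ cs k₁ : ℝ, 0 < L₀ ∧ 0 < C₁ ∧ 0 < C₂ ∧ 0 < cs ∧ 1 ≤ k₁ ∧
    ∀ k : ℝ, k₁ ≤ k → ∀ x₀ : ℝ, ∃ s : ℂ, 0 < s.im ∧ 0 < Sh.dep s ∧ |s.re - x₀| ≤ L₀ * Sh.dep s ∧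
      k - C₁ * Real.log k ≤ -Real.log (Sh.dep s) ∧ -Real.log (Sh.dep s) ≤ k + C₂ ∧ cs ≤ Sh.dep s * Sh.M s := by
  obtain ⟨C, k₀, h1, h2⟩ := h.poly
  exact Sh.s6_witness h.fin ⟨C, k₀, h1, fun k hk => (h2 k hk).2⟩

/-- the normalised profiles (8.27) at the centre `x`, level `k`, amplitude `B` -/
noncomputable def profF (x k B : ℝ) (Z : ℂ) : ℂ :=
  (Real.exp (-k) / B : ℝ) * Sh.f ((x : ℂ) + Sh.Hr * I + (Real.exp (-k) : ℝ) * Z)

noncomputable def profQ (x k B : ℝ) (Z : ℂ) : ℂ :=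
  ((Real.exp (-k) / B) ^ 2 : ℝ) * Sh.q ((x : ℂ) + Sh.Hr * I + (Real.exp (-k) : ℝ) * Z)

end Shape

end Claimed.Agent.R269
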