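/-
Row 269, P1 Section 11: scales, robust points, the deterministic row test (definitions).  Owner: helper171.
-/
import Claimed.Agent.R269.S11.Inputs

set_option autoImplicit false

namespace Claimed.Agent.R269

open Complex Metric Set Filter Topology MeasureTheory
open scoped Real ENNReal

namespace Shape

/-- `|log |f|| ≥ t` on the closed disc of radius `r` about `z` -/
def Rob (Sh : Shape) (t r : ℝ) (z : ℂ) : Prop := ∀ ζ ∈ closedBall z r, t ≤ |Real.log ‖Sh.f ζ‖|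

/-- `h₁(K) = K^{α/2}/2` -/
noncomputable def h1 (K : ℝ) : ℝ := K ^ ((1 : ℝ) / 200) / 2

/-- `h₂(K) = K^{α/4}` -/
noncomputable def h2 (K : ℝ) : ℝ := K ^ ((1 : ℝ) / 400)

/-- `u₀(K) = K^{α/8}` -/
noncomputable def u0 (K : ℝ) : ℝ := K ^ ((1 : ℝ) / 800)

/-- `r_rob = e^{-k - h₁/4}` -/
noncomputable def rrob (K k : ℝ) : ℝ := Real.exp (-k - h1 K / 4)

/-- the set of non-robust points of the row of depth `e^{-k}` on the side `σ = ±1` -/
def badRow (Sh : Shape) (K k σ : ℝ) : Set ℝ :=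
  {x | x ∈ Icc (0 : ℝ) (2 * π) ∧ ¬ Sh.Rob (h1 K) (rrob K k) (⟨x, σ * (Sh.Hr - Real.exp (-k))⟩ : ℂ)}

/-- **The deterministic row test** (Theorem 11.7 + Proposition 11.8, first half): a tested level `kf K ∈ [0.8K, 2.2K]` on whose two rows almost every
point is robust. -/
def RowTest (Sh : Shape) (kf : ℝ → ℝ) : Prop :=
  (∀ᶠ K in atTop, 0.8 * K ≤ kf K ∧ kf K ≤ 2.2 * K) ∧
  ∀ σ : ℝ, (σ = 1 ∨ σ = -1) → Tendsto (fun K => (volume (Sh.badRow K (kf K) σ)).toReal) atTop (𝓝 0)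

/-- `a = log |f|` -/
noncomputable def aa (Sh : Shape) (z : ℂ) : ℝ := Real.log ‖Sh.f z‖

/-- the points of the upper row of log depth `k` with `|a| ≤ t` -/
def modRow (Sh : Shape) (t k : ℝ) : Set ℝ := {x | x ∈ Icc (0 : ℝ) (2 * π) ∧ |Sh.aa (Sh.up x (Real.exp (-k)))| ≤ t}

/-- the pairs `(x,k)`, `k ∈ [k₁,k₂]`, with `|a| ≤ t` -/
def modBand (Sh : Shape) (t k₁ k₂ : ℝ) : Set (ℝ × ℝ) :=
  {p | p.1 ∈ Icc (0 : ℝ) (2 * π) ∧ p.2 ∈ Icc k₁ k₂ ∧ |Sh.aa (Sh.up p.1 (Real.exp (-p.2)))| ≤ t}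

end Shape

end Claimed.Agent.R269
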