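/-
Row 269, P1 Section 11.3: Lemma 11.3 (local amplitude and logarithmic deficit) and the tile estimates (11.9).  Owner: helper171.
Paper: 11-sign-test.tex l.261-372.  Everything here is deterministic one-variable complex analysis for the equation `f'' = q f` on the shape strip.
  `a = log|f|` (`Sh.aa`),  `𝒜 = log(|f| + δ|f'|)` (`Sh.AA`),  `H_b(z₀) = 1 + sup_{B(z₀, δ₀/2)} δ √|q|` (`Sh.Hb`).
All integrals of nonnegative quantities are `∫⁻` (no integrability side conditions).  `Real.log 0 = 0`.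
RULES: put the proofs of your package in the file named in its description; do not change a statement without telling helper171.
-/
import Claimed.Agent.R269.S11.RowDefs
import Claimed.Agent.R269.Lib.LogSub
import Claimed.Agent.R269.ShapeBasic

set_option autoImplicit false

namespace Claimed.Agent.R269

open Complex Metric Set Filter Topology MeasureTheory
open scoped Real ENNReal

namespace Shape

variable (Sh : Shape)

/-- `𝒜 = log(|f| + δ |f'|)` -/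
noncomputable def AA (z : ℂ) : ℝ := Real.log (‖Sh.f z‖ + Sh.dep z * ‖deriv Sh.f z‖)

/-- `H_b(z₀) = 1 + sup_{|z - z₀| ≤ δ(z₀)/2} δ √|q|` -/
noncomputable def Hb (z₀ : ℂ) : ℝ :=
  1 + sSup ((fun z => Sh.dep z * Real.sqrt ‖Sh.q z‖) '' closedBall z₀ (Sh.dep z₀ / 2))

/-- the scale invariant tile functional `∫_{B(z₀, 3δ₀/4)} |q|` -/
noncomputable def Eq (z₀ : ℂ) : ℝ≥0∞ := ∫⁻ z in closedBall z₀ (3 * Sh.dep z₀ / 4), ENNReal.ofReal ‖Sh.q z‖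

/-- the upper collar `0 < δ < H/4`, `Im z > 0` -/
def Col (z : ℂ) : Prop := 0 < z.im ∧ 0 < Sh.dep z ∧ Sh.dep z < Sh.Hr / 4

/-- the low-moment hypothesis (11.7) -/
def LowMom (K : ℝ) : Prop := ∀ v ∈ Icc (0.9 * K) (2.1 * K), Sh.μ v ≤ K ^ ((1 : ℝ) / 100)

/-! ### LF-S11b-0: basic facts on the shape fields (from the fields of `Shape`) -/

theorem f_diff : DifferentiableOn ℂ Sh.f Sh.D :=
  Sh.sb_f_diff

theorem f_per (s : ℂ) (hs : s ∈ Sh.D) : Sh.f (s + 2 * π) = Sh.f s :=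
  Sh.sb_f_per s hs

theorem q_per (s : ℂ) (hs : s ∈ Sh.D) : Sh.q (s + 2 * π) = Sh.q s :=
  Sh.sb_q_per s hs

theorem f_conj (s : ℂ) (hs : s ∈ Sh.D) : Sh.f ((starRingEnd ℂ) s) = (starRingEnd ℂ) (Sh.f s) :=
  Sh.sb_f_conj s hs

/-- `f'' = q f` -/
theorem f_ode (s : ℂ) (hs : s ∈ Sh.D) : deriv (deriv Sh.f) s = Sh.q s * Sh.f s :=
  Sh.sb_f_ode s hs

/-- `f` and `f'` have no common zero (`f ≢ 0`: `φ(s + 2π) = φ(s) + 2π`) -/
theorem f_f'_ne (s : ℂ) (hs : s ∈ Sh.D) : Sh.f s ≠ 0 ∨ deriv Sh.f s ≠ 0 :=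
  Sh.sb_f_f'_ne hs

theorem mem_D_iff (hH : Sh.H ≠ ⊤) (s : ℂ) : s ∈ Sh.D ↔ 0 < Sh.dep s := by
  rw [Sh.sb_mem_D_iff hH, dep, sub_pos]

theorem isOpen_D : IsOpen Sh.D :=
  Sh.sb_isOpen_D

theorem dep_up (x d : ℝ) (hd : d ≤ Sh.Hr) : Sh.dep (Sh.up x d) = d := by
  simp only [dep, up]
  rw [abs_of_nonneg (by linarith)]
  ring

theorem measurable_aa : Measurable Sh.aa :=
  Real.measurable_log.comp Sh.sb_measurable_f.norm

theorem measurable_AA : Measurable Sh.AA := by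
  have hdep : Measurable Sh.dep :=
    measurable_const.sub (continuous_abs.measurable.comp Complex.measurable_im)
  exact Real.measurable_log.comp (Sh.sb_measurable_f.norm.add (hdep.mul Sh.sb_measurable_f'.norm))

/-- the zeros of `f` in the strip are countable -/
theorem countable_zeros : {s | s ∈ Sh.D ∧ Sh.f s = 0}.Countable :=
  Sh.sb_countable_zeros

/-- the pointwise form of the second bound of (11.1) (`rowMax` is a supremum of a continuous periodic function, hence `BddAbove`) -/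
theorem M_le (h : Sh.CritPoly) : ∃ C k₀ : ℝ, 0 < C ∧ 1 ≤ k₀ ∧ ∀ z : ℂ, 0 < z.im → 0 < Sh.dep z → k₀ ≤ -Real.log (Sh.dep z) →
    Sh.dep z * Sh.M z ≤ C * (1 - Real.log (Sh.dep z)) ^ 2 := by
  obtain ⟨C, k₀, hk₀, hp⟩ := h.poly
  refine ⟨max C 1, k₀, lt_max_of_lt_right one_pos, hk₀, fun z _ hd hk => ?_⟩
  have hz : z ∈ Sh.D := (Sh.sb_mem_D_iff h.fin z).2 (by have : 0 < Sh.Hr - |z.im| := hd; linarith)
  refine (Sh.sb_M_le h.fin (fun k hk => (hp k hk).2) hz hk).trans ?_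
  exact mul_le_mul_of_nonneg_right (le_max_left _ _) (sq_nonneg _)

/-- `μ(v)²` as a `∫⁻` -/
theorem lintegral_row (hH : Sh.H ≠ ⊤) (v : ℝ) (hv : Real.exp (-v) < Sh.Hr) :
    ∫⁻ x in Icc (0 : ℝ) (2 * π), ENNReal.ofReal (‖Sh.f (Sh.up x (Real.exp (-v)))‖ ^ 2 + ‖Sh.q (Sh.up x (Real.exp (-v)))‖)
      = ENNReal.ofReal (2 * π * Real.exp (2 * v) * Sh.μ v ^ 2) := by
  have he := Real.exp_pos (-v)
  have hh : |Sh.Hr - Real.exp (-v)| < Sh.Hr := by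
    rw [abs_lt]; constructor <;> linarith
  have hc : Continuous fun x : ℝ => ‖Sh.f (⟨x, Sh.Hr - Real.exp (-v)⟩ : ℂ)‖ ^ 2
      + ‖Sh.q (⟨x, Sh.Hr - Real.exp (-v)⟩ : ℂ)‖ :=
    ((Sh.sb_row_continuous Sh.sb_f_diff.continuousOn hH hh).norm.pow 2).add
      (Sh.sb_row_continuous Sh.q_diff.continuousOn hH hh).norm
  have hnn : ∀ x : ℝ, 0 ≤ ‖Sh.f (⟨x, Sh.Hr - Real.exp (-v)⟩ : ℂ)‖ ^ 2
      + ‖Sh.q (⟨x, Sh.Hr - Real.exp (-v)⟩ : ℂ)‖ := fun x => by positivity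
  have hJ : 0 ≤ ∫ x in (0 : ℝ)..(2 * π), (‖Sh.f (⟨x, Sh.Hr - Real.exp (-v)⟩ : ℂ)‖ ^ 2
      + ‖Sh.q (⟨x, Sh.Hr - Real.exp (-v)⟩ : ℂ)‖) :=
    intervalIntegral.integral_nonneg Real.two_pi_pos.le fun x _ => hnn x
  have hμ : 2 * π * Real.exp (2 * v) * Sh.μ v ^ 2 = ∫ x in (0 : ℝ)..(2 * π),
      (‖Sh.f (⟨x, Sh.Hr - Real.exp (-v)⟩ : ℂ)‖ ^ 2 + ‖Sh.q (⟨x, Sh.Hr - Real.exp (-v)⟩ : ℂ)‖) := by
    rw [μ, mul_pow, Real.sq_sqrt (mul_nonneg (by positivity) hJ)]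
    have e1 : Real.exp (2 * v) * Real.exp (-v) ^ 2 = 1 := by
      rw [← Real.exp_nat_mul, ← Real.exp_add]
      simp
    have hπ : (2 * π) ≠ 0 := Real.two_pi_pos.ne'
    generalize (∫ x in (0 : ℝ)..(2 * π), (‖Sh.f (⟨x, Sh.Hr - Real.exp (-v)⟩ : ℂ)‖ ^ 2
      + ‖Sh.q (⟨x, Sh.Hr - Real.exp (-v)⟩ : ℂ)‖)) = J
    calc 2 * π * Real.exp (2 * v) * (Real.exp (-v) ^ 2 * ((2 * π)⁻¹ * J))
        = (2 * π * (2 * π)⁻¹) * (Real.exp (2 * v) * Real.exp (-v) ^ 2) * J := by ring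
      _ = J := by rw [e1, mul_inv_cancel₀ hπ, one_mul, one_mul]
  rw [hμ, intervalIntegral.integral_of_le Real.two_pi_pos.le, ← integral_Icc_eq_integral_Ioc,
    ofReal_integral_eq_lintegral_ofReal (hc.integrableOn_Icc) (Eventually.of_forall hnn)]
  rfl

/-! ### LF-S11b-1: Lemma 11.3, oscillation of the amplitude.
Gronwall along the segment for `N = |f|² + λ²|f'|²`, `λ = δ₀/H_b`: `|N'| ≤ |z - z₀| (1 + λ²|q|)/λ · N ≤ 5 H_b |z - z₀|/δ₀ · N` (`|q| ≤ (2H_b/δ₀)²` on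
`B(z₀, δ₀/2)`); and `|𝒜 - ½ log N| ≤ log(2 H_b)`. -/

/-- Gronwall along a segment for `N = |F|² + λ²|F'|²` when `F'' = q F`, `λ²|q| ≤ 4`. -/
theorem s11b_gronwall {F F1 q : ℂ → ℂ} {z₀ z : ℂ} {lam : ℝ} (hlam : 0 < lam)
    (hF : ∀ w ∈ segment ℝ z₀ z, HasDerivAt F (F1 w) w)
    (hF1 : ∀ w ∈ segment ℝ z₀ z, HasDerivAt F1 (q w * F w) w)
    (hq : ∀ w ∈ segment ℝ z₀ z, lam ^ 2 * ‖q w‖ ≤ 4)
    (hne : ∀ w ∈ segment ℝ z₀ z, F w ≠ 0 ∨ F1 w ≠ 0) :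
    |Real.log (‖F z‖ ^ 2 + lam ^ 2 * ‖F1 z‖ ^ 2) - Real.log (‖F z₀‖ ^ 2 + lam ^ 2 * ‖F1 z₀‖ ^ 2)|
      ≤ 5 * ‖z - z₀‖ / lam := by
  set γ : ℝ → ℂ := fun t => z₀ + (t : ℂ) * (z - z₀) with hγ
  have hγmem : ∀ t ∈ Icc (0 : ℝ) 1, γ t ∈ segment ℝ z₀ z := by
    intro t ht
    rw [segment_eq_image']
    exact ⟨t, ht, by simp [hγ]⟩
  have hγd : ∀ t, HasDerivAt γ (z - z₀) t := by
    intro t
    have h2 := ((Complex.ofRealCLM.hasDerivAt (x := t)).mul_const (z - z₀)).const_add z₀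
    simp only [Complex.ofRealCLM_apply, Complex.ofReal_one, one_mul] at h2
    exact h2
  set N : ℝ → ℝ := fun t => ‖F (γ t)‖ ^ 2 + lam ^ 2 * ‖F1 (γ t)‖ ^ 2 with hN
  have hNpos : ∀ t ∈ Icc (0 : ℝ) 1, 0 < N t := by
    intro t ht
    rcases hne _ (hγmem t ht) with h | h
    · have : 0 < ‖F (γ t)‖ := norm_pos_iff.2 h
      simp only [hN]; positivity
    · have : 0 < ‖F1 (γ t)‖ := norm_pos_iff.2 h
      simp only [hN]; positivity
  set N' : ℝ → ℝ := fun t => 2 * inner ℝ (F (γ t)) ((z - z₀) * F1 (γ t))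
      + lam ^ 2 * (2 * inner ℝ (F1 (γ t)) ((z - z₀) * (q (γ t) * F (γ t)))) with hN'
  have hNd : ∀ t ∈ Icc (0 : ℝ) 1, HasDerivAt N (N' t) t := by
    intro t ht
    have h1 : HasDerivAt (fun t => F (γ t)) ((z - z₀) * F1 (γ t)) t := by
      have h := (hF _ (hγmem t ht)).scomp t (hγd t)
      rw [smul_eq_mul] at h; exact h
    have h2 : HasDerivAt (fun t => F1 (γ t)) ((z - z₀) * (q (γ t) * F (γ t))) t := by
      have h := (hF1 _ (hγmem t ht)).scomp t (hγd t)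
      rw [smul_eq_mul] at h; exact h
    exact h1.norm_sq.add (h2.norm_sq.const_mul (lam ^ 2))
  have hbound : ∀ t ∈ Icc (0 : ℝ) 1, |N' t| ≤ 5 * ‖z - z₀‖ / lam * N t := by
    intro t ht
    have hq' := hq _ (hγmem t ht)
    set a := ‖F (γ t)‖ with ha
    set b := ‖F1 (γ t)‖ with hb
    set Q := ‖q (γ t)‖ with hQ
    set r := ‖z - z₀‖ with hr
    have ha0 : 0 ≤ a := norm_nonneg _
    have hb0 : 0 ≤ b := norm_nonneg _
    have hQ0 : 0 ≤ Q := norm_nonneg _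
    have hr0 : 0 ≤ r := norm_nonneg _
    have i1 : |inner ℝ (F (γ t)) ((z - z₀) * F1 (γ t))| ≤ a * (r * b) := by
      refine (abs_real_inner_le_norm _ _).trans ?_
      rw [norm_mul]
    have i2 : |inner ℝ (F1 (γ t)) ((z - z₀) * (q (γ t) * F (γ t)))| ≤ b * (r * (Q * a)) := by
      refine (abs_real_inner_le_norm _ _).trans ?_
      rw [norm_mul, norm_mul]
    have h3 : |N' t| ≤ 2 * (a * (r * b)) + lam ^ 2 * (2 * (b * (r * (Q * a)))) := by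
      simp only [hN']
      refine (abs_add_le _ _).trans ?_
      rw [abs_mul, abs_mul, abs_mul, abs_of_nonneg (by positivity : (0 : ℝ) ≤ lam ^ 2),
        abs_of_nonneg (by norm_num : (0 : ℝ) ≤ 2)]
      gcongr
    have h4 : 2 * (a * (r * b)) + lam ^ 2 * (2 * (b * (r * (Q * a)))) ≤ 10 * (r * (a * b)) := by
      have : lam ^ 2 * Q * (2 * (r * (a * b))) ≤ 4 * (2 * (r * (a * b))) :=
        mul_le_mul_of_nonneg_right hq' (by positivity)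
      nlinarith
    have h5 : 2 * lam * (a * b) ≤ N t := by
      simp only [hN]
      nlinarith [sq_nonneg (a - lam * b)]
    have h6 : 10 * (r * (a * b)) ≤ 5 * r / lam * N t := by
      have : 5 * r / lam * (2 * lam * (a * b)) ≤ 5 * r / lam * N t :=
        mul_le_mul_of_nonneg_left h5 (by positivity)
      have e : 5 * r / lam * (2 * lam * (a * b)) = 10 * (r * (a * b)) := by
        field_simp; ring
      linarith
    linarith
  have key := norm_image_sub_le_of_norm_deriv_le_segment_01' (f := fun t => Real.log (N t))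
    (f' := fun t => N' t / N t) (C := 5 * ‖z - z₀‖ / lam)
    (fun t ht => ((hNd t ht).log (hNpos t ht).ne').hasDerivWithinAt)
    (fun t ht => by
      have ht' : t ∈ Icc (0 : ℝ) 1 := ⟨ht.1, ht.2.le⟩
      rw [Real.norm_eq_abs, abs_div, abs_of_pos (hNpos t ht'), div_le_iff₀ (hNpos t ht')]
      exact hbound t ht')
  have e1 : γ 1 = z := by simp [hγ]
  have e0 : γ 0 = z₀ := by simp [hγ]
  simp only [hN, e1, e0, Real.norm_eq_abs] at key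
  exact key

/-- comparison of `log (a + d b)` and `½ log (a² + λ² b²)`, `λ = δ₀ / H_b`. -/
theorem s11b_compare {a b d δ₀ Hb : ℝ} (ha : 0 ≤ a) (hb : 0 ≤ b) (hab : 0 < a ∨ 0 < b) (hδ : 0 < δ₀)
    (hH : 1 ≤ Hb) (hd1 : 5 * δ₀ / 8 ≤ d) (hd2 : d ≤ 11 * δ₀ / 8) :
    |Real.log (a + d * b) - Real.log (a ^ 2 + (δ₀ / Hb) ^ 2 * b ^ 2) / 2| ≤ 2 * Hb := by
  have hHb0 : 0 < Hb := by linarith
  set lam := δ₀ / Hb with hlam
  have hlam0 : 0 < lam := div_pos hδ hHb0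
  have hδe : δ₀ = Hb * lam := by rw [hlam]; field_simp
  have hlamle : lam ≤ δ₀ := by rw [hδe]; nlinarith
  have hd0 : 0 < d := by linarith
  set S := a + d * b with hS
  set N := a ^ 2 + lam ^ 2 * b ^ 2 with hN
  have hS0 : 0 < S := by
    rcases hab with h | h
    · have : 0 ≤ d * b := by positivity
      linarith
    · have : 0 < d * b := by positivity
      linarith
  have hN0 : 0 < N := by
    rcases hab with h | h
    · simp only [hN]; positivity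
    · simp only [hN]; positivity
  have hT0 : 0 ≤ a + lam * b := by positivity
  have h1 : N ≤ (8 / 5 * S) ^ 2 := by
    have i1 : N ≤ (a + lam * b) ^ 2 := by
      simp only [hN]; nlinarith [mul_nonneg ha (mul_nonneg hlam0.le hb)]
    have i2 : a + lam * b ≤ 8 / 5 * S := by
      have : lam * b ≤ 8 / 5 * (d * b) := by
        have : lam ≤ 8 / 5 * d := by linarith
        nlinarith
      simp only [hS]; linarith
    calc N ≤ (a + lam * b) ^ 2 := i1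
      _ ≤ (8 / 5 * S) ^ 2 := pow_le_pow_left₀ hT0 i2 2
  have h2 : S ^ 2 ≤ (2 * Hb) ^ 2 * N := by
    have i1 : S ≤ 11 / 8 * Hb * (a + lam * b) := by
      have j1 : a ≤ 11 / 8 * Hb * a := by nlinarith
      have j2 : d * b ≤ 11 / 8 * Hb * (lam * b) := by
        have : d ≤ 11 / 8 * (Hb * lam) := by rw [← hδe]; linarith
        nlinarith
      simp only [hS]; linarith
    have i2 : (a + lam * b) ^ 2 ≤ 2 * N := by
      simp only [hN]; nlinarith [sq_nonneg (a - lam * b)]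
    calc S ^ 2 ≤ (11 / 8 * Hb * (a + lam * b)) ^ 2 := pow_le_pow_left₀ hS0.le i1 2
      _ = (11 / 8 * Hb) ^ 2 * (a + lam * b) ^ 2 := by ring
      _ ≤ (11 / 8 * Hb) ^ 2 * (2 * N) := mul_le_mul_of_nonneg_left i2 (by positivity)
      _ ≤ (2 * Hb) ^ 2 * N := by nlinarith [mul_pos (mul_pos hHb0 hHb0) hN0]
  have l1 : Real.log N ≤ 2 * (Real.log (8 / 5) + Real.log S) := by
    have := Real.log_le_log hN0 h1
    rwa [Real.log_pow, Real.log_mul (by norm_num) hS0.ne', Nat.cast_ofNat] at this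
  have l2 : 2 * Real.log S ≤ 2 * Real.log (2 * Hb) + Real.log N := by
    have := Real.log_le_log (by positivity) h2
    rwa [Real.log_pow, Real.log_mul (by positivity) hN0.ne', Real.log_pow, Nat.cast_ofNat] at this
  have l3 : Real.log (8 / 5) ≤ 8 / 5 - 1 := Real.log_le_sub_one_of_pos (by norm_num)
  have l4 : Real.log (2 * Hb) ≤ 2 * Hb - 1 := Real.log_le_sub_one_of_pos (by positivity)
  rw [abs_le]
  constructor <;> linarith

theorem s11b_dep_sub (z w : ℂ) : |Sh.dep w - Sh.dep z| ≤ ‖w - z‖ := by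
  have h1 : Sh.dep w - Sh.dep z = |z.im| - |w.im| := by simp only [dep]; ring
  rw [h1]
  calc |(|z.im| - |w.im|)| ≤ |z.im - w.im| := abs_abs_sub_abs_le_abs_sub _ _
    _ = |(w - z).im| := by rw [Complex.sub_im, abs_sub_comm]
    _ ≤ ‖w - z‖ := Complex.abs_im_le_norm _

theorem s11b_dep_ge {z₀ z : ℂ} {r : ℝ} (hz : z ∈ closedBall z₀ r) : Sh.dep z₀ - r ≤ Sh.dep z := by
  have h := (abs_le.1 (Sh.s11b_dep_sub z₀ z)).1
  rw [mem_closedBall, dist_eq_norm] at hz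
  linarith

theorem s11b_dep_le {z₀ z : ℂ} {r : ℝ} (hz : z ∈ closedBall z₀ r) : Sh.dep z ≤ Sh.dep z₀ + r := by
  have h := (abs_le.1 (Sh.s11b_dep_sub z₀ z)).2
  rw [mem_closedBall, dist_eq_norm] at hz
  linarith

theorem s11b_ball_subset (hH : Sh.H ≠ ⊤) {z₀ : ℂ} {r : ℝ} (hr : r < Sh.dep z₀) : closedBall z₀ r ⊆ Sh.D :=
  fun z hz => (Sh.mem_D_iff hH z).2 (by have := Sh.s11b_dep_ge hz; linarith)

theorem s11b_continuous_dep : Continuous Sh.dep :=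
  continuous_const.sub (continuous_abs.comp Complex.continuous_im)

theorem s11b_bddAbove (hH : Sh.H ≠ ⊤) {z₀ : ℂ} (h0 : 0 < Sh.dep z₀) :
    BddAbove ((fun z => Sh.dep z * Real.sqrt ‖Sh.q z‖) '' closedBall z₀ (Sh.dep z₀ / 2)) := by
  refine (isCompact_closedBall z₀ _).bddAbove_image ?_
  have hsub := Sh.s11b_ball_subset hH (z₀ := z₀) (r := Sh.dep z₀ / 2) (by linarith)
  exact Sh.s11b_continuous_dep.continuousOn.mul
    (Real.continuous_sqrt.comp_continuousOn ((Sh.q_diff.continuousOn.mono hsub).norm))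

theorem aa_le_AA (hH : Sh.H ≠ ⊤) (z : ℂ) (hz : 0 < Sh.dep z) (h0 : Sh.f z ≠ 0) : Sh.aa z ≤ Sh.AA z := by
  have h1 : 0 < ‖Sh.f z‖ := norm_pos_iff.2 h0
  have h2 : 0 ≤ Sh.dep z * ‖deriv Sh.f z‖ := by positivity
  exact Real.log_le_log h1 (by linarith)

/-- the defining property of `H_b` (the supremum is over a compact set, of a continuous function) -/
theorem le_Hb (hH : Sh.H ≠ ⊤) (z₀ : ℂ) (hz : Sh.Col z₀) (z : ℂ) (hzz : z ∈ closedBall z₀ (Sh.dep z₀ / 2)) :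
    1 + Sh.dep z * Real.sqrt ‖Sh.q z‖ ≤ Sh.Hb z₀ := by
  have h := le_csSup (Sh.s11b_bddAbove hH hz.2.1)
    (mem_image_of_mem (fun z => Sh.dep z * Real.sqrt ‖Sh.q z‖) hzz)
  unfold Hb
  linarith

theorem one_le_Hb (hH : Sh.H ≠ ⊤) (z₀ : ℂ) (hz : Sh.Col z₀) : 1 ≤ Sh.Hb z₀ := by
  have h := Sh.le_Hb hH z₀ hz z₀ (mem_closedBall_self (by have := hz.2.1; linarith))
  have h2 : 0 ≤ Sh.dep z₀ * Real.sqrt ‖Sh.q z₀‖ := mul_nonneg hz.2.1.le (Real.sqrt_nonneg _)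
  linarith

/-- `λ² |q| ≤ 4` on `B(z₀, δ₀/2)`, `λ = δ₀ / H_b`. -/
theorem s11b_q_le (hH : Sh.H ≠ ⊤) {z₀ : ℂ} (hz : Sh.Col z₀) {w : ℂ} (hw : w ∈ closedBall z₀ (Sh.dep z₀ / 2)) :
    (Sh.dep z₀ / Sh.Hb z₀) ^ 2 * ‖Sh.q w‖ ≤ 4 := by
  have hδ := hz.2.1
  have hHb := Sh.one_le_Hb hH z₀ hz
  have h1 := Sh.le_Hb hH z₀ hz w hw
  have h2 := Sh.s11b_dep_ge hw
  set σ := Real.sqrt ‖Sh.q w‖ with hσ
  have hσ0 : 0 ≤ σ := Real.sqrt_nonneg _
  have hσ2 : ‖Sh.q w‖ = σ ^ 2 := (Real.sq_sqrt (norm_nonneg _)).symm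
  have h3 : Sh.dep z₀ / 2 * σ ≤ Sh.Hb z₀ := by
    have : (Sh.dep z₀ - Sh.dep z₀ / 2) * σ ≤ Sh.dep w * σ := mul_le_mul_of_nonneg_right h2 hσ0
    nlinarith
  have h4 : Sh.dep z₀ / Sh.Hb z₀ * σ ≤ 2 := by
    rw [div_mul_eq_mul_div, div_le_iff₀ (by linarith)]
    linarith
  have h5 : 0 ≤ Sh.dep z₀ / Sh.Hb z₀ * σ := by positivity
  rw [hσ2, ← mul_pow]
  calc (Sh.dep z₀ / Sh.Hb z₀ * σ) ^ 2 ≤ 2 ^ 2 := pow_le_pow_left₀ h5 h4 2
    _ = 4 := by norm_num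

/-- (11.8) -/
theorem amp_osc (hH : Sh.H ≠ ⊤) : ∃ C : ℝ, 0 < C ∧ ∀ z₀ : ℂ, Sh.Col z₀ → ∀ z ∈ closedBall z₀ (3 * Sh.dep z₀ / 8),
    |Sh.AA z - Sh.AA z₀| ≤ C * Sh.Hb z₀ := by
  refine ⟨5, by norm_num, fun z₀ hz₀ z hz => ?_⟩
  have hδ := hz₀.2.1
  have hHb := Sh.one_le_Hb hH z₀ hz₀
  have hHb0 : 0 < Sh.Hb z₀ := by linarith
  set δ₀ := Sh.dep z₀ with hδ₀
  set lam := δ₀ / Sh.Hb z₀ with hlam
  have hlam0 : 0 < lam := div_pos hδ hHb0
  have hsub38 : closedBall z₀ (3 * δ₀ / 8) ⊆ closedBall z₀ (δ₀ / 2) := closedBall_subset_closedBall (by linarith)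
  have hsubD : closedBall z₀ (δ₀ / 2) ⊆ Sh.D := Sh.s11b_ball_subset hH (by linarith)
  have hseg : segment ℝ z₀ z ⊆ closedBall z₀ (3 * δ₀ / 8) :=
    (convex_closedBall z₀ _).segment_subset (mem_closedBall_self (by linarith)) hz
  have hD : ∀ w ∈ segment ℝ z₀ z, w ∈ Sh.D := fun w hw => hsubD (hsub38 (hseg hw))
  have hG := s11b_gronwall (F := Sh.f) (F1 := deriv Sh.f) (q := Sh.q) (z₀ := z₀) (z := z) hlam0
    (fun w hw => (Sh.sb_f_at (hD w hw)).hasDerivAt)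
    (fun w hw => by
      have h := ((Sh.sb_f'_diff w (hD w hw)).differentiableAt (Sh.sb_D_mem_nhds (hD w hw))).hasDerivAt
      rwa [Sh.sb_f_ode w (hD w hw)] at h)
    (fun w hw => Sh.s11b_q_le hH hz₀ (hsub38 (hseg hw)))
    (fun w hw => Sh.sb_f_f'_ne (hD w hw))
  have hcmp : ∀ w ∈ closedBall z₀ (3 * δ₀ / 8),
      |Sh.AA w - Real.log (‖Sh.f w‖ ^ 2 + lam ^ 2 * ‖deriv Sh.f w‖ ^ 2) / 2| ≤ 2 * Sh.Hb z₀ := by
    intro w hw
    have hne := Sh.sb_f_f'_ne (hsubD (hsub38 hw))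
    have h1 := Sh.s11b_dep_ge hw
    have h2 := Sh.s11b_dep_le hw
    exact s11b_compare (norm_nonneg _) (norm_nonneg _)
      (hne.imp norm_pos_iff.2 norm_pos_iff.2) hδ hHb (by linarith) (by linarith)
  have c1 := hcmp z hz
  have c0 := hcmp z₀ (mem_closedBall_self (by linarith))
  have hr : ‖z - z₀‖ ≤ 3 * δ₀ / 8 := by rwa [mem_closedBall, dist_eq_norm] at hz
  have hG2 : 5 * ‖z - z₀‖ / lam ≤ 15 / 8 * Sh.Hb z₀ := by
    rw [div_le_iff₀ hlam0, hlam]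
    have : 15 / 8 * Sh.Hb z₀ * (δ₀ / Sh.Hb z₀) = 15 / 8 * δ₀ := by field_simp
    rw [this]; linarith
  rw [abs_le] at c1 c0 hG ⊢
  constructor <;> linarith [c1.1, c1.2, c0.1, c0.2, hG.1, hG.2]

/-! ### LF-S11b-2: Lemma 11.3, logarithmic deficit: apply `LS.log_L2` to `G(ζ) = e^{-𝒜(z₀)} f(z₀ + (δ₀/8) ζ)`, `M = C H_b`:
`log|G| = a - 𝒜(z₀) ≤ 𝒜 - 𝒜(z₀) ≤ C H_b` on `|ζ| ≤ 3` (`amp_osc`); Cauchy on `|ζ| = 1/16`: `e^{𝒜(z₀)} = |F(0)| + 8|F'(0)| ≤ 129 sup_{|ζ| ≤ 1/16} |F|`;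
`𝒜 - a = (𝒜 - 𝒜(z₀)) - log|G|`. -/

/-- affine change of variables for `∫⁻` (no measurability assumption). -/
theorem s11b_lintegral_affine {E : Type*} [NormedAddCommGroup E] [NormedSpace ℝ E] [MeasurableSpace E] [BorelSpace E]
    [FiniteDimensional ℝ E] (μ : Measure E) [μ.IsAddHaarMeasure] (h : E → ℝ≥0∞) (x₀ : E) {r : ℝ} (hr : 0 < r)
    (s : Set E) :
    ∫⁻ x in s, h x ∂μ = ENNReal.ofReal (r ^ Module.finrank ℝ E) *
      ∫⁻ y in (fun y => x₀ + r • y) ⁻¹' s, h (x₀ + r • y) ∂μ := by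
  have hT : MeasurableEmbedding (fun y : E => x₀ + r • y) :=
    ((Homeomorph.smulOfNeZero r hr.ne').trans (Homeomorph.addLeft x₀)).measurableEmbedding
  have hmap : Measure.map (fun y : E => x₀ + r • y) μ = ENNReal.ofReal |(r ^ Module.finrank ℝ E)⁻¹| • μ := by
    have h1 : (fun y : E => x₀ + r • y) = (fun z => x₀ + z) ∘ (fun y => r • y) := rfl
    rw [h1, ← Measure.map_map (measurable_const_add x₀) (measurable_const_smul r),
      Measure.map_addHaar_smul μ hr.ne', Measure.map_smul, map_add_left_eq_self]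
  have h2 : ∫⁻ x in s, h x ∂(Measure.map (fun y : E => x₀ + r • y) μ)
      = ∫⁻ y in (fun y => x₀ + r • y) ⁻¹' s, h (x₀ + r • y) ∂μ := by
    rw [hT.restrict_map, hT.lintegral_map]
  rw [← h2, hmap, Measure.restrict_smul, lintegral_smul_measure, smul_eq_mul, ← mul_assoc,
    ← ENNReal.ofReal_mul (by positivity), abs_of_pos (by positivity), mul_inv_cancel₀ (by positivity),
    ENNReal.ofReal_one, one_mul]

theorem s11b_lintegral_ball (h : ℂ → ℝ≥0∞) (z₀ : ℂ) {r : ℝ} (hr : 0 < r) (R : ℝ) :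
    ∫⁻ z in closedBall z₀ (r * R), h z
      = ENNReal.ofReal (r ^ 2) * ∫⁻ ζ in closedBall (0 : ℂ) R, h (z₀ + (r : ℂ) * ζ) := by
  rw [s11b_lintegral_affine volume h z₀ hr, Complex.finrank_real_complex]
  have e : (fun y : ℂ => z₀ + r • y) ⁻¹' closedBall z₀ (r * R) = closedBall (0 : ℂ) R := by
    ext y
    simp only [mem_preimage, mem_closedBall, dist_eq_norm, add_sub_cancel_left, sub_zero, norm_smul,
      Real.norm_eq_abs, abs_of_pos hr]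
    exact mul_le_mul_iff_right₀ hr
  rw [e]
  simp only [Complex.real_smul]

theorem s11b_lintegral_Icc (h : ℝ → ℝ≥0∞) {r : ℝ} (hr : 0 < r) :
    ∫⁻ t in Icc (-r) r, h t = ENNReal.ofReal r * ∫⁻ τ in Icc (-1 : ℝ) 1, h (r * τ) := by
  rw [s11b_lintegral_affine volume h 0 hr, Module.finrank_self, pow_one]
  have e : (fun y : ℝ => 0 + r • y) ⁻¹' Icc (-r) r = Icc (-1 : ℝ) 1 := by
    ext y
    simp only [mem_preimage, mem_Icc, zero_add, smul_eq_mul]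
    constructor
    · rintro ⟨h1, h2⟩
      constructor <;> nlinarith
    · rintro ⟨h1, h2⟩
      constructor <;> nlinarith
  rw [e]
  simp only [zero_add, smul_eq_mul]

theorem s11b_tile_mem {z₀ ζ : ℂ} {R : ℝ} (h0 : 0 < Sh.dep z₀) (hζ : ζ ∈ closedBall (0 : ℂ) R) :
    z₀ + ((Sh.dep z₀ / 8 : ℝ) : ℂ) * ζ ∈ closedBall z₀ (Sh.dep z₀ / 8 * R) := by
  rw [mem_closedBall, dist_eq_norm, add_sub_cancel_left, norm_mul, Complex.norm_real, Real.norm_eq_abs,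
    abs_of_pos (by positivity)]
  rw [mem_closedBall, dist_zero_right] at hζ
  exact mul_le_mul_of_nonneg_left hζ (by positivity)

theorem s11b_exp_AA (hH : Sh.H ≠ ⊤) {z : ℂ} (hz : z ∈ Sh.D) :
    Real.exp (Sh.AA z) = ‖Sh.f z‖ + Sh.dep z * ‖deriv Sh.f z‖ := by
  have hd := (Sh.mem_D_iff hH z).1 hz
  refine Real.exp_log ?_
  rcases Sh.sb_f_f'_ne hz with h | h
  · have := norm_pos_iff.2 h; positivity
  · have := norm_pos_iff.2 h; positivity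

/-- the zeros of `f` are not seen by an atomless measure through an injective map. -/
theorem s11b_ae_ne {α : Type*} [MeasurableSpace α] (μ : Measure α) [NullSingletonClass μ] {g : α → ℂ}
    (hg : Function.Injective g) : ∀ᵐ a ∂μ, g a ∈ Sh.D → Sh.f (g a) ≠ 0 := by
  have hc : (g ⁻¹' {s | s ∈ Sh.D ∧ Sh.f s = 0}).Countable :=
    Sh.sb_countable_zeros.preimage_of_injOn hg.injOn
  have h0 := hc.measure_zero μ
  filter_upwards [measure_eq_zero_iff_ae_notMem.1 h0] with a ha hD hf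
  exact ha ⟨hD, hf⟩

/-- the normalised tile function satisfies the hypotheses of `LS.log_L2` and `LS.zero_shadow` with `M = C H_b(z₀)` -/
theorem tile_norm (hH : Sh.H ≠ ⊤) : ∃ C : ℝ, 1 ≤ C ∧ ∀ z₀ : ℂ, Sh.Col z₀ →
    AnalyticOnNhd ℂ (fun ζ : ℂ => (Real.exp (-Sh.AA z₀) : ℂ) * Sh.f (z₀ + ((Sh.dep z₀ / 8 : ℝ) : ℂ) * ζ)) (closedBall 0 3) ∧
    (∀ ζ ∈ closedBall (0 : ℂ) 3, ‖(Real.exp (-Sh.AA z₀) : ℂ) * Sh.f (z₀ + ((Sh.dep z₀ / 8 : ℝ) : ℂ) * ζ)‖ ≤ Real.exp (C * Sh.Hb z₀)) ∧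
    ∃ ζs ∈ closedBall (0 : ℂ) (1 / 16),
      Real.exp (-(C * Sh.Hb z₀)) ≤ ‖(Real.exp (-Sh.AA z₀) : ℂ) * Sh.f (z₀ + ((Sh.dep z₀ / 8 : ℝ) : ℂ) * ζs)‖ := by
  obtain ⟨C₀, hC₀, hosc⟩ := Sh.amp_osc hH
  refine ⟨max C₀ 8, le_trans (by norm_num) (le_max_right _ _), fun z₀ hz₀ => ?_⟩
  have hδ := hz₀.2.1
  have hHb := Sh.one_le_Hb hH z₀ hz₀
  have hsubD : closedBall z₀ (3 * Sh.dep z₀ / 8) ⊆ Sh.D := Sh.s11b_ball_subset hH (by linarith)
  have hT3 : ∀ ζ ∈ closedBall (0 : ℂ) 3,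
      z₀ + ((Sh.dep z₀ / 8 : ℝ) : ℂ) * ζ ∈ closedBall z₀ (3 * Sh.dep z₀ / 8) := by
    intro ζ hζ
    have h := Sh.s11b_tile_mem hδ hζ
    have e : Sh.dep z₀ / 8 * 3 = 3 * Sh.dep z₀ / 8 := by ring
    rwa [e] at h
  refine ⟨?_, ?_, ?_⟩
  · intro ζ hζ
    have h1 : AnalyticAt ℂ Sh.f (z₀ + ((Sh.dep z₀ / 8 : ℝ) : ℂ) * ζ) := Sh.sb_f_analytic _ (hsubD (hT3 ζ hζ))
    have h2 : AnalyticAt ℂ (fun ζ : ℂ => z₀ + ((Sh.dep z₀ / 8 : ℝ) : ℂ) * ζ) ζ :=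
      analyticAt_const.add (analyticAt_const.mul analyticAt_id)
    exact analyticAt_const.mul (AnalyticAt.comp (g := Sh.f)
      (f := fun ζ : ℂ => z₀ + ((Sh.dep z₀ / 8 : ℝ) : ℂ) * ζ) h1 h2)
  · intro ζ hζ
    have hw := hT3 ζ hζ
    have hD := hsubD hw
    have h1 : ‖Sh.f (z₀ + ((Sh.dep z₀ / 8 : ℝ) : ℂ) * ζ)‖
        ≤ Real.exp (Sh.AA (z₀ + ((Sh.dep z₀ / 8 : ℝ) : ℂ) * ζ)) := by
      rw [Sh.s11b_exp_AA hH hD]
      have h3 := (Sh.mem_D_iff hH _).1 hD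
      have : 0 ≤ Sh.dep (z₀ + ((Sh.dep z₀ / 8 : ℝ) : ℂ) * ζ)
          * ‖deriv Sh.f (z₀ + ((Sh.dep z₀ / 8 : ℝ) : ℂ) * ζ)‖ := by positivity
      linarith
    have h2 := (abs_le.1 (hosc z₀ hz₀ _ hw)).2
    rw [norm_mul, Complex.norm_real, Real.norm_eq_abs, abs_of_pos (Real.exp_pos _)]
    calc Real.exp (-Sh.AA z₀) * ‖Sh.f (z₀ + ((Sh.dep z₀ / 8 : ℝ) : ℂ) * ζ)‖
        ≤ Real.exp (-Sh.AA z₀) * Real.exp (Sh.AA (z₀ + ((Sh.dep z₀ / 8 : ℝ) : ℂ) * ζ)) :=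
          mul_le_mul_of_nonneg_left h1 (Real.exp_pos _).le
      _ = Real.exp (Sh.AA (z₀ + ((Sh.dep z₀ / 8 : ℝ) : ℂ) * ζ) - Sh.AA z₀) := by
          rw [← Real.exp_add]; ring_nf
      _ ≤ Real.exp (max C₀ 8 * Sh.Hb z₀) := Real.exp_le_exp.2
          (h2.trans (mul_le_mul_of_nonneg_right (le_max_left _ _) (by linarith)))
  · have hρ0 : 0 < Sh.dep z₀ / 128 := by positivity
    have hsubρ : closedBall z₀ (Sh.dep z₀ / 128) ⊆ Sh.D := Sh.s11b_ball_subset hH (by linarith)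
    obtain ⟨ws, hws, hmax⟩ := (isCompact_closedBall z₀ (Sh.dep z₀ / 128)).exists_isMaxOn
      (nonempty_closedBall.2 hρ0.le) ((Sh.sb_f_diff.continuousOn.mono hsubρ).norm)
    have hmax' : ∀ w ∈ closedBall z₀ (Sh.dep z₀ / 128), ‖Sh.f w‖ ≤ ‖Sh.f ws‖ := fun w hw => hmax hw
    have hc : ‖deriv Sh.f z₀‖ ≤ ‖Sh.f ws‖ / (Sh.dep z₀ / 128) :=
      Complex.norm_deriv_le_of_forall_mem_sphere_norm_le hρ0 (Sh.sb_f_diff.diffContOnCl_ball hsubρ)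
        (fun w hw => hmax' w (sphere_subset_closedBall hw))
    have hA : Real.exp (Sh.AA z₀) ≤ 129 * ‖Sh.f ws‖ := by
      rw [Sh.s11b_exp_AA hH (hsubρ (mem_closedBall_self hρ0.le))]
      have h0 := hmax' z₀ (mem_closedBall_self hρ0.le)
      have : Sh.dep z₀ * ‖deriv Sh.f z₀‖ ≤ 128 * ‖Sh.f ws‖ := by
        calc Sh.dep z₀ * ‖deriv Sh.f z₀‖ ≤ Sh.dep z₀ * (‖Sh.f ws‖ / (Sh.dep z₀ / 128)) :=
              mul_le_mul_of_nonneg_left hc hδ.le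
          _ = 128 * ‖Sh.f ws‖ := by field_simp
      linarith
    have hr8 : (0 : ℝ) < Sh.dep z₀ / 8 := by positivity
    refine ⟨(ws - z₀) / ((Sh.dep z₀ / 8 : ℝ) : ℂ), ?_, ?_⟩
    · rw [mem_closedBall, dist_zero_right, norm_div, Complex.norm_real, Real.norm_eq_abs, abs_of_pos hr8,
        div_le_iff₀ hr8]
      rw [mem_closedBall, dist_eq_norm] at hws
      linarith
    · have e : z₀ + ((Sh.dep z₀ / 8 : ℝ) : ℂ) * ((ws - z₀) / ((Sh.dep z₀ / 8 : ℝ) : ℂ)) = ws := by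
        have h8 : ((Sh.dep z₀ / 8 : ℝ) : ℂ) ≠ 0 := Complex.ofReal_ne_zero.2 hr8.ne'
        rw [mul_div_cancel₀ _ h8]; ring
      rw [e, norm_mul, Complex.norm_real, Real.norm_eq_abs, abs_of_pos (Real.exp_pos _)]
      have e8 : (129 : ℝ) ≤ Real.exp 8 := by
        have h2 : (2 : ℝ) ≤ Real.exp 1 := by have := Real.add_one_le_exp (1 : ℝ); linarith
        have h3 : Real.exp 8 = Real.exp 1 ^ 8 := by rw [← Real.exp_nat_mul]; norm_num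
        rw [h3]
        calc (129 : ℝ) ≤ 2 ^ 8 := by norm_num
          _ ≤ Real.exp 1 ^ 8 := pow_le_pow_left₀ (by norm_num) h2 8
      have h8 : Real.exp (-(max C₀ 8 * Sh.Hb z₀)) ≤ 1 / 129 := by
        have h4 : (8 : ℝ) ≤ max C₀ 8 * Sh.Hb z₀ := by
          have := le_max_right C₀ 8
          nlinarith
        calc Real.exp (-(max C₀ 8 * Sh.Hb z₀)) ≤ Real.exp (-8) := Real.exp_le_exp.2 (by linarith)
          _ = 1 / Real.exp 8 := by rw [Real.exp_neg, one_div]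
          _ ≤ 1 / 129 := one_div_le_one_div_of_le (by norm_num) e8
      have h9 : 1 / 129 ≤ Real.exp (-Sh.AA z₀) * ‖Sh.f ws‖ := by
        rw [Real.exp_neg, ← div_eq_inv_mul, le_div_iff₀ (Real.exp_pos _)]
        linarith
      linarith

/-- the pointwise bound behind `amp_area`, `amp_seg`. -/
theorem s11b_def_le {C₀ : ℝ} {z₀ : ℂ} (hosc : ∀ z ∈ closedBall z₀ (3 * Sh.dep z₀ / 8), |Sh.AA z - Sh.AA z₀| ≤ C₀ * Sh.Hb z₀)
    (h0 : 0 < Sh.dep z₀) {ζ : ℂ} (hζ : ζ ∈ closedBall (0 : ℂ) 1)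
    (hf : Sh.f (z₀ + ((Sh.dep z₀ / 8 : ℝ) : ℂ) * ζ) ≠ 0) :
    (Sh.AA (z₀ + ((Sh.dep z₀ / 8 : ℝ) : ℂ) * ζ) - Sh.aa (z₀ + ((Sh.dep z₀ / 8 : ℝ) : ℂ) * ζ)) ^ 2
      ≤ 2 * (C₀ * Sh.Hb z₀) ^ 2
        + 2 * Real.log ‖(Real.exp (-Sh.AA z₀) : ℂ) * Sh.f (z₀ + ((Sh.dep z₀ / 8 : ℝ) : ℂ) * ζ)‖ ^ 2 := by
  have hw : z₀ + ((Sh.dep z₀ / 8 : ℝ) : ℂ) * ζ ∈ closedBall z₀ (3 * Sh.dep z₀ / 8) :=
    closedBall_subset_closedBall (by linarith) (Sh.s11b_tile_mem h0 hζ)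
  have h1 := hosc _ hw
  rw [norm_mul, Complex.norm_real, Real.norm_eq_abs, abs_of_pos (Real.exp_pos _),
    Real.log_mul (Real.exp_pos _).ne' (norm_ne_zero_iff.2 hf), Real.log_exp]
  have h2 : (Sh.AA (z₀ + ((Sh.dep z₀ / 8 : ℝ) : ℂ) * ζ) - Sh.AA z₀) ^ 2 ≤ (C₀ * Sh.Hb z₀) ^ 2 :=
    sq_le_sq' (abs_le.1 h1).1 (abs_le.1 h1).2
  have e : Real.log ‖Sh.f (z₀ + ((Sh.dep z₀ / 8 : ℝ) : ℂ) * ζ)‖ = Sh.aa (z₀ + ((Sh.dep z₀ / 8 : ℝ) : ℂ) * ζ) := rfl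
  rw [e]
  generalize Sh.AA (z₀ + ((Sh.dep z₀ / 8 : ℝ) : ℂ) * ζ) = X at *
  generalize Sh.aa (z₀ + ((Sh.dep z₀ / 8 : ℝ) : ℂ) * ζ) = Y at *
  nlinarith [sq_nonneg ((X - Sh.AA z₀) + (-Sh.AA z₀ + Y))]

/-- area `L²` norm of `𝒜 - a` on `B(z₀, δ₀/8)` -/
theorem amp_area (hH : Sh.H ≠ ⊤) : ∃ C : ℝ, 0 < C ∧ ∀ z₀ : ℂ, Sh.Col z₀ →
    ∫⁻ z in closedBall z₀ (Sh.dep z₀ / 8), ENNReal.ofReal ((Sh.AA z - Sh.aa z) ^ 2)
      ≤ ENNReal.ofReal (C * Sh.Hb z₀ ^ 2 * Sh.dep z₀ ^ 2) := by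
  obtain ⟨C₀, hC₀, hosc⟩ := Sh.amp_osc hH
  obtain ⟨C₁, hC₁, htile⟩ := Sh.tile_norm hH
  obtain ⟨C₂, hC₂, hL2⟩ := LS.log_L2
  refine ⟨(2 * C₀ ^ 2 * π + 2 * (C₂ * C₁ ^ 2)) / 64, by positivity, fun z₀ hz₀ => ?_⟩
  have hδ := hz₀.2.1
  have hHb := Sh.one_le_Hb hH z₀ hz₀
  obtain ⟨ha, hb, hc⟩ := htile z₀ hz₀
  have hM : 1 ≤ C₁ * Sh.Hb z₀ := by nlinarith
  have hL := (hL2 _ (C₁ * Sh.Hb z₀) hM ha hb hc).1
  have hr8 : (0 : ℝ) < Sh.dep z₀ / 8 := by positivity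
  have hsubD : closedBall z₀ (3 * Sh.dep z₀ / 8) ⊆ Sh.D := Sh.s11b_ball_subset hH (by linarith)
  have e : closedBall z₀ (Sh.dep z₀ / 8) = closedBall z₀ (Sh.dep z₀ / 8 * 1) := by rw [mul_one]
  rw [e, s11b_lintegral_ball _ z₀ hr8 1]
  have hinj : Function.Injective (fun ζ : ℂ => z₀ + ((Sh.dep z₀ / 8 : ℝ) : ℂ) * ζ) := by
    intro a b hab
    exact mul_left_cancel₀ (Complex.ofReal_ne_zero.2 hr8.ne') (add_left_cancel hab)
  have hae : ∀ᵐ ζ ∂(volume.restrict (closedBall (0 : ℂ) 1)),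
      ENNReal.ofReal ((Sh.AA (z₀ + ((Sh.dep z₀ / 8 : ℝ) : ℂ) * ζ) - Sh.aa (z₀ + ((Sh.dep z₀ / 8 : ℝ) : ℂ) * ζ)) ^ 2)
        ≤ ENNReal.ofReal (2 * (C₀ * Sh.Hb z₀) ^ 2) + 2 * ENNReal.ofReal
          (Real.log ‖(Real.exp (-Sh.AA z₀) : ℂ) * Sh.f (z₀ + ((Sh.dep z₀ / 8 : ℝ) : ℂ) * ζ)‖ ^ 2) := by
    rw [ae_restrict_iff' measurableSet_closedBall]
    filter_upwards [Sh.s11b_ae_ne volume hinj] with ζ hne hζ
    have hw : z₀ + ((Sh.dep z₀ / 8 : ℝ) : ℂ) * ζ ∈ closedBall z₀ (3 * Sh.dep z₀ / 8) :=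
      closedBall_subset_closedBall (by linarith) (Sh.s11b_tile_mem hδ hζ)
    have h1 := Sh.s11b_def_le (hosc z₀ hz₀) hδ hζ (hne (hsubD hw))
    have e2 : (2 : ℝ≥0∞) = ENNReal.ofReal 2 := by simp
    rw [e2, ← ENNReal.ofReal_mul (by norm_num), ← ENNReal.ofReal_add (by positivity) (by positivity)]
    exact ENNReal.ofReal_le_ofReal h1
  have hvol : volume (closedBall (0 : ℂ) 1) = ENNReal.ofReal π := by
    rw [Complex.volume_closedBall]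
    simp [← NNReal.coe_real_pi, ENNReal.ofReal_coe_nnreal]
  calc ENNReal.ofReal ((Sh.dep z₀ / 8) ^ 2) * ∫⁻ ζ in closedBall (0 : ℂ) 1,
        ENNReal.ofReal ((Sh.AA (z₀ + ((Sh.dep z₀ / 8 : ℝ) : ℂ) * ζ) - Sh.aa (z₀ + ((Sh.dep z₀ / 8 : ℝ) : ℂ) * ζ)) ^ 2)
      ≤ ENNReal.ofReal ((Sh.dep z₀ / 8) ^ 2) * ∫⁻ ζ in closedBall (0 : ℂ) 1,
        (ENNReal.ofReal (2 * (C₀ * Sh.Hb z₀) ^ 2) + 2 * ENNReal.ofReal
          (Real.log ‖(Real.exp (-Sh.AA z₀) : ℂ) * Sh.f (z₀ + ((Sh.dep z₀ / 8 : ℝ) : ℂ) * ζ)‖ ^ 2)) :=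
        mul_le_mul_right (lintegral_mono_ae hae) _
    _ = ENNReal.ofReal ((Sh.dep z₀ / 8) ^ 2) * (ENNReal.ofReal (2 * (C₀ * Sh.Hb z₀) ^ 2) * ENNReal.ofReal π
        + 2 * ∫⁻ ζ in closedBall (0 : ℂ) 1, ENNReal.ofReal
          (Real.log ‖(Real.exp (-Sh.AA z₀) : ℂ) * Sh.f (z₀ + ((Sh.dep z₀ / 8 : ℝ) : ℂ) * ζ)‖ ^ 2)) := by
        rw [lintegral_add_left measurable_const, setLIntegral_const, hvol,
          lintegral_const_mul' _ _ (by norm_num)]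
    _ ≤ ENNReal.ofReal ((Sh.dep z₀ / 8) ^ 2) * (ENNReal.ofReal (2 * (C₀ * Sh.Hb z₀) ^ 2) * ENNReal.ofReal π
        + 2 * ENNReal.ofReal (C₂ * (C₁ * Sh.Hb z₀) ^ 2)) := by
        gcongr
    _ = ENNReal.ofReal ((2 * C₀ ^ 2 * π + 2 * (C₂ * C₁ ^ 2)) / 64 * Sh.Hb z₀ ^ 2 * Sh.dep z₀ ^ 2) := by
        have e2 : (2 : ℝ≥0∞) = ENNReal.ofReal 2 := by simp
        rw [e2, ← ENNReal.ofReal_mul (by positivity), ← ENNReal.ofReal_mul (by norm_num),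
          ← ENNReal.ofReal_add (by positivity) (by positivity), ← ENNReal.ofReal_mul (by positivity)]
        congr 1; ring

/-- length `L²` norm of `𝒜 - a` on the horizontal diameter of `B(z₀, δ₀/8)` -/
theorem amp_seg (hH : Sh.H ≠ ⊤) : ∃ C : ℝ, 0 < C ∧ ∀ z₀ : ℂ, Sh.Col z₀ →
    ∫⁻ t in Icc (-(Sh.dep z₀ / 8)) (Sh.dep z₀ / 8), ENNReal.ofReal ((Sh.AA (z₀ + (t : ℂ)) - Sh.aa (z₀ + (t : ℂ))) ^ 2)
      ≤ ENNReal.ofReal (C * Sh.Hb z₀ ^ 2 * Sh.dep z₀) := by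
  obtain ⟨C₀, hC₀, hosc⟩ := Sh.amp_osc hH
  obtain ⟨C₁, hC₁, htile⟩ := Sh.tile_norm hH
  obtain ⟨C₂, hC₂, hL2⟩ := LS.log_L2
  refine ⟨(4 * C₀ ^ 2 + 2 * (C₂ * C₁ ^ 2)) / 8, by positivity, fun z₀ hz₀ => ?_⟩
  have hδ := hz₀.2.1
  have hHb := Sh.one_le_Hb hH z₀ hz₀
  obtain ⟨ha, hb, hc⟩ := htile z₀ hz₀
  have hM : 1 ≤ C₁ * Sh.Hb z₀ := by nlinarith
  have hL := (hL2 _ (C₁ * Sh.Hb z₀) hM ha hb hc).2
  have hr8 : (0 : ℝ) < Sh.dep z₀ / 8 := by positivity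
  have hsubD : closedBall z₀ (3 * Sh.dep z₀ / 8) ⊆ Sh.D := Sh.s11b_ball_subset hH (by linarith)
  rw [s11b_lintegral_Icc _ hr8]
  have hinj : Function.Injective (fun τ : ℝ => z₀ + ((Sh.dep z₀ / 8 : ℝ) : ℂ) * (τ : ℂ)) := by
    intro a b hab
    exact Complex.ofReal_injective (mul_left_cancel₀ (Complex.ofReal_ne_zero.2 hr8.ne') (add_left_cancel hab))
  have hae : ∀ᵐ τ ∂(volume.restrict (Icc (-1 : ℝ) 1)),
      ENNReal.ofReal ((Sh.AA (z₀ + ((Sh.dep z₀ / 8 * τ : ℝ) : ℂ)) - Sh.aa (z₀ + ((Sh.dep z₀ / 8 * τ : ℝ) : ℂ))) ^ 2)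
        ≤ ENNReal.ofReal (2 * (C₀ * Sh.Hb z₀) ^ 2) + 2 * ENNReal.ofReal
          (Real.log ‖(Real.exp (-Sh.AA z₀) : ℂ) * Sh.f (z₀ + ((Sh.dep z₀ / 8 : ℝ) : ℂ) * (τ : ℂ))‖ ^ 2) := by
    rw [ae_restrict_iff' measurableSet_Icc]
    filter_upwards [Sh.s11b_ae_ne volume hinj] with τ hne hτ
    have hζ : (τ : ℂ) ∈ closedBall (0 : ℂ) 1 := by
      rw [mem_closedBall, dist_zero_right, Complex.norm_real, Real.norm_eq_abs, abs_le]
      exact hτ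
    have hw : z₀ + ((Sh.dep z₀ / 8 : ℝ) : ℂ) * (τ : ℂ) ∈ closedBall z₀ (3 * Sh.dep z₀ / 8) :=
      closedBall_subset_closedBall (by linarith) (Sh.s11b_tile_mem hδ hζ)
    have h1 := Sh.s11b_def_le (hosc z₀ hz₀) hδ hζ (hne (hsubD hw))
    have e2 : (2 : ℝ≥0∞) = ENNReal.ofReal 2 := by simp
    rw [e2, ← ENNReal.ofReal_mul (by norm_num), ← ENNReal.ofReal_add (by positivity) (by positivity),
      Complex.ofReal_mul]
    exact ENNReal.ofReal_le_ofReal h1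
  have hvol : volume (Icc (-1 : ℝ) 1) = ENNReal.ofReal 2 := by
    rw [Real.volume_Icc]; norm_num
  calc ENNReal.ofReal (Sh.dep z₀ / 8) * ∫⁻ τ in Icc (-1 : ℝ) 1,
        ENNReal.ofReal ((Sh.AA (z₀ + ((Sh.dep z₀ / 8 * τ : ℝ) : ℂ)) - Sh.aa (z₀ + ((Sh.dep z₀ / 8 * τ : ℝ) : ℂ))) ^ 2)
      ≤ ENNReal.ofReal (Sh.dep z₀ / 8) * ∫⁻ τ in Icc (-1 : ℝ) 1,
        (ENNReal.ofReal (2 * (C₀ * Sh.Hb z₀) ^ 2) + 2 * ENNReal.ofReal
          (Real.log ‖(Real.exp (-Sh.AA z₀) : ℂ) * Sh.f (z₀ + ((Sh.dep z₀ / 8 : ℝ) : ℂ) * (τ : ℂ))‖ ^ 2)) :=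
        mul_le_mul_right (lintegral_mono_ae hae) _
    _ = ENNReal.ofReal (Sh.dep z₀ / 8) * (ENNReal.ofReal (2 * (C₀ * Sh.Hb z₀) ^ 2) * ENNReal.ofReal 2
        + 2 * ∫⁻ τ in Icc (-1 : ℝ) 1, ENNReal.ofReal
          (Real.log ‖(Real.exp (-Sh.AA z₀) : ℂ) * Sh.f (z₀ + ((Sh.dep z₀ / 8 : ℝ) : ℂ) * (τ : ℂ))‖ ^ 2)) := by
        rw [lintegral_add_left measurable_const, setLIntegral_const, hvol,
          lintegral_const_mul' _ _ (by norm_num)]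
    _ ≤ ENNReal.ofReal (Sh.dep z₀ / 8) * (ENNReal.ofReal (2 * (C₀ * Sh.Hb z₀) ^ 2) * ENNReal.ofReal 2
        + 2 * ENNReal.ofReal (C₂ * (C₁ * Sh.Hb z₀) ^ 2)) := by
        gcongr
    _ = ENNReal.ofReal ((4 * C₀ ^ 2 + 2 * (C₂ * C₁ ^ 2)) / 8 * Sh.Hb z₀ ^ 2 * Sh.dep z₀) := by
        have e2 : (2 : ℝ≥0∞) = ENNReal.ofReal 2 := by simp
        rw [e2, ← ENNReal.ofReal_mul (by positivity), ← ENNReal.ofReal_mul (by norm_num),
          ← ENNReal.ofReal_add (by positivity) (by positivity), ← ENNReal.ofReal_mul (by positivity)]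
        congr 1; ring

/-! ### LF-S11b-3: the tile estimates (11.9) under the low-moment hypothesis -/

/-- a period integral of a periodic function does not see translations (no measurability assumption). -/
theorem s11b_lintegral_shift {h : ℝ → ℝ≥0∞} {T : ℝ} (hT : 0 < T) (hper : Function.Periodic h T) (a : ℝ) :
    ∫⁻ x in Icc 0 T, h (x + a) = ∫⁻ x in Icc 0 T, h x := by
  have : Fact (0 < T) := ⟨hT⟩
  have key : ∀ t : ℝ, ∫⁻ x in Ioc t (t + T), h x = ∫⁻ b : AddCircle T, hper.lift b := by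
    intro t
    rw [← AddCircle.lintegral_preimage T t hper.lift]
    simp only [Function.Periodic.lift_coe]
  rw [← restrict_Ioc_eq_restrict_Icc]
  have h1 : ∫⁻ x in Ioc 0 T, h (x + a) = ∫⁻ y in Ioc a (a + T), h y := by
    rw [s11b_lintegral_affine volume h a one_pos (Ioc a (a + T))]
    have e : (fun y : ℝ => a + (1 : ℝ) • y) ⁻¹' Ioc a (a + T) = Ioc 0 T := by
      ext y
      simp only [mem_preimage, mem_Ioc, one_smul, lt_add_iff_pos_right, add_le_add_iff_left]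
    rw [e]
    simp only [one_pow, ENNReal.ofReal_one, one_mul, one_smul, add_comm a]
  rw [h1, key a, ← key 0, zero_add]

theorem s11b_volume_ball {r : ℝ} (hr : 0 ≤ r) : volume (closedBall (0 : ℂ) r) = ENNReal.ofReal (π * r ^ 2) := by
  rw [Complex.volume_closedBall, ← ENNReal.ofReal_pow hr, ← ENNReal.ofReal_coe_nnreal (p := NNReal.pi),
    NNReal.coe_real_pi, ← ENNReal.ofReal_mul (by positivity), mul_comm]

theorem s11b_up_add (x a d : ℝ) : Sh.up (x + a) d = Sh.up x d + (a : ℂ) := by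
  apply Complex.ext <;> simp [up]

theorem s11b_up_mem (hH : Sh.H ≠ ⊤) {d : ℝ} (h0 : 0 < d) (hd : d ≤ Sh.Hr) (x : ℝ) : Sh.up x d ∈ Sh.D :=
  (Sh.mem_D_iff hH _).2 (by rw [Sh.dep_up x d hd]; exact h0)

theorem s11b_continuous_up (d : ℝ) : Continuous fun x : ℝ => Sh.up x d := by
  have e : (fun x : ℝ => Sh.up x d) = fun x : ℝ => (x : ℂ) + ((Sh.Hr - d : ℝ) : ℂ) * I := by
    funext x; simp only [up, Complex.mk_eq_add_mul_I]
  rw [e]
  exact Complex.continuous_ofReal.add continuous_const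

theorem s11b_μ_nonneg (v : ℝ) : 0 ≤ Sh.μ v := mul_nonneg (Real.exp_pos _).le (Real.sqrt_nonneg _)

theorem s11b_col {d : ℝ} (h0 : 0 < d) (h4 : d < Sh.Hr / 4) (x : ℝ) : Sh.Col (Sh.up x d) := by
  have hd : d ≤ Sh.Hr := by linarith
  refine ⟨?_, by rw [Sh.dep_up x d hd]; exact h0, by rw [Sh.dep_up x d hd]; exact h4⟩
  simp only [up]
  linarith

theorem s11b_K0 (hH : Sh.H ≠ ⊤) : ∃ K0 : ℝ, 30 ≤ K0 ∧ ∀ v, 0.9 * K0 ≤ v → Real.exp (-v) < Sh.Hr / 4 := by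
  have hHr := Sh.sb_Hr_pos hH
  refine ⟨max 30 (2 * |Real.log (Sh.Hr / 4)| + 1), le_max_left _ _, fun v hv => ?_⟩
  have h1 : 2 * |Real.log (Sh.Hr / 4)| + 1 ≤ max 30 (2 * |Real.log (Sh.Hr / 4)| + 1) := le_max_right _ _
  have h2 := neg_abs_le (Real.log (Sh.Hr / 4))
  have h3 := abs_nonneg (Real.log (Sh.Hr / 4))
  rw [← Real.lt_log_iff_exp_lt (by positivity)]
  linarith

theorem s11b_tile_row (d x : ℝ) (ζ : ℂ) :
    Sh.up x d + (d : ℂ) * ζ = Sh.up (x + d * ζ.re) (d * (1 - ζ.im)) := by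
  apply Complex.ext
  · simp [up]
  · simp [up]; ring

/-- a translated row integral of `|q|`. -/
theorem s11b_row_q (hH : Sh.H ≠ ⊤) (v : ℝ) (hv : Real.exp (-v) < Sh.Hr) (a : ℝ) :
    ∫⁻ x in Icc (0 : ℝ) (2 * π), ENNReal.ofReal ‖Sh.q (Sh.up (x + a) (Real.exp (-v)))‖
      ≤ ENNReal.ofReal (2 * π * Real.exp (2 * v) * Sh.μ v ^ 2) := by
  have hper : Function.Periodic (fun x : ℝ => ENNReal.ofReal ‖Sh.q (Sh.up x (Real.exp (-v)))‖) (2 * π) := by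
    intro x
    simp only
    have e : ((2 * π : ℝ) : ℂ) = 2 * (π : ℂ) := by push_cast; ring
    rw [Sh.s11b_up_add, e, Sh.q_per _ (Sh.s11b_up_mem hH (Real.exp_pos _) hv.le x)]
  calc ∫⁻ x in Icc (0 : ℝ) (2 * π), ENNReal.ofReal ‖Sh.q (Sh.up (x + a) (Real.exp (-v)))‖
      = ∫⁻ x in Icc (0 : ℝ) (2 * π), ENNReal.ofReal ‖Sh.q (Sh.up x (Real.exp (-v)))‖ :=
        s11b_lintegral_shift Real.two_pi_pos hper a
    _ ≤ ∫⁻ x in Icc (0 : ℝ) (2 * π), ENNReal.ofReal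
          (‖Sh.f (Sh.up x (Real.exp (-v)))‖ ^ 2 + ‖Sh.q (Sh.up x (Real.exp (-v)))‖) := by
        refine lintegral_mono fun x => ENNReal.ofReal_le_ofReal ?_
        have : 0 ≤ ‖Sh.f (Sh.up x (Real.exp (-v)))‖ ^ 2 := by positivity
        linarith
    _ = ENNReal.ofReal (2 * π * Real.exp (2 * v) * Sh.μ v ^ 2) := Sh.lintegral_row hH v hv

/-- submean for `|q|` on discs of radius `δ₀/4` (`LS.norm_le_area_mean`): `(H_b - 1)² ≤ (9/4)(16/π) ∫_{B(z₀, 3δ₀/4)} |q|` -/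
theorem Hb_sq_le (hH : Sh.H ≠ ⊤) (z₀ : ℂ) (hz : Sh.Col z₀) :
    ENNReal.ofReal (Sh.Hb z₀ ^ 2) ≤ 2 + 24 * Sh.Eq z₀ := by
  have hδ := hz.2.1
  have hsub : closedBall z₀ (Sh.dep z₀ / 2) ⊆ Sh.D := Sh.s11b_ball_subset hH (by linarith)
  have hsub34 : closedBall z₀ (3 * Sh.dep z₀ / 4) ⊆ Sh.D := Sh.s11b_ball_subset hH (by linarith)
  obtain ⟨z₁, hz₁, hmax⟩ := (isCompact_closedBall z₀ (Sh.dep z₀ / 2)).exists_isMaxOn
    (nonempty_closedBall.2 (by linarith))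
    (Sh.s11b_continuous_dep.continuousOn.mul
      (Real.continuous_sqrt.comp_continuousOn ((Sh.q_diff.continuousOn.mono hsub).norm)))
  have hS : Sh.Hb z₀ = 1 + Sh.dep z₁ * Real.sqrt ‖Sh.q z₁‖ := by
    unfold Hb
    congr 1
    refine IsGreatest.csSup_eq ⟨mem_image_of_mem _ hz₁, ?_⟩
    rintro _ ⟨w, hw, rfl⟩
    exact hmax hw
  have hball : closedBall z₁ (Sh.dep z₀ / 4) ⊆ closedBall z₀ (3 * Sh.dep z₀ / 4) := by
    refine closedBall_subset_closedBall' ?_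
    rw [mem_closedBall] at hz₁
    linarith
  have hm := LS.norm_le_area_mean Sh.q z₁ (Sh.dep z₀ / 4) (by positivity)
    (Sh.q_diff.diffContOnCl_ball (hball.trans hsub34))
  have hint : IntegrableOn (fun z => ‖Sh.q z‖) (ball z₁ (Sh.dep z₀ / 4)) :=
    (((Sh.q_diff.continuousOn.mono (hball.trans hsub34)).norm).integrableOn_compact
      (isCompact_closedBall _ _)).mono_set ball_subset_closedBall
  have h1 : ENNReal.ofReal (∫ z in ball z₁ (Sh.dep z₀ / 4), ‖Sh.q z‖) ≤ Sh.Eq z₀ := by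
    rw [ofReal_integral_eq_lintegral_ofReal hint (ae_of_all _ fun _ => norm_nonneg _)]
    exact lintegral_mono_set (ball_subset_closedBall.trans hball)
  have hJ0 : 0 ≤ ∫ z in ball z₁ (Sh.dep z₀ / 4), ‖Sh.q z‖ := integral_nonneg fun _ => norm_nonneg _
  have h2 : Sh.Hb z₀ ^ 2 ≤ 2 + 24 * ∫ z in ball z₁ (Sh.dep z₀ / 4), ‖Sh.q z‖ := by
    rw [hS]
    generalize (∫ z in ball z₁ (Sh.dep z₀ / 4), ‖Sh.q z‖) = J at hm hJ0
    have hd1 := Sh.s11b_dep_le hz₁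
    have hd0 : 0 ≤ Sh.dep z₁ := by have := Sh.s11b_dep_ge hz₁; linarith
    set σ := Real.sqrt ‖Sh.q z₁‖ with hσ
    have hσ0 : 0 ≤ σ := Real.sqrt_nonneg _
    have hσ2 : ‖Sh.q z₁‖ = σ ^ 2 := (Real.sq_sqrt (norm_nonneg _)).symm
    rw [hσ2] at hm
    have hπ3 := Real.pi_gt_three
    have i1 : (Sh.dep z₁ * σ) ^ 2 ≤ (3 * Sh.dep z₀ / 2 * σ) ^ 2 :=
      pow_le_pow_left₀ (by positivity) (mul_le_mul_of_nonneg_right (by linarith) hσ0) 2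
    have i2 : 3 * (Sh.dep z₀ / 4) ^ 2 * σ ^ 2 ≤ J := by
      have : 3 * ((Sh.dep z₀ / 4) ^ 2 * σ ^ 2) ≤ π * ((Sh.dep z₀ / 4) ^ 2 * σ ^ 2) :=
        mul_le_mul_of_nonneg_right hπ3.le (by positivity)
      nlinarith
    nlinarith [sq_nonneg (1 - Sh.dep z₁ * σ)]
  calc ENNReal.ofReal (Sh.Hb z₀ ^ 2)
      ≤ ENNReal.ofReal (2 + 24 * ∫ z in ball z₁ (Sh.dep z₀ / 4), ‖Sh.q z‖) := ENNReal.ofReal_le_ofReal h2
    _ = 2 + 24 * ENNReal.ofReal (∫ z in ball z₁ (Sh.dep z₀ / 4), ‖Sh.q z‖) := by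
        rw [ENNReal.ofReal_add (by norm_num) (by positivity), ENNReal.ofReal_mul (by norm_num)]
        simp
    _ ≤ 2 + 24 * Sh.Eq z₀ := by gcongr

/-- `∫_x ∫_{B(z₀, 3δ₀/4)} |q| ≤ C K^{2α}` (Tonelli, periodicity, `lintegral_row`, rows of depth in `[d/4, 7d/4]`) -/
theorem tile_Eq (h : Sh.CritPoly) : ∃ C K0 : ℝ, 0 < C ∧ ∀ K, K0 ≤ K → Sh.LowMom K → ∀ v ∈ Icc K (2 * K),
    ∫⁻ x in Icc (0 : ℝ) (2 * π), Sh.Eq (Sh.up x (Real.exp (-v))) ≤ ENNReal.ofReal (C * K ^ ((2 : ℝ) / 100)) := by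
  have hH := h.fin
  obtain ⟨K0, hK30, hK0⟩ := Sh.s11b_K0 hH
  refine ⟨18 * π ^ 2, K0, by positivity, fun K hK hlow v hv => ?_⟩
  have hK30' : 30 ≤ K := hK30.trans hK
  set d := Real.exp (-v) with hd
  have hd0 : 0 < d := Real.exp_pos _
  have hHr := Sh.sb_Hr_pos hH
  have hd4 : d < Sh.Hr / 4 := hK0 v (by have := hv.1; linarith)
  have hdH : d ≤ Sh.Hr := by linarith
  have hEq : ∀ x : ℝ, Sh.Eq (Sh.up x d) = ENNReal.ofReal (d ^ 2) *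
      ∫⁻ ζ in closedBall (0 : ℂ) (3 / 4), ENNReal.ofReal ‖Sh.q (Sh.up x d + (d : ℂ) * ζ)‖ := by
    intro x
    unfold Eq
    rw [Sh.dep_up x d hdH]
    have e : 3 * d / 4 = d * (3 / 4) := by ring
    rw [e, s11b_lintegral_ball _ _ hd0]
  simp only [hEq]
  rw [lintegral_const_mul' _ _ ENNReal.ofReal_ne_top]
  have hmeas : AEMeasurable
      (Function.uncurry fun (x : ℝ) (ζ : ℂ) => ENNReal.ofReal ‖Sh.q (Sh.up x d + (d : ℂ) * ζ)‖)
      ((volume.restrict (Icc (0 : ℝ) (2 * π))).prod (volume.restrict (closedBall (0 : ℂ) (3 / 4)))) := by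
    rw [Measure.prod_restrict]
    refine ContinuousOn.aemeasurable ?_ (measurableSet_Icc.prod measurableSet_closedBall)
    refine ENNReal.continuous_ofReal.comp_continuousOn (ContinuousOn.norm ?_)
    refine Sh.q_diff.continuousOn.comp (Continuous.continuousOn ?_) ?_
    · exact ((Sh.s11b_continuous_up d).comp continuous_fst).add (continuous_const.mul continuous_snd)
    · rintro ⟨x, ζ⟩ ⟨_, hζ⟩
      have hζ' : ‖ζ‖ ≤ 3 / 4 := by simpa using hζ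
      refine Sh.s11b_ball_subset hH (z₀ := Sh.up x d) (r := d * (3 / 4))
        (by rw [Sh.dep_up x d hdH]; linarith) ?_
      rw [mem_closedBall, dist_eq_norm, add_sub_cancel_left, norm_mul, Complex.norm_real, Real.norm_eq_abs,
        abs_of_pos hd0]
      exact mul_le_mul_of_nonneg_left hζ' hd0.le
  rw [lintegral_lintegral_swap hmeas]
  have hinner : ∀ ζ ∈ closedBall (0 : ℂ) (3 / 4),
      ∫⁻ x in Icc (0 : ℝ) (2 * π), ENNReal.ofReal ‖Sh.q (Sh.up x d + (d : ℂ) * ζ)‖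
        ≤ ENNReal.ofReal (32 * π * K ^ ((2 : ℝ) / 100) / d ^ 2) := by
    intro ζ hζ
    have hζ' : ‖ζ‖ ≤ 3 / 4 := by simpa using hζ
    have him := abs_le.1 ((Complex.abs_im_le_norm ζ).trans hζ')
    set u := 1 - ζ.im with hu
    have hu1 : 1 / 4 ≤ u := by linarith [him.2]
    have hu2 : u ≤ 7 / 4 := by linarith [him.1]
    have hu0 : 0 < u := by linarith
    set v' := v - Real.log u with hv'
    have hexp : Real.exp (-v') = d * u := by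
      rw [hv', neg_sub, sub_eq_add_neg, Real.exp_add, Real.exp_log hu0, mul_comm]
    have hl1 : Real.log u ≤ 3 / 4 := by
      have := Real.log_le_sub_one_of_pos hu0; linarith
    have hl2 : -3 ≤ Real.log u := by
      have h1 := Real.log_le_sub_one_of_pos (inv_pos.2 hu0)
      rw [Real.log_inv] at h1
      have h2 : u⁻¹ ≤ 4 := by
        rw [inv_le_comm₀ hu0 (by norm_num)]; linarith
      linarith
    have hv'mem : v' ∈ Icc (0.9 * K) (2.1 * K) := by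
      constructor
      · have := hv.1; rw [hv']; linarith
      · have := hv.2; rw [hv']; linarith
    have hexpH : Real.exp (-v') < Sh.Hr := by
      have := hK0 v' (by have := hv'mem.1; linarith)
      linarith
    have hrow := Sh.s11b_row_q hH v' hexpH (d * ζ.re)
    have hμ := hlow v' hv'mem
    have hμ2 : Sh.μ v' ^ 2 ≤ K ^ ((2 : ℝ) / 100) := by
      have e : K ^ ((2 : ℝ) / 100) = (K ^ ((1 : ℝ) / 100)) ^ 2 := by
        rw [← Real.rpow_natCast, ← Real.rpow_mul (by linarith)]; norm_num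
      rw [e]
      exact pow_le_pow_left₀ (Sh.s11b_μ_nonneg v') hμ 2
    have he1 : Real.exp (2 * v') * Real.exp (-v') ^ 2 = 1 := by
      rw [← Real.exp_nat_mul, ← Real.exp_add]
      simp
    have he2 : Real.exp (2 * v') ≤ 16 / d ^ 2 := by
      rw [le_div_iff₀ (by positivity)]
      rw [hexp] at he1
      have h3 : d ^ 2 ≤ 16 * (d * u) ^ 2 := by
        have : (d * (1 / 4)) ^ 2 ≤ (d * u) ^ 2 :=
          pow_le_pow_left₀ (by positivity) (mul_le_mul_of_nonneg_left hu1 hd0.le) 2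
        nlinarith
      calc Real.exp (2 * v') * d ^ 2 ≤ Real.exp (2 * v') * (16 * (d * u) ^ 2) :=
            mul_le_mul_of_nonneg_left h3 (Real.exp_pos _).le
        _ = 16 * (Real.exp (2 * v') * (d * u) ^ 2) := by ring
        _ = 16 := by rw [he1]; norm_num
    have hK0' : 0 ≤ K ^ ((2 : ℝ) / 100) := Real.rpow_nonneg (by linarith) _
    calc ∫⁻ x in Icc (0 : ℝ) (2 * π), ENNReal.ofReal ‖Sh.q (Sh.up x d + (d : ℂ) * ζ)‖
        = ∫⁻ x in Icc (0 : ℝ) (2 * π), ENNReal.ofReal ‖Sh.q (Sh.up (x + d * ζ.re) (Real.exp (-v')))‖ := by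
          simp only [Sh.s11b_tile_row, hexp, hu]
      _ ≤ ENNReal.ofReal (2 * π * Real.exp (2 * v') * Sh.μ v' ^ 2) := hrow
      _ ≤ ENNReal.ofReal (32 * π * K ^ ((2 : ℝ) / 100) / d ^ 2) := by
          refine ENNReal.ofReal_le_ofReal ?_
          calc 2 * π * Real.exp (2 * v') * Sh.μ v' ^ 2
              ≤ 2 * π * (16 / d ^ 2) * K ^ ((2 : ℝ) / 100) := by gcongr
            _ = 32 * π * K ^ ((2 : ℝ) / 100) / d ^ 2 := by ring
  have hK0' : 0 ≤ K ^ ((2 : ℝ) / 100) := Real.rpow_nonneg (by linarith) _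
  calc ENNReal.ofReal (d ^ 2) * ∫⁻ ζ in closedBall (0 : ℂ) (3 / 4),
        ∫⁻ x in Icc (0 : ℝ) (2 * π), ENNReal.ofReal ‖Sh.q (Sh.up x d + (d : ℂ) * ζ)‖
      ≤ ENNReal.ofReal (d ^ 2) * ∫⁻ _ζ in closedBall (0 : ℂ) (3 / 4),
        ENNReal.ofReal (32 * π * K ^ ((2 : ℝ) / 100) / d ^ 2) :=
        mul_le_mul_right (setLIntegral_mono' measurableSet_closedBall hinner) _
    _ = ENNReal.ofReal (18 * π ^ 2 * K ^ ((2 : ℝ) / 100)) := by
        rw [setLIntegral_const, s11b_volume_ball (by norm_num), ← ENNReal.ofReal_mul (by positivity),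
          ← ENNReal.ofReal_mul (by positivity)]
        congr 1
        field_simp
        ring

/-- `E_x H_b(x, d_v)² ≤ C K^{2α}` -/
theorem tile_Hb (h : Sh.CritPoly) : ∃ C K0 : ℝ, 0 < C ∧ ∀ K, K0 ≤ K → Sh.LowMom K → ∀ v ∈ Icc K (2 * K),
    ∫⁻ x in Icc (0 : ℝ) (2 * π), ENNReal.ofReal (Sh.Hb (Sh.up x (Real.exp (-v))) ^ 2) ≤ ENNReal.ofReal (C * K ^ ((2 : ℝ) / 100)) := by
  have hH := h.fin
  obtain ⟨K1, hK30, hK1⟩ := Sh.s11b_K0 hH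
  obtain ⟨C, K0, hC, hE⟩ := Sh.tile_Eq h
  refine ⟨4 * π + 24 * C, max K0 K1, by positivity, fun K hK hlow v hv => ?_⟩
  have hKK0 : K0 ≤ K := (le_max_left _ _).trans hK
  have hKK1 : K1 ≤ K := (le_max_right _ _).trans hK
  have hd4 : Real.exp (-v) < Sh.Hr / 4 := hK1 v (by have := hv.1; linarith)
  have hcol : ∀ x, Sh.Col (Sh.up x (Real.exp (-v))) := Sh.s11b_col (Real.exp_pos _) hd4
  have hK1' : 1 ≤ K ^ ((2 : ℝ) / 100) := Real.one_le_rpow (by linarith) (by norm_num)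
  calc ∫⁻ x in Icc (0 : ℝ) (2 * π), ENNReal.ofReal (Sh.Hb (Sh.up x (Real.exp (-v))) ^ 2)
      ≤ ∫⁻ x in Icc (0 : ℝ) (2 * π), (2 + 24 * Sh.Eq (Sh.up x (Real.exp (-v)))) :=
        lintegral_mono fun x => Sh.Hb_sq_le hH _ (hcol x)
    _ = 2 * ENNReal.ofReal (2 * π) + 24 * ∫⁻ x in Icc (0 : ℝ) (2 * π), Sh.Eq (Sh.up x (Real.exp (-v))) := by
        rw [lintegral_add_left measurable_const, setLIntegral_const, lintegral_const_mul' _ _ (by norm_num),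
          Real.volume_Icc, sub_zero]
    _ ≤ 2 * ENNReal.ofReal (2 * π) + 24 * ENNReal.ofReal (C * K ^ ((2 : ℝ) / 100)) := by
        gcongr
        exact hE K hKK0 hlow v hv
    _ = ENNReal.ofReal (4 * π + 24 * (C * K ^ ((2 : ℝ) / 100))) := by
        have e2 : (2 : ℝ≥0∞) = ENNReal.ofReal 2 := by simp
        have e24 : (24 : ℝ≥0∞) = ENNReal.ofReal 24 := by simp
        rw [e2, e24, ← ENNReal.ofReal_mul (by norm_num), ← ENNReal.ofReal_mul (by norm_num),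
          ← ENNReal.ofReal_add (by positivity) (by positivity)]
        congr 1; ring
    _ ≤ ENNReal.ofReal ((4 * π + 24 * C) * K ^ ((2 : ℝ) / 100)) := by
        refine ENNReal.ofReal_le_ofReal ?_
        have : 4 * π * 1 ≤ 4 * π * K ^ ((2 : ℝ) / 100) := mul_le_mul_of_nonneg_left hK1' (by positivity)
        linarith

theorem s11b_AA_per {z : ℂ} (hz : z ∈ Sh.D) : Sh.AA (z + 2 * π) = Sh.AA z := by
  have h1 : (fun w => Sh.f (w + 2 * π)) =ᶠ[𝓝 z] Sh.f := by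
    filter_upwards [Sh.sb_D_mem_nhds hz] with w hw using Sh.sb_f_per w hw
  have h2 := h1.deriv_eq
  rw [deriv_comp_add_const] at h2
  have h3 : Sh.dep (z + 2 * π) = Sh.dep z := by simp [dep]
  unfold AA
  rw [Sh.sb_f_per z hz, h2, h3]

/-- `E_x (𝒜 - a)²(x + i(H - d_v)) ≤ C K^{2α}` (integrate `amp_seg` in its centre: Tonelli + periodicity) -/
theorem tile_def (h : Sh.CritPoly) : ∃ C K0 : ℝ, 0 < C ∧ ∀ K, K0 ≤ K → Sh.LowMom K → ∀ v ∈ Icc K (2 * K),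
    ∫⁻ x in Icc (0 : ℝ) (2 * π), ENNReal.ofReal ((Sh.AA (Sh.up x (Real.exp (-v))) - Sh.aa (Sh.up x (Real.exp (-v)))) ^ 2)
      ≤ ENNReal.ofReal (C * K ^ ((2 : ℝ) / 100)) := by
  have hH := h.fin
  obtain ⟨K1, hK30, hK1⟩ := Sh.s11b_K0 hH
  obtain ⟨C₁, hC₁, hseg⟩ := Sh.amp_seg hH
  obtain ⟨C₂, K0, hC₂, hHb⟩ := Sh.tile_Hb h
  refine ⟨4 * (C₁ * C₂), max K0 K1, by positivity, fun K hK hlow v hv => ?_⟩
  have hKK0 : K0 ≤ K := (le_max_left _ _).trans hK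
  have hKK1 : K1 ≤ K := (le_max_right _ _).trans hK
  set d := Real.exp (-v) with hd
  have hd0 : 0 < d := Real.exp_pos _
  have hd4 : d < Sh.Hr / 4 := hK1 v (by have := hv.1; linarith)
  have hHr := Sh.sb_Hr_pos hH
  have hdH : d ≤ Sh.Hr := by linarith
  have hcol : ∀ x, Sh.Col (Sh.up x d) := Sh.s11b_col hd0 hd4
  have hK0' : 0 ≤ K ^ ((2 : ℝ) / 100) := Real.rpow_nonneg (by linarith) _
  set Dd : ℝ → ℝ≥0∞ := fun x => ENNReal.ofReal ((Sh.AA (Sh.up x d) - Sh.aa (Sh.up x d)) ^ 2) with hDd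
  have hDmeas : Measurable Dd :=
    ENNReal.measurable_ofReal.comp (((Sh.measurable_AA.comp (Sh.s11b_continuous_up d).measurable).sub
      (Sh.measurable_aa.comp (Sh.s11b_continuous_up d).measurable)).pow_const 2)
  have hDper : Function.Periodic Dd (2 * π) := by
    intro x
    simp only [hDd]
    have e : ((2 * π : ℝ) : ℂ) = 2 * (π : ℂ) := by push_cast; ring
    have hm := Sh.s11b_up_mem hH hd0 hdH x
    have e2 : Sh.aa (Sh.up x d + 2 * π) = Sh.aa (Sh.up x d) := by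
      unfold aa; rw [Sh.sb_f_per _ hm]
    rw [Sh.s11b_up_add, e, Sh.s11b_AA_per hm, e2]
  have hpoint : ∀ x : ℝ, ∫⁻ t in Icc (-(d / 8)) (d / 8), Dd (x + t)
      ≤ ENNReal.ofReal (C₁ * d) * ENNReal.ofReal (Sh.Hb (Sh.up x d) ^ 2) := by
    intro x
    have h1 := hseg (Sh.up x d) (hcol x)
    rw [Sh.dep_up x d hdH] at h1
    rw [← ENNReal.ofReal_mul (by positivity)]
    have e : C₁ * d * Sh.Hb (Sh.up x d) ^ 2 = C₁ * Sh.Hb (Sh.up x d) ^ 2 * d := by ring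
    rw [e]
    simpa only [hDd, Sh.s11b_up_add] using h1
  have hswap : ∫⁻ x in Icc (0 : ℝ) (2 * π), ∫⁻ t in Icc (-(d / 8)) (d / 8), Dd (x + t)
      = ENNReal.ofReal (d / 4) * ∫⁻ x in Icc (0 : ℝ) (2 * π), Dd x := by
    have hm2 : AEMeasurable (Function.uncurry fun (x t : ℝ) => Dd (x + t))
        ((volume.restrict (Icc (0 : ℝ) (2 * π))).prod (volume.restrict (Icc (-(d / 8)) (d / 8)))) :=
      (hDmeas.comp (measurable_fst.add measurable_snd)).aemeasurable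
    rw [lintegral_lintegral_swap hm2]
    have : ∀ t : ℝ, ∫⁻ x in Icc (0 : ℝ) (2 * π), Dd (x + t) = ∫⁻ x in Icc (0 : ℝ) (2 * π), Dd x :=
      fun t => s11b_lintegral_shift Real.two_pi_pos hDper t
    simp only [this]
    rw [setLIntegral_const, Real.volume_Icc, mul_comm]
    congr 2; ring
  have hmain : ENNReal.ofReal (d / 4) * ∫⁻ x in Icc (0 : ℝ) (2 * π), Dd x
      ≤ ENNReal.ofReal (C₁ * d) * ENNReal.ofReal (C₂ * K ^ ((2 : ℝ) / 100)) := by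
    rw [← hswap]
    calc ∫⁻ x in Icc (0 : ℝ) (2 * π), ∫⁻ t in Icc (-(d / 8)) (d / 8), Dd (x + t)
        ≤ ∫⁻ x in Icc (0 : ℝ) (2 * π), ENNReal.ofReal (C₁ * d) * ENNReal.ofReal (Sh.Hb (Sh.up x d) ^ 2) :=
          lintegral_mono hpoint
      _ = ENNReal.ofReal (C₁ * d) * ∫⁻ x in Icc (0 : ℝ) (2 * π), ENNReal.ofReal (Sh.Hb (Sh.up x d) ^ 2) :=
          lintegral_const_mul' _ _ ENNReal.ofReal_ne_top
      _ ≤ ENNReal.ofReal (C₁ * d) * ENNReal.ofReal (C₂ * K ^ ((2 : ℝ) / 100)) :=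
          mul_le_mul_right (hHb K hKK0 hlow v hv) _
  calc ∫⁻ x in Icc (0 : ℝ) (2 * π), Dd x
      = ENNReal.ofReal (4 / d) * (ENNReal.ofReal (d / 4) * ∫⁻ x in Icc (0 : ℝ) (2 * π), Dd x) := by
        rw [← mul_assoc, ← ENNReal.ofReal_mul (by positivity)]
        have : 4 / d * (d / 4) = 1 := by field_simp
        rw [this, ENNReal.ofReal_one, one_mul]
    _ ≤ ENNReal.ofReal (4 / d) * (ENNReal.ofReal (C₁ * d) * ENNReal.ofReal (C₂ * K ^ ((2 : ℝ) / 100))) :=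
        mul_le_mul_right hmain _
    _ = ENNReal.ofReal (4 * (C₁ * C₂) * K ^ ((2 : ℝ) / 100)) := by
        rw [← ENNReal.ofReal_mul (by positivity), ← ENNReal.ofReal_mul (by positivity)]
        congr 1
        field_simp

end Shape

end Claimed.Agent.R269
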