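/-
Row 269, P1 Sections 11.1, 11.4, 11.5 up to (11.12): THE OCCUPATION COST, DETERMINISTIC VERSION.  Owner: helper171.

The paper runs Brownian motion in the shape strip, samples `a = log|f|` at the first hits of the rows and applies a discrete Tanaka estimate with a stopping time.
HERE THERE IS NO PROBABILITY.  The "transition" from `z` is the uniform law on the disc `B(z, δ(z)/4)`:
    `Jl g z = ∫_{|w|<1} g(z + (δ(z)/4) w) dA(w)`     (total mass `π`),
and the measure `dx dv` (`v = -log depth`) on the periodic collar is invariant under it up to boundary terms (`bint_Jl_le_add`, `bint_Jl_le`: for fixed `w` the map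
`(x,v) ↦ (x + e^{-v} w.re/4, v - log(1 - w.im/4))` is a translation in `x` for fixed `v` followed by a translation in `v`).
The stopping time is replaced by the BOUNDED ramp `Φ` of `LS.ramp` (slightly concave above `2h`): pointwise
    `ψ(a z)(a z' - a z) + 1_{|a z| ≤ h} min((a z' - a z)², h²)/(2h) ≤ Φ(a z') - Φ(a z) + (2/R)(a z' - a z)²`;
integrate in `z'` over the disc (`∫ a z' ≥ π a z` by `LS.log_submean`, `ψ ≥ 0`), then in `(x,v)`:
    `(1/2h) ∬ cost ≤ 6 sup Φ + (2/R) ∬ Jl (a z' - a z)² ≤ 6(8h + 2R) + (2/R) C K^{1+2α}`;    `h = K^{6α}`, `R = K^{1/2+α}`.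
-/
import Claimed.Agent.R269.S11.Amp

set_option autoImplicit false

namespace Claimed.Agent.R269

open Complex Metric Set Filter Topology MeasureTheory
open scoped Real ENNReal

namespace Shape

variable (Sh : Shape)

/-- the integral over one period and the band `v₁ ≤ v ≤ v₂` of log depths, w.r.t. `dx dv` -/
noncomputable def bint (g : ℂ → ℝ≥0∞) (v₁ v₂ : ℝ) : ℝ≥0∞ :=
  ∫⁻ v in Icc v₁ v₂, ∫⁻ x in Icc (0 : ℝ) (2 * π), g (Sh.up x (Real.exp (-v)))

/-- the jump integral (total mass `π`) -/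
noncomputable def Jl (g : ℂ → ℝ≥0∞) (z : ℂ) : ℝ≥0∞ :=
  ∫⁻ w in ball (0 : ℂ) 1, g (z + ((Sh.dep z / 4 : ℝ) : ℂ) * w)

/-- squared increment -/
noncomputable def inc2 (z : ℂ) : ℝ≥0∞ := Sh.Jl (fun z' => ENNReal.ofReal ((Sh.aa z' - Sh.aa z) ^ 2)) z

/-- the occupation cost at `z` -/
noncomputable def cost (h : ℝ) (z : ℂ) : ℝ≥0∞ :=
  if |Sh.aa z| ≤ h then Sh.Jl (fun z' => ENNReal.ofReal (min ((Sh.aa z' - Sh.aa z) ^ 2) (h ^ 2))) z else 0

/-! ### LF-S11e-1: invariance of `dx dv` (Tonelli + translations; uses only `dep_up`) -/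

theorem s11e_jump (d x : ℝ) (w : ℂ) :
    Sh.up x d + ((d / 4 : ℝ) : ℂ) * w = Sh.up (x + d / 4 * w.re) (d * (1 - w.im / 4)) := by
  apply Complex.ext
  · simp [up]
  · simp [up]; ring

theorem s11e_continuous_up2 : Continuous fun p : ℝ × ℝ => Sh.up p.1 p.2 := by
  have e : (fun p : ℝ × ℝ => Sh.up p.1 p.2) = fun p : ℝ × ℝ => (p.1 : ℂ) + ((Sh.Hr - p.2 : ℝ) : ℂ) * I := by
    funext p; simp only [up, Complex.mk_eq_add_mul_I]
  rw [e]
  exact (Complex.continuous_ofReal.comp continuous_fst).add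
    ((Complex.continuous_ofReal.comp (continuous_const.sub continuous_snd)).mul continuous_const)

theorem s11e_log_bound {w : ℂ} (hw : w ∈ ball (0 : ℂ) 1) :
    0 < 1 - w.im / 4 ∧ |Real.log (1 - w.im / 4)| ≤ 0.3 := by
  have hw' : ‖w‖ < 1 := by simpa using hw
  have him := abs_lt.1 ((Complex.abs_im_le_norm w).trans_lt hw')
  have hu0 : 0 < 1 - w.im / 4 := by linarith [him.2]
  refine ⟨hu0, abs_le.2 ⟨?_, ?_⟩⟩
  · have h1 : (4 / 3 : ℝ) ≤ Real.exp 0.3 := by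
      have := Real.quadratic_le_exp_of_nonneg (x := 0.3) (by norm_num)
      norm_num at this ⊢
      linarith
    have h2 : Real.log (1 - w.im / 4)⁻¹ ≤ 0.3 := by
      rw [Real.log_le_iff_le_exp (inv_pos.2 hu0)]
      refine le_trans ?_ h1
      rw [inv_le_comm₀ hu0 (by norm_num)]
      linarith [him.2]
    rw [Real.log_inv] at h2
    linarith
  · have := Real.log_le_sub_one_of_pos hu0
    linarith [him.1]

theorem s11e_bint_mono (g : ℂ → ℝ≥0∞) {a b a' b' : ℝ} (h1 : a' ≤ a) (h2 : b ≤ b') :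
    Sh.bint g a b ≤ Sh.bint g a' b' :=
  lintegral_mono_set (Icc_subset_Icc h1 h2)

/-- the key identity for a fixed `w` -/
theorem bint_shift (g : ℂ → ℝ≥0∞) (hg : Measurable g) (hper : ∀ z, g (z + 2 * π) = g z) (v₁ v₂ : ℝ) (w : ℂ) (hw : w ∈ ball (0 : ℂ) 1) :
    ∫⁻ v in Icc v₁ v₂, ∫⁻ x in Icc (0 : ℝ) (2 * π), g (Sh.up x (Real.exp (-v)) + ((Real.exp (-v) / 4 : ℝ) : ℂ) * w)
      = Sh.bint g (v₁ - Real.log (1 - w.im / 4)) (v₂ - Real.log (1 - w.im / 4)) := by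
  have hu0 := (s11e_log_bound hw).1
  set u := 1 - w.im / 4 with hu
  set c := Real.log u with hc
  have hinner : ∀ v : ℝ, ∫⁻ x in Icc (0 : ℝ) (2 * π),
      g (Sh.up x (Real.exp (-v)) + ((Real.exp (-v) / 4 : ℝ) : ℂ) * w)
        = ∫⁻ x in Icc (0 : ℝ) (2 * π), g (Sh.up x (Real.exp (-(-c + (1 : ℝ) • v)))) := by
    intro v
    have hexp : Real.exp (-(-c + (1 : ℝ) • v)) = Real.exp (-v) * u := by
      rw [one_smul, neg_add, neg_neg, Real.exp_add, hc, Real.exp_log hu0, mul_comm]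
    have hper' : Function.Periodic (fun x : ℝ => g (Sh.up x (Real.exp (-(-c + (1 : ℝ) • v))))) (2 * π) := by
      intro x
      simp only
      have e : ((2 * π : ℝ) : ℂ) = 2 * (π : ℂ) := by push_cast; ring
      rw [Sh.s11b_up_add, e, hper]
    simp only [Sh.s11e_jump]
    rw [← hu, ← hexp]
    exact s11b_lintegral_shift Real.two_pi_pos hper' _
  simp only [hinner]
  unfold bint
  rw [s11b_lintegral_affine volume (fun v' => ∫⁻ x in Icc (0 : ℝ) (2 * π), g (Sh.up x (Real.exp (-v')))) (-c)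
    one_pos (Icc (v₁ - c) (v₂ - c))]
  have e : (fun y : ℝ => -c + (1 : ℝ) • y) ⁻¹' Icc (v₁ - c) (v₂ - c) = Icc v₁ v₂ := by
    ext y
    simp only [mem_preimage, mem_Icc, one_smul]
    constructor
    · rintro ⟨h1, h2⟩; constructor <;> linarith
    · rintro ⟨h1, h2⟩; constructor <;> linarith
  rw [e, one_pow, ENNReal.ofReal_one, one_mul]

/-- Tonelli: the band integral of the jump integral. -/
theorem s11e_bint_Jl (g : ℂ → ℝ≥0∞) (hg : Measurable g) (hper : ∀ z, g (z + 2 * π) = g z) (v₁ v₂ : ℝ)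
    (h1 : Real.exp (-v₁) ≤ Sh.Hr) :
    Sh.bint (Sh.Jl g) v₁ v₂ = ∫⁻ w in ball (0 : ℂ) 1,
      Sh.bint g (v₁ - Real.log (1 - w.im / 4)) (v₂ - Real.log (1 - w.im / 4)) := by
  have hc : Continuous (fun p : (ℝ × ℂ) × ℝ =>
      Sh.up p.2 (Real.exp (-p.1.1)) + ((Real.exp (-p.1.1) / 4 : ℝ) : ℂ) * p.1.2) := by
    have c1 : Continuous fun p : (ℝ × ℂ) × ℝ => Real.exp (-p.1.1) :=
      Real.continuous_exp.comp (continuous_fst.comp continuous_fst).neg
    exact (Sh.s11e_continuous_up2.comp (continuous_snd.prodMk c1)).add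
      ((Complex.continuous_ofReal.comp (c1.div_const 4)).mul (continuous_snd.comp continuous_fst))
  have hA : Measurable (fun p : (ℝ × ℂ) × ℝ =>
      g (Sh.up p.2 (Real.exp (-p.1.1)) + ((Real.exp (-p.1.1) / 4 : ℝ) : ℂ) * p.1.2)) :=
    hg.comp hc.measurable
  have h0 : Sh.bint (Sh.Jl g) v₁ v₂ = ∫⁻ v in Icc v₁ v₂, ∫⁻ x in Icc (0 : ℝ) (2 * π), ∫⁻ w in ball (0 : ℂ) 1,
      g (Sh.up x (Real.exp (-v)) + ((Real.exp (-v) / 4 : ℝ) : ℂ) * w) := by
    unfold bint Jl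
    refine setLIntegral_congr_fun measurableSet_Icc (fun v hv => ?_)
    have h2 : Real.exp (-v) ≤ Sh.Hr := (Real.exp_le_exp.2 (neg_le_neg hv.1)).trans h1
    simp only [Sh.dep_up _ _ h2]
  rw [h0]
  have hs1 : ∀ v : ℝ, ∫⁻ x in Icc (0 : ℝ) (2 * π), ∫⁻ w in ball (0 : ℂ) 1,
      g (Sh.up x (Real.exp (-v)) + ((Real.exp (-v) / 4 : ℝ) : ℂ) * w)
      = ∫⁻ w in ball (0 : ℂ) 1, ∫⁻ x in Icc (0 : ℝ) (2 * π),
      g (Sh.up x (Real.exp (-v)) + ((Real.exp (-v) / 4 : ℝ) : ℂ) * w) := by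
    intro v
    have hm : AEMeasurable (Function.uncurry fun (x : ℝ) (w : ℂ) =>
        g (Sh.up x (Real.exp (-v)) + ((Real.exp (-v) / 4 : ℝ) : ℂ) * w))
        ((volume.restrict (Icc (0 : ℝ) (2 * π))).prod (volume.restrict (ball (0 : ℂ) 1))) :=
      (hA.comp ((measurable_const.prodMk measurable_snd).prodMk measurable_fst)).aemeasurable
    exact lintegral_lintegral_swap hm
  simp only [hs1]
  have hm2 : AEMeasurable (Function.uncurry fun (v : ℝ) (w : ℂ) => ∫⁻ x in Icc (0 : ℝ) (2 * π),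
      g (Sh.up x (Real.exp (-v)) + ((Real.exp (-v) / 4 : ℝ) : ℂ) * w))
      ((volume.restrict (Icc v₁ v₂)).prod (volume.restrict (ball (0 : ℂ) 1))) :=
    (hA.lintegral_prod_right' (ν := volume.restrict (Icc (0 : ℝ) (2 * π)))).aemeasurable
  rw [lintegral_lintegral_swap hm2]
  exact setLIntegral_congr_fun measurableSet_ball (fun w hw => Sh.bint_shift g hg hper v₁ v₂ w hw)

theorem s11e_volume_ball : volume (ball (0 : ℂ) 1) = ENNReal.ofReal π := by
  rw [Complex.volume_ball, ← ENNReal.ofReal_coe_nnreal (p := NNReal.pi), NNReal.coe_real_pi]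
  simp

theorem bint_Jl_le (g : ℂ → ℝ≥0∞) (hg : Measurable g) (hper : ∀ z, g (z + 2 * π) = g z) (v₁ v₂ : ℝ)
    (h1 : Real.exp (-v₁) ≤ Sh.Hr) :
    Sh.bint (Sh.Jl g) v₁ v₂ ≤ ENNReal.ofReal π * Sh.bint g (v₁ - 1) (v₂ + 1) := by
  rw [Sh.s11e_bint_Jl g hg hper v₁ v₂ h1]
  calc ∫⁻ w in ball (0 : ℂ) 1, Sh.bint g (v₁ - Real.log (1 - w.im / 4)) (v₂ - Real.log (1 - w.im / 4))
      ≤ ∫⁻ _w in ball (0 : ℂ) 1, Sh.bint g (v₁ - 1) (v₂ + 1) := by
        refine setLIntegral_mono' measurableSet_ball (fun w hw => ?_)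
        have h := abs_le.1 (s11e_log_bound hw).2
        exact Sh.s11e_bint_mono g (by linarith [h.2]) (by linarith [h.1])
    _ = ENNReal.ofReal π * Sh.bint g (v₁ - 1) (v₂ + 1) := by
        rw [setLIntegral_const, s11e_volume_ball, mul_comm]

theorem s11e_bint_le_const (g : ℂ → ℝ≥0∞) (B : ℝ≥0∞) (hB : ∀ z, g z ≤ B) (a b : ℝ) :
    Sh.bint g a b ≤ ENNReal.ofReal (b - a) * (ENNReal.ofReal (2 * π) * B) := by
  unfold bint
  calc ∫⁻ v in Icc a b, ∫⁻ x in Icc (0 : ℝ) (2 * π), g (Sh.up x (Real.exp (-v)))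
      ≤ ∫⁻ _v in Icc a b, ∫⁻ _x in Icc (0 : ℝ) (2 * π), B :=
        lintegral_mono fun v => lintegral_mono fun x => hB _
    _ = ENNReal.ofReal (b - a) * (ENNReal.ofReal (2 * π) * B) := by
        rw [setLIntegral_const, setLIntegral_const, Real.volume_Icc, Real.volume_Icc, sub_zero]
        ring

theorem s11e_bint_shift_le (g : ℂ → ℝ≥0∞) (B : ℝ≥0∞) (hB : ∀ z, g z ≤ B) (v₁ v₂ c : ℝ) :
    Sh.bint g (v₁ - c) (v₂ - c) ≤ Sh.bint g v₁ v₂ + ENNReal.ofReal |c| * (ENNReal.ofReal (2 * π) * B) := by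
  rcases le_total 0 c with hc | hc
  · have hsub : Icc (v₁ - c) (v₂ - c) ⊆ Icc v₁ v₂ ∪ Icc (v₁ - c) v₁ := by
      intro y hy
      rcases le_total v₁ y with h | h
      · exact Or.inl ⟨h, by linarith [hy.2]⟩
      · exact Or.inr ⟨hy.1, h⟩
    calc Sh.bint g (v₁ - c) (v₂ - c)
        ≤ ∫⁻ v in Icc v₁ v₂ ∪ Icc (v₁ - c) v₁, ∫⁻ x in Icc (0 : ℝ) (2 * π), g (Sh.up x (Real.exp (-v))) :=
          lintegral_mono_set hsub
      _ ≤ Sh.bint g v₁ v₂ + Sh.bint g (v₁ - c) v₁ := lintegral_union_le _ _ _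
      _ ≤ Sh.bint g v₁ v₂ + ENNReal.ofReal |c| * (ENNReal.ofReal (2 * π) * B) := by
          gcongr
          have := Sh.s11e_bint_le_const g B hB (v₁ - c) v₁
          have e : v₁ - (v₁ - c) = |c| := by rw [abs_of_nonneg hc]; ring
          rwa [e] at this
  · have hsub : Icc (v₁ - c) (v₂ - c) ⊆ Icc v₁ v₂ ∪ Icc v₂ (v₂ - c) := by
      intro y hy
      rcases le_total y v₂ with h | h
      · exact Or.inl ⟨by linarith [hy.1], h⟩
      · exact Or.inr ⟨h, hy.2⟩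
    calc Sh.bint g (v₁ - c) (v₂ - c)
        ≤ ∫⁻ v in Icc v₁ v₂ ∪ Icc v₂ (v₂ - c), ∫⁻ x in Icc (0 : ℝ) (2 * π), g (Sh.up x (Real.exp (-v))) :=
          lintegral_mono_set hsub
      _ ≤ Sh.bint g v₁ v₂ + Sh.bint g v₂ (v₂ - c) := lintegral_union_le _ _ _
      _ ≤ Sh.bint g v₁ v₂ + ENNReal.ofReal |c| * (ENNReal.ofReal (2 * π) * B) := by
          gcongr
          have := Sh.s11e_bint_le_const g B hB v₂ (v₂ - c)
          have e : v₂ - c - v₂ = |c| := by rw [abs_of_nonpos hc]; ring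
          rwa [e] at this

theorem bint_Jl_le_add (g : ℂ → ℝ≥0∞) (hg : Measurable g) (hper : ∀ z, g (z + 2 * π) = g z) (B : ℝ≥0∞) (hB : ∀ z, g z ≤ B)
    (v₁ v₂ : ℝ) (hv : v₁ ≤ v₂) (h1 : Real.exp (-v₁) ≤ Sh.Hr) :
    Sh.bint (Sh.Jl g) v₁ v₂ ≤ ENNReal.ofReal π * Sh.bint g v₁ v₂ + 6 * B := by
  rw [Sh.s11e_bint_Jl g hg hper v₁ v₂ h1]
  calc ∫⁻ w in ball (0 : ℂ) 1, Sh.bint g (v₁ - Real.log (1 - w.im / 4)) (v₂ - Real.log (1 - w.im / 4))
      ≤ ∫⁻ _w in ball (0 : ℂ) 1, (Sh.bint g v₁ v₂ + ENNReal.ofReal 0.3 * (ENNReal.ofReal (2 * π) * B)) := by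
        refine setLIntegral_mono' measurableSet_ball (fun w hw => ?_)
        refine (Sh.s11e_bint_shift_le g B hB v₁ v₂ _).trans ?_
        gcongr
        exact (s11e_log_bound hw).2
    _ = ENNReal.ofReal π * Sh.bint g v₁ v₂ + ENNReal.ofReal (π * (0.3 * (2 * π))) * B := by
        rw [setLIntegral_const, s11e_volume_ball, mul_comm, mul_add, ← mul_assoc (ENNReal.ofReal 0.3),
          ← ENNReal.ofReal_mul (by norm_num), ← mul_assoc, ← ENNReal.ofReal_mul (by positivity)]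
    _ ≤ ENNReal.ofReal π * Sh.bint g v₁ v₂ + 6 * B := by
        gcongr
        have h6 : (6 : ℝ≥0∞) = ENNReal.ofReal 6 := by simp
        rw [h6]
        refine ENNReal.ofReal_le_ofReal ?_
        have h3 := Real.pi_lt_d2
        have h0 := Real.pi_pos
        nlinarith

/-! ### LF-S11e-2: the variance bound (replaces Lemma 11.4; no long jumps, no Cauchy tails).
`|a z' - a z| ≤ |𝒜 z' - 𝒜 z| + |𝒜 - a|(z') + |𝒜 - a|(z) ≤ C H_b(z) + e(z') + e(z)` for `|z' - z| ≤ δ(z)/4`; `tile_Hb`, `tile_def`, `bint_Jl_le` (apply it to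
`e²` times the indicator of `Sh.D`, which is periodic everywhere). -/

/-- `e² = (𝒜 - a)²`, cut off outside the strip (periodic everywhere). -/
noncomputable def e2 : ℂ → ℝ≥0∞ := Sh.D.indicator fun z => ENNReal.ofReal ((Sh.AA z - Sh.aa z) ^ 2)

theorem e2_eqns_cite : True := by have := @e2.eq_1; trivial

theorem s11e_measurable_e2 : Measurable Sh.e2 :=
  (ENNReal.measurable_ofReal.comp ((Sh.measurable_AA.sub Sh.measurable_aa).pow_const 2)).indicator
    Sh.sb_isOpen_D.measurableSet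

theorem s11e_e2_of_mem {z : ℂ} (hz : z ∈ Sh.D) : Sh.e2 z = ENNReal.ofReal ((Sh.AA z - Sh.aa z) ^ 2) :=
  indicator_of_mem hz _

theorem s11e_aa_per {z : ℂ} (hz : z ∈ Sh.D) : Sh.aa (z + 2 * π) = Sh.aa z := by
  unfold aa; rw [Sh.sb_f_per _ hz]

theorem s11e_e2_per (z : ℂ) : Sh.e2 (z + 2 * π) = Sh.e2 z := by
  by_cases hz : z ∈ Sh.D
  · rw [Sh.s11e_e2_of_mem hz, Sh.s11e_e2_of_mem (Sh.sb_add_two_pi_mem_D hz), Sh.s11b_AA_per hz, Sh.s11e_aa_per hz]
  · have hz' : z + 2 * π ∉ Sh.D := fun h => hz (by simpa using Sh.sb_sub_two_pi_mem_D h)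
    unfold e2
    rw [indicator_of_notMem hz', indicator_of_notMem hz]

theorem s11e_jump_mem {z w : ℂ} (h0 : 0 < Sh.dep z) (hw : w ∈ ball (0 : ℂ) 1) :
    z + ((Sh.dep z / 4 : ℝ) : ℂ) * w ∈ closedBall z (Sh.dep z / 4) := by
  have hw' : ‖w‖ < 1 := by simpa using hw
  rw [mem_closedBall, dist_eq_norm, add_sub_cancel_left, norm_mul, Complex.norm_real, Real.norm_eq_abs,
    abs_of_pos (by positivity)]
  have : Sh.dep z / 4 * ‖w‖ ≤ Sh.dep z / 4 * 1 := mul_le_mul_of_nonneg_left hw'.le (by positivity)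
  linarith

theorem s11e_continuous_jump : Continuous fun p : ℂ × ℂ => p.1 + ((Sh.dep p.1 / 4 : ℝ) : ℂ) * p.2 :=
  continuous_fst.add ((Complex.continuous_ofReal.comp
    ((Sh.s11b_continuous_dep.comp continuous_fst).div_const 4)).mul continuous_snd)

theorem s11e_measurable_Jl {g : ℂ → ℝ≥0∞} (hg : Measurable g) : Measurable (Sh.Jl g) :=
  (hg.comp Sh.s11e_continuous_jump.measurable).lintegral_prod_right' (ν := volume.restrict (ball (0 : ℂ) 1))

theorem s11e_measurable_row {g : ℂ → ℝ≥0∞} (hg : Measurable g) :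
    Measurable fun v : ℝ => ∫⁻ x in Icc (0 : ℝ) (2 * π), g (Sh.up x (Real.exp (-v))) := by
  have hc : Continuous fun p : ℝ × ℝ => Sh.up p.2 (Real.exp (-p.1)) :=
    Sh.s11e_continuous_up2.comp (continuous_snd.prodMk (Real.continuous_exp.comp continuous_fst.neg))
  exact (hg.comp hc.measurable).lintegral_prod_right' (ν := volume.restrict (Icc (0 : ℝ) (2 * π)))

theorem s11e_bint_add (f : ℂ → ℝ≥0∞) {g : ℂ → ℝ≥0∞} (hg : Measurable g) (a b : ℝ) :
    Sh.bint (fun z => f z + g z) a b = Sh.bint f a b + Sh.bint g a b := by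
  unfold bint
  have h1 : ∀ v : ℝ, ∫⁻ x in Icc (0 : ℝ) (2 * π), (f (Sh.up x (Real.exp (-v))) + g (Sh.up x (Real.exp (-v))))
      = (∫⁻ x in Icc (0 : ℝ) (2 * π), f (Sh.up x (Real.exp (-v))))
        + ∫⁻ x in Icc (0 : ℝ) (2 * π), g (Sh.up x (Real.exp (-v))) := fun v =>
    lintegral_add_right (fun x : ℝ => f (Sh.up x (Real.exp (-v))))
      (g := fun x : ℝ => g (Sh.up x (Real.exp (-v)))) (hg.comp (Sh.s11b_continuous_up _).measurable)
  simp only [h1]
  exact lintegral_add_right _ (Sh.s11e_measurable_row hg)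

theorem s11e_bint_const_mul (c : ℝ≥0∞) (hc : c ≠ ⊤) (f : ℂ → ℝ≥0∞) (a b : ℝ) :
    Sh.bint (fun z => c * f z) a b = c * Sh.bint f a b := by
  unfold bint
  simp only [lintegral_const_mul' c _ hc]

theorem s11e_bint_mono_fun {f g : ℂ → ℝ≥0∞} {a b : ℝ}
    (h : ∀ v ∈ Icc a b, ∀ x : ℝ, f (Sh.up x (Real.exp (-v))) ≤ g (Sh.up x (Real.exp (-v)))) :
    Sh.bint f a b ≤ Sh.bint g a b :=
  setLIntegral_mono' measurableSet_Icc fun v hv => lintegral_mono fun x => h v hv x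

theorem s11e_bint_le_of_row {F : ℂ → ℝ≥0∞} {c : ℝ≥0∞} {a b : ℝ}
    (h : ∀ v ∈ Icc a b, ∫⁻ x in Icc (0 : ℝ) (2 * π), F (Sh.up x (Real.exp (-v))) ≤ c) :
    Sh.bint F a b ≤ ENNReal.ofReal (b - a) * c := by
  calc Sh.bint F a b ≤ ∫⁻ _v in Icc a b, c := setLIntegral_mono' measurableSet_Icc h
    _ = ENNReal.ofReal (b - a) * c := by rw [setLIntegral_const, Real.volume_Icc, mul_comm]

/-- the pointwise bound of the squared increment. -/
theorem s11e_inc_le (hH : Sh.H ≠ ⊤) {C₀ : ℝ} {z : ℂ} (hz : Sh.Col z)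
    (hosc : ∀ z' ∈ closedBall z (3 * Sh.dep z / 8), |Sh.AA z' - Sh.AA z| ≤ C₀ * Sh.Hb z) :
    Sh.inc2 z ≤ 3 * ((ENNReal.ofReal (C₀ ^ 2) * ENNReal.ofReal (Sh.Hb z ^ 2) + Sh.e2 z) * ENNReal.ofReal π
      + Sh.Jl Sh.e2 z) := by
  have hδ := hz.2.1
  have hzD : z ∈ Sh.D := (Sh.mem_D_iff hH z).2 hδ
  unfold inc2 Jl
  calc ∫⁻ w in ball (0 : ℂ) 1, ENNReal.ofReal ((Sh.aa (z + ((Sh.dep z / 4 : ℝ) : ℂ) * w) - Sh.aa z) ^ 2)
      ≤ ∫⁻ w in ball (0 : ℂ) 1, 3 * ((ENNReal.ofReal (C₀ ^ 2) * ENNReal.ofReal (Sh.Hb z ^ 2) + Sh.e2 z)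
          + Sh.e2 (z + ((Sh.dep z / 4 : ℝ) : ℂ) * w)) := by
        refine setLIntegral_mono' measurableSet_ball (fun w hw => ?_)
        have hm := Sh.s11e_jump_mem hδ hw
        have hm38 : z + ((Sh.dep z / 4 : ℝ) : ℂ) * w ∈ closedBall z (3 * Sh.dep z / 8) :=
          closedBall_subset_closedBall (by linarith) hm
        have hD : z + ((Sh.dep z / 4 : ℝ) : ℂ) * w ∈ Sh.D :=
          Sh.s11b_ball_subset hH (by linarith) hm
        have h1 := hosc _ hm38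
        have h2 : (Sh.AA (z + ((Sh.dep z / 4 : ℝ) : ℂ) * w) - Sh.AA z) ^ 2 ≤ (C₀ * Sh.Hb z) ^ 2 :=
          sq_le_sq' (abs_le.1 h1).1 (abs_le.1 h1).2
        have e3 : (3 : ℝ≥0∞) = ENNReal.ofReal 3 := by simp
        rw [Sh.s11e_e2_of_mem hD, Sh.s11e_e2_of_mem hzD, e3, ← ENNReal.ofReal_mul (by positivity),
          ← ENNReal.ofReal_add (by positivity) (by positivity),
          ← ENNReal.ofReal_add (by positivity) (by positivity), ← ENNReal.ofReal_mul (by norm_num)]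
        refine ENNReal.ofReal_le_ofReal ?_
        generalize Sh.AA (z + ((Sh.dep z / 4 : ℝ) : ℂ) * w) = X' at *
        generalize Sh.aa (z + ((Sh.dep z / 4 : ℝ) : ℂ) * w) = Y' at *
        generalize Sh.AA z = X at *
        generalize Sh.aa z = Y at *
        have h3 : (C₀ * Sh.Hb z) ^ 2 = C₀ ^ 2 * Sh.Hb z ^ 2 := by ring
        rw [h3] at h2
        nlinarith [sq_nonneg ((X' - X) + (X' - Y')), sq_nonneg ((X' - X) - (X - Y)),
          sq_nonneg ((X' - Y') + (X - Y))]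
    _ = 3 * ((ENNReal.ofReal (C₀ ^ 2) * ENNReal.ofReal (Sh.Hb z ^ 2) + Sh.e2 z) * ENNReal.ofReal π
          + ∫⁻ w in ball (0 : ℂ) 1, Sh.e2 (z + ((Sh.dep z / 4 : ℝ) : ℂ) * w)) := by
        rw [lintegral_const_mul' _ _ (by norm_num), lintegral_add_left measurable_const, setLIntegral_const,
          s11e_volume_ball]

theorem var_bound (h : Sh.CritPoly) : ∃ C K0 : ℝ, 0 < C ∧ ∀ K, K0 ≤ K → Sh.LowMom K →
    Sh.bint Sh.inc2 (1.1 * K) (1.9 * K) ≤ ENNReal.ofReal (C * K ^ (1 + (2 : ℝ) / 100)) := by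
  have hH := h.fin
  obtain ⟨C₀, hC₀, hosc⟩ := Sh.amp_osc hH
  obtain ⟨C₁, K1, hC₁, hHb⟩ := Sh.tile_Hb h
  obtain ⟨C₂, K2, hC₂, hdef⟩ := Sh.tile_def h
  obtain ⟨K3, hK30, hK3⟩ := Sh.s11b_K0 hH
  refine ⟨3 * π * (C₀ ^ 2 * C₁ + 2 * C₂), max (max K1 K2) K3, by positivity, fun K hK hlow => ?_⟩
  have hKK1 : K1 ≤ K := ((le_max_left _ _).trans (le_max_left _ _)).trans hK
  have hKK2 : K2 ≤ K := ((le_max_right _ _).trans (le_max_left _ _)).trans hK
  have hKK3 : K3 ≤ K := (le_max_right _ _).trans hK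
  have hK30' : 30 ≤ K := hK30.trans hKK3
  have hHr := Sh.sb_Hr_pos hH
  have hd4 : ∀ v, K ≤ v → Real.exp (-v) < Sh.Hr / 4 := fun v hv => hK3 v (by linarith)
  have hcol : ∀ v, K ≤ v → ∀ x, Sh.Col (Sh.up x (Real.exp (-v))) := fun v hv =>
    Sh.s11b_col (Real.exp_pos _) (hd4 v hv)
  have hKp : 0 ≤ K ^ ((2 : ℝ) / 100) := Real.rpow_nonneg (by linarith) _
  -- the three band integrals
  have b1 : Sh.bint (fun z => ENNReal.ofReal (Sh.Hb z ^ 2)) (1.1 * K) (1.9 * K)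
      ≤ ENNReal.ofReal (1.9 * K - 1.1 * K) * ENNReal.ofReal (C₁ * K ^ ((2 : ℝ) / 100)) :=
    Sh.s11e_bint_le_of_row fun v hv => hHb K hKK1 hlow v ⟨by linarith [hv.1], by linarith [hv.2]⟩
  have hrow2 : ∀ v ∈ Icc K (2 * K), ∫⁻ x in Icc (0 : ℝ) (2 * π), Sh.e2 (Sh.up x (Real.exp (-v)))
      ≤ ENNReal.ofReal (C₂ * K ^ ((2 : ℝ) / 100)) := by
    intro v hv
    have hm : ∀ x, Sh.up x (Real.exp (-v)) ∈ Sh.D := fun x =>
      Sh.s11b_up_mem hH (Real.exp_pos _) (by linarith [hd4 v hv.1]) x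
    simp only [fun x => Sh.s11e_e2_of_mem (hm x)]
    exact hdef K hKK2 hlow v hv
  have b2 : Sh.bint Sh.e2 (1.1 * K) (1.9 * K)
      ≤ ENNReal.ofReal (1.9 * K - 1.1 * K) * ENNReal.ofReal (C₂ * K ^ ((2 : ℝ) / 100)) :=
    Sh.s11e_bint_le_of_row fun v hv => hrow2 v ⟨by linarith [hv.1], by linarith [hv.2]⟩
  have b3 : Sh.bint (Sh.Jl Sh.e2) (1.1 * K) (1.9 * K)
      ≤ ENNReal.ofReal π * (ENNReal.ofReal (1.9 * K + 1 - (1.1 * K - 1)) * ENNReal.ofReal (C₂ * K ^ ((2 : ℝ) / 100))) := by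
    refine (Sh.bint_Jl_le Sh.e2 Sh.s11e_measurable_e2 Sh.s11e_e2_per _ _
      (by linarith [hd4 (1.1 * K) (by linarith)])).trans ?_
    gcongr
    exact Sh.s11e_bint_le_of_row fun v hv => hrow2 v ⟨by linarith [hv.1], by linarith [hv.2]⟩
  have hπ := Real.pi_pos
  calc Sh.bint Sh.inc2 (1.1 * K) (1.9 * K)
      ≤ Sh.bint (fun z => 3 * ((ENNReal.ofReal (C₀ ^ 2) * ENNReal.ofReal (Sh.Hb z ^ 2) + Sh.e2 z) * ENNReal.ofReal π
          + Sh.Jl Sh.e2 z)) (1.1 * K) (1.9 * K) :=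
        Sh.s11e_bint_mono_fun fun v hv x =>
          Sh.s11e_inc_le hH (hcol v (by linarith [hv.1]) x) (hosc _ (hcol v (by linarith [hv.1]) x))
    _ = 3 * (ENNReal.ofReal π * (ENNReal.ofReal (C₀ ^ 2) * Sh.bint (fun z => ENNReal.ofReal (Sh.Hb z ^ 2)) (1.1 * K) (1.9 * K)
          + Sh.bint Sh.e2 (1.1 * K) (1.9 * K)) + Sh.bint (Sh.Jl Sh.e2) (1.1 * K) (1.9 * K)) := by
        rw [Sh.s11e_bint_const_mul 3 (by norm_num),
          Sh.s11e_bint_add _ (Sh.s11e_measurable_Jl Sh.s11e_measurable_e2)]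
        simp only [mul_comm _ (ENNReal.ofReal π)]
        rw [Sh.s11e_bint_const_mul _ ENNReal.ofReal_ne_top, Sh.s11e_bint_add _ Sh.s11e_measurable_e2,
          Sh.s11e_bint_const_mul _ ENNReal.ofReal_ne_top]
    _ ≤ 3 * (ENNReal.ofReal π * (ENNReal.ofReal (C₀ ^ 2) *
            (ENNReal.ofReal (1.9 * K - 1.1 * K) * ENNReal.ofReal (C₁ * K ^ ((2 : ℝ) / 100)))
          + ENNReal.ofReal (1.9 * K - 1.1 * K) * ENNReal.ofReal (C₂ * K ^ ((2 : ℝ) / 100)))
          + ENNReal.ofReal π * (ENNReal.ofReal (1.9 * K + 1 - (1.1 * K - 1)) * ENNReal.ofReal (C₂ * K ^ ((2 : ℝ) / 100)))) := by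
        gcongr
    _ = ENNReal.ofReal (3 * (π * (C₀ ^ 2 * ((1.9 * K - 1.1 * K) * (C₁ * K ^ ((2 : ℝ) / 100)))
          + (1.9 * K - 1.1 * K) * (C₂ * K ^ ((2 : ℝ) / 100)))
          + π * ((1.9 * K + 1 - (1.1 * K - 1)) * (C₂ * K ^ ((2 : ℝ) / 100))))) := by
        have e3 : (3 : ℝ≥0∞) = ENNReal.ofReal 3 := by simp
        have p1 : (0 : ℝ) ≤ 1.9 * K - 1.1 * K := by linarith
        have p2 : (0 : ℝ) ≤ 1.9 * K + 1 - (1.1 * K - 1) := by linarith
        rw [e3, ← ENNReal.ofReal_mul p1, ← ENNReal.ofReal_mul p1, ← ENNReal.ofReal_mul p2,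
          ← ENNReal.ofReal_mul (by positivity), ← ENNReal.ofReal_add (by positivity) (by positivity),
          ← ENNReal.ofReal_mul hπ.le, ← ENNReal.ofReal_mul hπ.le,
          ← ENNReal.ofReal_add (by positivity) (by positivity), ← ENNReal.ofReal_mul (by norm_num)]
    _ ≤ ENNReal.ofReal (3 * π * (C₀ ^ 2 * C₁ + 2 * C₂) * K ^ (1 + (2 : ℝ) / 100)) := by
        refine ENNReal.ofReal_le_ofReal ?_
        have e : K ^ (1 + (2 : ℝ) / 100) = K * K ^ ((2 : ℝ) / 100) := by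
          rw [Real.rpow_add (by linarith), Real.rpow_one]
        rw [e]
        generalize K ^ ((2 : ℝ) / 100) = P at *
        have q1 : 0 ≤ π * (C₀ ^ 2 * C₁) * P := by positivity
        have q2 : 0 ≤ π * C₂ * P := by positivity
        nlinarith

/-! ### LF-S11e-3: the pointwise inequality and the cost bound -/

/-- the ramp inequality integrated against a finite measure. -/
theorem s11e_ramp_int {X : Type*} [MeasurableSpace X] (μ : Measure X) [IsFiniteMeasure μ] (y : X → ℝ)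
    (hy : Measurable y) (x : ℝ) (hyint : Integrable y μ) (hmean : μ.real univ * x ≤ ∫ w, y w ∂μ)
    (h R B : ℝ) (hh : 0 < h) (hR : 0 < R) (Φ ψ : ℝ → ℝ) (hΦc : Continuous Φ)
    (hΦ : ∀ x, 0 ≤ Φ x ∧ Φ x ≤ B) (hψ : ∀ x, 0 ≤ ψ x)
    (hr : ∀ x y, ψ x * (y - x) + (if |x| ≤ h then min ((y - x) ^ 2) (h ^ 2) / (2 * h) else 0)
      ≤ Φ y - Φ x + 2 / R * (y - x) ^ 2) :
    ENNReal.ofReal (1 / (2 * h)) *
        (if |x| ≤ h then ∫⁻ w, ENNReal.ofReal (min ((y w - x) ^ 2) (h ^ 2)) ∂μ else 0)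
      + ENNReal.ofReal (μ.real univ * Φ x)
      ≤ ∫⁻ w, ENNReal.ofReal (Φ (y w)) ∂μ
        + ENNReal.ofReal (2 / R) * ∫⁻ w, ENNReal.ofReal ((y w - x) ^ 2) ∂μ := by
  by_cases htop : ∫⁻ w, ENNReal.ofReal ((y w - x) ^ 2) ∂μ = ⊤
  · have h2R : ENNReal.ofReal (2 / R) ≠ 0 := by
      simp only [ne_eq, ENNReal.ofReal_eq_zero, not_le]; positivity
    rw [htop, ENNReal.mul_top h2R, add_top]
    exact le_top
  have hsqm : Measurable fun w => (y w - x) ^ 2 := (hy.sub_const x).pow_const 2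
  have hsq : Integrable (fun w => (y w - x) ^ 2) μ :=
    (lintegral_ofReal_ne_top_iff_integrable hsqm.aestronglyMeasurable
      (ae_of_all _ fun w => sq_nonneg _)).1 htop
  have hΦint : Integrable (fun w => Φ (y w)) μ :=
    Integrable.of_bound (hΦc.measurable.comp hy).aestronglyMeasurable B
      (ae_of_all _ fun w => by rw [Real.norm_eq_abs, abs_of_nonneg (hΦ _).1]; exact (hΦ _).2)
  set c : X → ℝ := fun w => if |x| ≤ h then min ((y w - x) ^ 2) (h ^ 2) / (2 * h) else 0 with hc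
  have hcm : Measurable c := by
    by_cases hx : |x| ≤ h
    · simp only [hc, if_pos hx]; exact (hsqm.min measurable_const).div_const _
    · simp only [hc, if_neg hx]; exact measurable_const
  have hc0 : ∀ w, 0 ≤ c w := by
    intro w
    simp only [hc]
    split_ifs
    · positivity
    · exact le_rfl
  have hcb : ∀ w, c w ≤ h := by
    intro w
    simp only [hc]
    split_ifs
    · rw [div_le_iff₀ (by positivity)]
      have := min_le_right ((y w - x) ^ 2) (h ^ 2)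
      nlinarith
    · exact hh.le
  have hcint : Integrable c μ := Integrable.of_bound hcm.aestronglyMeasurable h
    (ae_of_all _ fun w => by rw [Real.norm_eq_abs, abs_of_nonneg (hc0 w)]; exact hcb w)
  have i1 : Integrable (fun w => ψ x * (y w - x)) μ := (hyint.sub (integrable_const x)).const_mul _
  have i2 : Integrable (fun w => Φ (y w) - Φ x) μ := hΦint.sub (integrable_const _)
  have i3 : Integrable (fun w => 2 / R * (y w - x) ^ 2) μ := hsq.const_mul _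
  have hint : ∫ w, (ψ x * (y w - x) + c w) ∂μ ≤ ∫ w, (Φ (y w) - Φ x + 2 / R * (y w - x) ^ 2) ∂μ :=
    integral_mono (i1.add hcint) (i2.add i3) (fun w => hr x (y w))
  rw [integral_add i1 hcint, integral_const_mul, integral_sub hyint (integrable_const x), integral_const,
    integral_add i2 i3, integral_sub hΦint (integrable_const _), integral_const, integral_const_mul,
    smul_eq_mul, smul_eq_mul] at hint
  have hkey : ∫ w, c w ∂μ + μ.real univ * Φ x ≤ ∫ w, Φ (y w) ∂μ + 2 / R * ∫ w, (y w - x) ^ 2 ∂μ := by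
    have : 0 ≤ ψ x * (∫ w, y w ∂μ - μ.real univ * x) := mul_nonneg (hψ x) (by linarith)
    linarith
  have e1 : ENNReal.ofReal (1 / (2 * h)) *
      (if |x| ≤ h then ∫⁻ w, ENNReal.ofReal (min ((y w - x) ^ 2) (h ^ 2)) ∂μ else 0)
      = ENNReal.ofReal (∫ w, c w ∂μ) := by
    rw [ofReal_integral_eq_lintegral_ofReal hcint (ae_of_all _ hc0)]
    by_cases hx : |x| ≤ h
    · simp only [hc, if_pos hx]
      rw [← lintegral_const_mul' _ _ ENNReal.ofReal_ne_top]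
      refine lintegral_congr fun w => ?_
      rw [← ENNReal.ofReal_mul (by positivity)]
      congr 1; ring
    · simp only [hc, if_neg hx]; simp
  have e2 : ∫⁻ w, ENNReal.ofReal (Φ (y w)) ∂μ = ENNReal.ofReal (∫ w, Φ (y w) ∂μ) :=
    (ofReal_integral_eq_lintegral_ofReal hΦint (ae_of_all _ fun w => (hΦ _).1)).symm
  have e3 : ∫⁻ w, ENNReal.ofReal ((y w - x) ^ 2) ∂μ = ENNReal.ofReal (∫ w, (y w - x) ^ 2 ∂μ) :=
    (ofReal_integral_eq_lintegral_ofReal hsq (ae_of_all _ fun w => sq_nonneg _)).symm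
  rw [e1, e2, e3, ← ENNReal.ofReal_mul (by positivity),
    ← ENNReal.ofReal_add (integral_nonneg hc0) (mul_nonneg measureReal_nonneg (hΦ x).1),
    ← ENNReal.ofReal_add (integral_nonneg fun w => (hΦ _).1)
      (mul_nonneg (by positivity) (integral_nonneg fun w => sq_nonneg _))]
  exact ENNReal.ofReal_le_ofReal hkey

/-- integrate the ramp inequality over the disc.  If `inc2 z = ∞` there is nothing to prove; otherwise `a` is square integrable on the disc. -/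
theorem cost_point (hH : Sh.H ≠ ⊤) (h R B : ℝ) (hh : 0 < h) (hR : 0 < R) (Φ ψ : ℝ → ℝ) (hΦc : Continuous Φ)
    (hΦ : ∀ x, 0 ≤ Φ x ∧ Φ x ≤ B) (hψ : ∀ x, 0 ≤ ψ x)
    (hr : ∀ x y, ψ x * (y - x) + (if |x| ≤ h then min ((y - x) ^ 2) (h ^ 2) / (2 * h) else 0) ≤ Φ y - Φ x + 2 / R * (y - x) ^ 2)
    (z : ℂ) (hz : Sh.Col z) (hf : Sh.f z ≠ 0) :
    ENNReal.ofReal (1 / (2 * h)) * Sh.cost h z + ENNReal.ofReal (π * Φ (Sh.aa z))
      ≤ Sh.Jl (fun z' => ENNReal.ofReal (Φ (Sh.aa z'))) z + ENNReal.ofReal (2 / R) * Sh.inc2 z := by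
  have hδ := hz.2.1
  have hfin : IsFiniteMeasure (volume.restrict (ball (0 : ℂ) 1)) :=
    ⟨by rw [Measure.restrict_apply_univ]; exact measure_ball_lt_top⟩
  have hreal : (volume.restrict (ball (0 : ℂ) 1)).real univ = π := by
    rw [Measure.real, Measure.restrict_apply_univ, s11e_volume_ball, ENNReal.toReal_ofReal Real.pi_pos.le]
  have hsubD : closedBall z (Sh.dep z / 4) ⊆ Sh.D := Sh.s11b_ball_subset hH (by linarith)
  have han : AnalyticOnNhd ℂ (fun w : ℂ => Sh.f (z + ((Sh.dep z / 4 : ℝ) : ℂ) * w)) (closedBall 0 1) := by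
    intro w hw
    have hw' : ‖w‖ ≤ 1 := by simpa using hw
    have hm : z + ((Sh.dep z / 4 : ℝ) : ℂ) * w ∈ closedBall z (Sh.dep z / 4) := by
      rw [mem_closedBall, dist_eq_norm, add_sub_cancel_left, norm_mul, Complex.norm_real, Real.norm_eq_abs,
        abs_of_pos (by positivity)]
      have : Sh.dep z / 4 * ‖w‖ ≤ Sh.dep z / 4 * 1 := mul_le_mul_of_nonneg_left hw' (by positivity)
      linarith
    have h1 : AnalyticAt ℂ Sh.f (z + ((Sh.dep z / 4 : ℝ) : ℂ) * w) := Sh.sb_f_analytic _ (hsubD hm)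
    have h2 : AnalyticAt ℂ (fun w : ℂ => z + ((Sh.dep z / 4 : ℝ) : ℂ) * w) w :=
      analyticAt_const.add (analyticAt_const.mul analyticAt_id)
    exact AnalyticAt.comp (g := Sh.f) (f := fun w : ℂ => z + ((Sh.dep z / 4 : ℝ) : ℂ) * w) h1 h2
  have hsub := LS.log_submean (fun w : ℂ => Sh.f (z + ((Sh.dep z / 4 : ℝ) : ℂ) * w)) 0 1 one_pos han
    (by simpa using hf)
  have hy : Measurable fun w : ℂ => Sh.aa (z + ((Sh.dep z / 4 : ℝ) : ℂ) * w) :=
    Sh.measurable_aa.comp (continuous_const.add (continuous_const.mul continuous_id)).measurable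
  have hmean : (volume.restrict (ball (0 : ℂ) 1)).real univ * Sh.aa z
      ≤ ∫ w in ball (0 : ℂ) 1, Sh.aa (z + ((Sh.dep z / 4 : ℝ) : ℂ) * w) := by
    have h2 := hsub.2
    simp only [mul_zero, add_zero, one_pow, mul_one] at h2
    rw [hreal]
    exact h2
  have key := s11e_ramp_int (volume.restrict (ball (0 : ℂ) 1))
    (fun w : ℂ => Sh.aa (z + ((Sh.dep z / 4 : ℝ) : ℂ) * w)) hy (Sh.aa z) hsub.1 hmean h R B hh hR Φ ψ hΦc hΦ hψ hr
  rw [hreal] at key
  exact key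

/-- measurability of the cost (Tonelli-type measurability of parameter integrals) -/
theorem measurable_cost (h : ℝ) : Measurable (Sh.cost h) := by
  unfold cost Jl
  refine Measurable.ite (measurableSet_le Sh.measurable_aa.abs measurable_const) ?_ measurable_const
  have hm : Measurable fun p : ℂ × ℂ => ENNReal.ofReal
      (min ((Sh.aa (p.1 + ((Sh.dep p.1 / 4 : ℝ) : ℂ) * p.2) - Sh.aa p.1) ^ 2) (h ^ 2)) :=
    ENNReal.measurable_ofReal.comp (((((Sh.measurable_aa.comp Sh.s11e_continuous_jump.measurable).sub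
      (Sh.measurable_aa.comp measurable_fst)).pow_const 2)).min measurable_const)
  exact hm.lintegral_prod_right' (ν := volume.restrict (ball (0 : ℂ) 1))

/-- **(11.12)**: the total occupation cost is `O(K^{1/2+7α}) = o(K / log K)`. -/
theorem cost_bound (h : Sh.CritPoly) : ∃ C K0 : ℝ, 0 < C ∧ ∀ K, K0 ≤ K → Sh.LowMom K →
    Sh.bint (Sh.cost (K ^ ((6 : ℝ) / 100))) (1.1 * K) (1.9 * K) ≤ ENNReal.ofReal (C * K ^ ((1 : ℝ) / 2 + 7 / 100)) := by
  have hH := h.fin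
  obtain ⟨C₁, K1, hC₁, hvar⟩ := Sh.var_bound h
  obtain ⟨K3, hK30, hK3⟩ := Sh.s11b_K0 hH
  refine ⟨120 + 4 * C₁, max K1 K3, by positivity, fun K hK hlow => ?_⟩
  have hKK1 : K1 ≤ K := (le_max_left _ _).trans hK
  have hKK3 : K3 ≤ K := (le_max_right _ _).trans hK
  have hK30' : 30 ≤ K := hK30.trans hKK3
  have hKpos : 0 < K := by linarith
  have hHr := Sh.sb_Hr_pos hH
  set hh := K ^ ((6 : ℝ) / 100) with hhh
  set R := K ^ ((1 : ℝ) / 2 + 1 / 100) with hRdef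
  have hh0 : 0 < hh := Real.rpow_pos_of_pos hKpos _
  have hR0 : 0 < R := Real.rpow_pos_of_pos hKpos _
  obtain ⟨Φ, ψ, hΦc, hΦ, hψ, hr⟩ := LS.ramp hh R hh0 hR0
  have hB0 : 0 ≤ 8 * hh + 2 * R := by positivity
  have hd4 : ∀ v, K ≤ v → Real.exp (-v) < Sh.Hr / 4 := fun v hv => hK3 v (by linarith)
  have hcol : ∀ v, K ≤ v → ∀ x, Sh.Col (Sh.up x (Real.exp (-v))) := fun v hv =>
    Sh.s11b_col (Real.exp_pos _) (hd4 v hv)
  set G : ℂ → ℝ≥0∞ := Sh.D.indicator fun z => ENNReal.ofReal (Φ (Sh.aa z)) with hG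
  have hGm : Measurable G :=
    (ENNReal.measurable_ofReal.comp (hΦc.measurable.comp Sh.measurable_aa)).indicator
      Sh.sb_isOpen_D.measurableSet
  have hGmem : ∀ {z : ℂ}, z ∈ Sh.D → G z = ENNReal.ofReal (Φ (Sh.aa z)) := fun hz => indicator_of_mem hz _
  have hGper : ∀ z, G (z + 2 * π) = G z := by
    intro z
    by_cases hz : z ∈ Sh.D
    · rw [hGmem hz, hGmem (Sh.sb_add_two_pi_mem_D hz), Sh.s11e_aa_per hz]
    · have hz' : z + 2 * π ∉ Sh.D := fun h => hz (by simpa using Sh.sb_sub_two_pi_mem_D h)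
      simp only [hG]
      rw [indicator_of_notMem hz', indicator_of_notMem hz]
  have hGB : ∀ z, G z ≤ ENNReal.ofReal (8 * hh + 2 * R) := by
    intro z
    by_cases hz : z ∈ Sh.D
    · rw [hGmem hz]; exact ENNReal.ofReal_le_ofReal (hΦ _).2
    · simp only [hG]; rw [indicator_of_notMem hz]; exact zero_le
  -- the pointwise inequality, almost everywhere on every row
  have hpt : ∀ v ∈ Icc (1.1 * K) (1.9 * K), ∀ᵐ x ∂(volume.restrict (Icc (0 : ℝ) (2 * π))),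
      ENNReal.ofReal (1 / (2 * hh)) * Sh.cost hh (Sh.up x (Real.exp (-v))) + ENNReal.ofReal π * G (Sh.up x (Real.exp (-v)))
        ≤ ENNReal.ofReal (2 / R) * Sh.inc2 (Sh.up x (Real.exp (-v))) + Sh.Jl G (Sh.up x (Real.exp (-v))) := by
    intro v hv
    have hKv : K ≤ v := by linarith [hv.1]
    have hinj : Function.Injective fun x : ℝ => Sh.up x (Real.exp (-v)) := by
      intro a b hab
      have := congrArg Complex.re hab
      simpa [up] using this
    refine ae_restrict_of_ae ?_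
    filter_upwards [Sh.s11b_ae_ne volume hinj] with x hne
    have hc := hcol v hKv x
    have hD : Sh.up x (Real.exp (-v)) ∈ Sh.D := (Sh.mem_D_iff hH _).2 hc.2.1
    have h1 := Sh.cost_point hH hh R (8 * hh + 2 * R) hh0 hR0 Φ ψ hΦc hΦ hψ hr _ hc (hne hD)
    have e1 : ENNReal.ofReal π * G (Sh.up x (Real.exp (-v)))
        = ENNReal.ofReal (π * Φ (Sh.aa (Sh.up x (Real.exp (-v))))) := by
      rw [hGmem hD, ENNReal.ofReal_mul Real.pi_pos.le]
    have e2 : Sh.Jl G (Sh.up x (Real.exp (-v)))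
        = Sh.Jl (fun z' => ENNReal.ofReal (Φ (Sh.aa z'))) (Sh.up x (Real.exp (-v))) := by
      unfold Jl
      refine setLIntegral_congr_fun measurableSet_ball (fun w hw => ?_)
      exact hGmem (Sh.s11b_ball_subset hH (by linarith [hc.2.1]) (Sh.s11e_jump_mem hc.2.1 hw))
    rw [e1, e2, add_comm (ENNReal.ofReal (2 / R) * _)]
    exact h1
  have hband : Sh.bint (fun z => ENNReal.ofReal (1 / (2 * hh)) * Sh.cost hh z + ENNReal.ofReal π * G z) (1.1 * K) (1.9 * K)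
      ≤ Sh.bint (fun z => ENNReal.ofReal (2 / R) * Sh.inc2 z + Sh.Jl G z) (1.1 * K) (1.9 * K) :=
    setLIntegral_mono' measurableSet_Icc fun v hv => lintegral_mono_ae (hpt v hv)
  rw [Sh.s11e_bint_add _ (hGm.const_mul _), Sh.s11e_bint_add _ (Sh.s11e_measurable_Jl hGm),
    Sh.s11e_bint_const_mul _ ENNReal.ofReal_ne_top, Sh.s11e_bint_const_mul _ ENNReal.ofReal_ne_top,
    Sh.s11e_bint_const_mul _ ENNReal.ofReal_ne_top] at hband
  have hJ := Sh.bint_Jl_le_add G hGm hGper _ hGB (1.1 * K) (1.9 * K) (by linarith)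
    (by linarith [hd4 (1.1 * K) (by linarith)])
  have hV := hvar K hKK1 hlow
  have hYfin : ENNReal.ofReal π * Sh.bint G (1.1 * K) (1.9 * K) ≠ ⊤ := by
    refine ENNReal.mul_ne_top ENNReal.ofReal_ne_top (ne_top_of_le_ne_top ?_ (Sh.s11e_bint_le_const G _ hGB _ _))
    exact ENNReal.mul_ne_top ENNReal.ofReal_ne_top (ENNReal.mul_ne_top ENNReal.ofReal_ne_top ENNReal.ofReal_ne_top)
  have hcX : ENNReal.ofReal (1 / (2 * hh)) * Sh.bint (Sh.cost hh) (1.1 * K) (1.9 * K)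
      ≤ ENNReal.ofReal (2 / R) * ENNReal.ofReal (C₁ * K ^ (1 + (2 : ℝ) / 100)) + 6 * ENNReal.ofReal (8 * hh + 2 * R) := by
    have h2 : ENNReal.ofReal (1 / (2 * hh)) * Sh.bint (Sh.cost hh) (1.1 * K) (1.9 * K)
          + ENNReal.ofReal π * Sh.bint G (1.1 * K) (1.9 * K)
        ≤ (ENNReal.ofReal (2 / R) * ENNReal.ofReal (C₁ * K ^ (1 + (2 : ℝ) / 100)) + 6 * ENNReal.ofReal (8 * hh + 2 * R))
          + ENNReal.ofReal π * Sh.bint G (1.1 * K) (1.9 * K) := by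
      calc _ ≤ ENNReal.ofReal (2 / R) * Sh.bint Sh.inc2 (1.1 * K) (1.9 * K) + Sh.bint (Sh.Jl G) (1.1 * K) (1.9 * K) := hband
        _ ≤ ENNReal.ofReal (2 / R) * ENNReal.ofReal (C₁ * K ^ (1 + (2 : ℝ) / 100))
            + (ENNReal.ofReal π * Sh.bint G (1.1 * K) (1.9 * K) + 6 * ENNReal.ofReal (8 * hh + 2 * R)) := by
            gcongr
        _ = _ := by ring
    exact (ENNReal.add_le_add_iff_right hYfin).1 h2
  have hKp : 0 ≤ K ^ (1 + (2 : ℝ) / 100) := Real.rpow_nonneg hKpos.le _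
  calc Sh.bint (Sh.cost hh) (1.1 * K) (1.9 * K)
      = ENNReal.ofReal (2 * hh) * (ENNReal.ofReal (1 / (2 * hh)) * Sh.bint (Sh.cost hh) (1.1 * K) (1.9 * K)) := by
        rw [← mul_assoc, ← ENNReal.ofReal_mul (by positivity)]
        have : 2 * hh * (1 / (2 * hh)) = 1 := by field_simp
        rw [this, ENNReal.ofReal_one, one_mul]
    _ ≤ ENNReal.ofReal (2 * hh) * (ENNReal.ofReal (2 / R) * ENNReal.ofReal (C₁ * K ^ (1 + (2 : ℝ) / 100))
          + 6 * ENNReal.ofReal (8 * hh + 2 * R)) := mul_le_mul_right hcX _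
    _ = ENNReal.ofReal (2 * hh * (2 / R * (C₁ * K ^ (1 + (2 : ℝ) / 100)) + 6 * (8 * hh + 2 * R))) := by
        have e6 : (6 : ℝ≥0∞) = ENNReal.ofReal 6 := by simp
        rw [e6, ← ENNReal.ofReal_mul (by positivity), ← ENNReal.ofReal_mul (by norm_num),
          ← ENNReal.ofReal_add (by positivity) (by positivity), ← ENNReal.ofReal_mul (by positivity)]
    _ ≤ ENNReal.ofReal ((120 + 4 * C₁) * K ^ ((1 : ℝ) / 2 + 7 / 100)) := by
        refine ENNReal.ofReal_le_ofReal ?_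
        have p1 : hh * R = K ^ ((1 : ℝ) / 2 + 7 / 100) := by
          rw [hhh, hRdef, ← Real.rpow_add hKpos]; congr 1; norm_num
        have p2 : hh * hh ≤ K ^ ((1 : ℝ) / 2 + 7 / 100) := by
          rw [hhh, ← Real.rpow_add hKpos]
          exact Real.rpow_le_rpow_of_exponent_le (by linarith) (by norm_num)
        have p3 : hh * K ^ (1 + (2 : ℝ) / 100) = K ^ ((1 : ℝ) / 2 + 7 / 100) * R := by
          rw [hhh, hRdef, ← Real.rpow_add hKpos, ← Real.rpow_add hKpos]; congr 1; norm_num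
        have p4 : 2 * hh * (2 / R * (C₁ * K ^ (1 + (2 : ℝ) / 100))) = 4 * C₁ * K ^ ((1 : ℝ) / 2 + 7 / 100) := by
          have : 2 * hh * (2 / R * (C₁ * K ^ (1 + (2 : ℝ) / 100)))
              = 4 * C₁ * (hh * K ^ (1 + (2 : ℝ) / 100)) / R := by ring
          rw [this, p3]; field_simp
        have p5 : 2 * hh * (6 * (8 * hh + 2 * R)) = 96 * (hh * hh) + 24 * (hh * R) := by ring
        rw [mul_add, p4, p5, p1]
        linarith

end Shape

end Claimed.Agent.R269
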