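/-
Row 269, P1 Section 11.6, package LF-S11c-3 (helper196): proofs of `Slice.site_suppression` and `Slice.deep_controls`
(statements verbatim, names `site_suppression_pf`, `deep_controls_pf`).  Imports only S10/Time.lean, so S11/Last.lean can import this file.
-/
import Claimed.Agent.R269.S10.Time

set_option autoImplicit false

namespace Claimed.Agent.R269

open Complex Metric Set Filter Topology Chn MeasureTheory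
open scoped Real ENNReal

local notation "⟪" i "⟫" => ((Fin.val i : ℕ) : ℤ)

namespace Slice

variable (Sl : Slice)

theorem drv_Bmat_eq (I F : Finset (Fin Sl.N)) (y : ℂ) :
    Sl.Bmat I F y = bmat (Sl.M₀ y) (fun i => Sl.V ⟪i⟫ y) I F := rfl

theorem drv_geo (y : ℂ) (i : Fin Sl.N) (g : ℝ) (h : Sl.geo y ≤ g) :
    |Real.log ‖Sl.sd ⟪i⟫ y‖| ≤ g ∧ |Real.log ‖Sl.ℓ ⟪i⟫ y‖| ≤ g := by
  have h1 := (Sl.clk_geo1_le y i).trans h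
  unfold geo1 at h1
  have h2 : 0 ≤ Real.log (1 + ‖Sl.X ⟪i⟫ y‖) := Real.log_nonneg (by linarith [norm_nonneg (Sl.X ⟪i⟫ y)])
  have h3 := norm_nonneg (Sl.ψ ⟪i⟫ y)
  have h4 := abs_nonneg (Real.log ‖Sl.sd ⟪i⟫ y‖)
  have h5 := abs_nonneg (Real.log ‖Sl.ℓ ⟪i⟫ y‖)
  constructor <;> linarith

theorem drv_norm_f (y : ℂ) (hy : y ∈ Sl.reg) (i : Fin Sl.N) : ‖Sl.fj ⟪i⟫ y‖ = Real.exp (Sl.a ⟪i⟫ y) := by
  unfold a
  rw [Real.exp_log (norm_pos_iff.mpr (hy.2.1 i).1)]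

theorem drv_norm_w (y : ℂ) (j : ℤ) :
    ‖Sl.w j y‖ = Sl.Sh.G.c * ‖Sl.sd j y‖ * (‖Sl.fj j y‖⁻¹) ^ 2 * ‖Sl.s' j y‖ := by
  unfold w
  rw [norm_mul, norm_mul, norm_mul, norm_pow, norm_inv, Complex.norm_real, Real.norm_eq_abs,
    abs_of_pos Sl.Sh.G.c_pos]

theorem drv_le_exp (x : ℝ) : x ≤ Real.exp x := by
  have := Real.add_one_le_exp x
  linarith

theorem drv_M₀_le (hS : Sl.Hyp) (y : ℂ) (hy : y ∈ Sl.reg) (g : ℝ) (h : Sl.geo y ≤ g) (i k : Fin Sl.N) :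
    ‖Sl.M₀ y i k‖ ≤ 4 * Real.exp g :=
  Sl.clk_M₀_le hS y hy (Real.exp g)
    (fun j => clk_inv_le_exp (hy.2.1 j).2.2 (abs_le.mp (Sl.drv_geo y j g h).2).1) i k

/-- (11.27) `|s_i'| ≤ e^{C(1+g) - |a_i|} w_max` under the geometry cap `𝒢 ≤ g` -/
theorem site_suppression_pf (hS : Sl.Hyp) : ∃ C : ℝ, 0 < C ∧ ∀ y ∈ Sl.reg, ∀ g wm : ℝ, 0 ≤ g → Sl.geo y ≤ g →
    (∀ j : Fin Sl.N, ‖Sl.w ⟪j⟫ y‖ ≤ wm) → ∀ i : Fin Sl.N,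
    ‖Sl.s' ⟪i⟫ y‖ ≤ Real.exp (C * (1 + g) - |Sl.a ⟪i⟫ y|) * wm := by
  have hc := Sl.Sh.G.c_pos
  have hci : 0 < Sl.Sh.G.c⁻¹ := inv_pos.mpr hc
  have hN0 : (0 : ℝ) ≤ Sl.N := Nat.cast_nonneg _
  refine ⟨1 + Sl.Sh.G.c⁻¹ + 2 * Sl.N, by positivity, ?_⟩
  intro y hy g wm hg hgeo hw i
  have hwm : 0 ≤ wm := (norm_nonneg _).trans (hw i)
  obtain ⟨hf, hsd, hℓ⟩ := hy.2.1 i
  have hfpos : 0 < ‖Sl.fj ⟪i⟫ y‖ := norm_pos_iff.mpr hf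
  have hsdpos : 0 < ‖Sl.sd ⟪i⟫ y‖ := norm_pos_iff.mpr hsd
  have hfa := Sl.drv_norm_f y hy i
  have hexpand : (1 + Sl.Sh.G.c⁻¹ + 2 * Sl.N) * (1 + g)
      = (1 + g) + Sl.Sh.G.c⁻¹ + 2 * Sl.N + (Sl.Sh.G.c⁻¹ + 2 * Sl.N) * g := by ring
  have hextra : 0 ≤ (Sl.Sh.G.c⁻¹ + 2 * Sl.N) * g := by positivity
  rcases le_total (Sl.a ⟪i⟫ y) 0 with ha | ha
  · -- small amplitude: `s' = w f² / (c sin d)`
    have h1 := Sl.drv_norm_w y ⟪i⟫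
    have h2 : ‖Sl.s' ⟪i⟫ y‖ = ‖Sl.w ⟪i⟫ y‖ * ‖Sl.fj ⟪i⟫ y‖ ^ 2 * Sl.Sh.G.c⁻¹ * ‖(Sl.sd ⟪i⟫ y)⁻¹‖ := by
      rw [h1, norm_inv]; field_simp
    have h3 : ‖(Sl.sd ⟪i⟫ y)⁻¹‖ ≤ Real.exp g := clk_inv_le_exp hsd (abs_le.mp (Sl.drv_geo y i g hgeo).1).1
    have h4 : ‖Sl.fj ⟪i⟫ y‖ ^ 2 = Real.exp (2 * Sl.a ⟪i⟫ y) := by
      rw [hfa, ← Real.exp_nat_mul]; norm_num
    rw [h2, h4, abs_of_nonpos ha]
    calc ‖Sl.w ⟪i⟫ y‖ * Real.exp (2 * Sl.a ⟪i⟫ y) * Sl.Sh.G.c⁻¹ * ‖(Sl.sd ⟪i⟫ y)⁻¹‖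
        ≤ wm * Real.exp (2 * Sl.a ⟪i⟫ y) * Real.exp Sl.Sh.G.c⁻¹ * Real.exp g := by
          gcongr
          · exact hw i
          · exact drv_le_exp _
      _ = Real.exp (2 * Sl.a ⟪i⟫ y + Sl.Sh.G.c⁻¹ + g) * wm := by
          rw [Real.exp_add, Real.exp_add]; ring
      _ ≤ _ := by
          refine mul_le_mul_of_nonneg_right (Real.exp_le_exp.mpr ?_) hwm
          rw [hexpand]
          linarith
  · -- large amplitude: `2 f s' = (M₀ w)`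
    have h1 := Sl.M₀_w hS y hy i
    have h2 : ‖(Sl.M₀ y).mulVec (fun i => Sl.w ⟪i⟫ y) i‖ ≤ Sl.N * (4 * Real.exp g * wm) := by
      unfold Matrix.mulVec dotProduct
      refine (norm_sum_le _ _).trans ?_
      have : ∀ k ∈ (Finset.univ : Finset (Fin Sl.N)), ‖Sl.M₀ y i k * Sl.w ⟪k⟫ y‖ ≤ 4 * Real.exp g * wm := by
        intro k _
        rw [norm_mul]
        exact mul_le_mul (Sl.drv_M₀_le hS y hy g hgeo i k) (hw k) (norm_nonneg _) (by positivity)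
      refine (Finset.sum_le_sum this).trans ?_
      rw [Finset.sum_const, Finset.card_univ, Fintype.card_fin, nsmul_eq_mul]
    rw [← h1, norm_mul, norm_mul] at h2
    have h3 : ‖(2 : ℂ)‖ = 2 := by simp
    rw [h3, hfa] at h2
    have h4 : ‖Sl.s' ⟪i⟫ y‖ ≤ Real.exp (-Sl.a ⟪i⟫ y) * ((2 * Sl.N) * Real.exp g * wm) := by
      rw [Real.exp_neg, ← div_eq_inv_mul, le_div_iff₀ (Real.exp_pos _)]
      nlinarith
    rw [abs_of_nonneg ha]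
    calc ‖Sl.s' ⟪i⟫ y‖ ≤ Real.exp (-Sl.a ⟪i⟫ y) * ((2 * Sl.N) * Real.exp g * wm) := h4
      _ ≤ Real.exp (-Sl.a ⟪i⟫ y) * (Real.exp (2 * Sl.N) * Real.exp g * wm) := by
          gcongr
          exact drv_le_exp _
      _ = Real.exp (-Sl.a ⟪i⟫ y + 2 * Sl.N + g) * wm := by
          rw [Real.exp_add, Real.exp_add]; ring
      _ ≤ _ := by
          refine mul_le_mul_of_nonneg_right (Real.exp_le_exp.mpr ?_) hwm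
          rw [hexpand]
          linarith

/-- (11.28) `w_max ≤ e^{C(g + b + t)} max_{j ∈ J} |s_j'|`: `F = {j ∈ J : a_j < -t}`, `D = J \ F`; `elim` with `I = Jᶜ`; `e^b` bounds the modified inverses;
smallness `C (1 + g + b) ≤ t`. -/
theorem deep_controls_pf (hS : Sl.Hyp) : ∃ C : ℝ, 0 < C ∧ ∀ y ∈ Sl.reg, ∀ (J : Finset (Fin Sl.N)) (g b t sm : ℝ), J.Nonempty → 0 ≤ g → 0 ≤ b →
    C * (1 + g + b) ≤ t → Sl.geo y ≤ g →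
    (∀ F : Finset (Fin Sl.N), F ⊆ J → ∀ i k, ‖(Sl.Bmat Jᶜ F y)⁻¹ i k‖ ≤ Real.exp b) →
    (∀ j ∈ J, ‖Sl.s' ⟪j⟫ y‖ ≤ sm) → ∀ i : Fin Sl.N, ‖Sl.w ⟪i⟫ y‖ ≤ Real.exp (3 * t) * sm := by
  classical
  have hc := Sl.Sh.G.c_pos
  have hci : 0 < Sl.Sh.G.c⁻¹ := inv_pos.mpr hc
  have hN0 : (0 : ℝ) ≤ Sl.N := Nat.cast_nonneg _
  refine ⟨3 + 4 * Sl.N * Sl.Sh.G.c⁻¹ + 8 * (Sl.N : ℝ) ^ 2 * Sl.Sh.G.c + Sl.Sh.G.c, by positivity, ?_⟩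
  intro y hy J g b t sm hJ hg hb ht hgeo hinv hs i
  obtain ⟨j0, hj0⟩ := hJ
  have hsm : 0 ≤ sm := (norm_nonneg _).trans (hs j0 hj0)
  have ht1 : 4 * Sl.N * Sl.Sh.G.c⁻¹ + 8 * (Sl.N : ℝ) ^ 2 * Sl.Sh.G.c + Sl.Sh.G.c + 3 * g + 3 * b ≤ t := by
    refine le_trans ?_ ht
    have e : (3 + 4 * Sl.N * Sl.Sh.G.c⁻¹ + 8 * (Sl.N : ℝ) ^ 2 * Sl.Sh.G.c + Sl.Sh.G.c) * (1 + g + b)
        = 4 * Sl.N * Sl.Sh.G.c⁻¹ + 8 * (Sl.N : ℝ) ^ 2 * Sl.Sh.G.c + Sl.Sh.G.c + 3 * g + 3 * b + 3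
          + (4 * Sl.N * Sl.Sh.G.c⁻¹ + 8 * (Sl.N : ℝ) ^ 2 * Sl.Sh.G.c + Sl.Sh.G.c) * (g + b) := by ring
    have h0 : 0 ≤ (4 * Sl.N * Sl.Sh.G.c⁻¹ + 8 * (Sl.N : ℝ) ^ 2 * Sl.Sh.G.c + Sl.Sh.G.c) * (g + b) := by positivity
    rw [e]; linarith
  have p1 : 0 ≤ 4 * Sl.N * Sl.Sh.G.c⁻¹ := by positivity
  have p2 : 0 ≤ 8 * (Sl.N : ℝ) ^ 2 * Sl.Sh.G.c := by positivity
  set F : Finset (Fin Sl.N) := J.filter (fun j => Sl.a ⟪j⟫ y < -t) with hF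
  have hFJ : F ⊆ J := Finset.filter_subset _ _
  have hsdle : ∀ j : Fin Sl.N, ‖Sl.sd ⟪j⟫ y‖ ≤ Real.exp g := fun j =>
    clk_norm_le_exp (hy.2.1 j).2.1 (abs_le.mp (Sl.drv_geo y j g hgeo).1).2
  have hsdinv : ∀ j : Fin Sl.N, ‖(Sl.sd ⟪j⟫ y)⁻¹‖ ≤ Real.exp g := fun j =>
    clk_inv_le_exp (hy.2.1 j).2.1 (abs_le.mp (Sl.drv_geo y j g hgeo).1).1
  -- the deleted sites
  have hD : ∀ j ∈ J, j ∉ F → ‖Sl.w ⟪j⟫ y‖ ≤ Sl.Sh.G.c * Real.exp g * Real.exp (2 * t) * sm := by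
    intro j hj hjF
    have ha : -t ≤ Sl.a ⟪j⟫ y := by
      by_contra hcon
      exact hjF (Finset.mem_filter.mpr ⟨hj, not_le.mp hcon⟩)
    rw [Sl.drv_norm_w, Sl.drv_norm_f y hy j]
    have e : (Real.exp (Sl.a ⟪j⟫ y))⁻¹ ^ 2 = Real.exp (-(2 * Sl.a ⟪j⟫ y)) := by
      rw [← Real.exp_neg, ← Real.exp_nat_mul]; congr 1; push_cast; ring
    rw [e]
    have h1 : Real.exp (-(2 * Sl.a ⟪j⟫ y)) ≤ Real.exp (2 * t) := Real.exp_le_exp.mpr (by linarith)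
    have h2 := hsdle j
    have h3 := hs j hj
    gcongr
  have hεD : 0 ≤ Sl.Sh.G.c * Real.exp g * Real.exp (2 * t) * sm := by positivity
  have hεD3 : Sl.Sh.G.c * Real.exp g * Real.exp (2 * t) * sm ≤ Real.exp (3 * t) * sm := by
    refine mul_le_mul_of_nonneg_right ?_ hsm
    calc Sl.Sh.G.c * Real.exp g * Real.exp (2 * t) ≤ Real.exp Sl.Sh.G.c * Real.exp g * Real.exp (2 * t) := by
          gcongr; exact drv_le_exp _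
      _ = Real.exp (Sl.Sh.G.c + g + 2 * t) := by rw [Real.exp_add, Real.exp_add]
      _ ≤ Real.exp (3 * t) := Real.exp_le_exp.mpr (by linarith)
  by_cases hi : i ∈ Jᶜ ∪ F
  swap
  · rw [Finset.mem_union, not_or, Finset.mem_compl, not_not] at hi
    exact (hD i hi.1 hi.2).trans hεD3
  -- the flattened sites
  have hV : ∀ j ∈ F, ‖Sl.V ⟪j⟫ y‖ ≤ 2 * Sl.Sh.G.c⁻¹ * Real.exp (3 * (-t) + g) := by
    intro j hj
    refine Sl.clk_V_le ⟪j⟫ y (-t) g ?_ (hsdinv j)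
    rw [Sl.drv_norm_f y hy j]
    exact Real.exp_le_exp.mpr (Finset.mem_filter.mp hj).2.le
  have hdisj : Disjoint Jᶜ F := by
    rw [Finset.disjoint_left]
    intro c hc hcF
    exact (Finset.mem_compl.mp hc) (hFJ hcF)
  have hadm : Sl.Adm Jᶜ F := ⟨(Finset.compl_ne_univ_iff_nonempty J).mpr ⟨j0, hj0⟩, hdisj⟩
  have hz : (Sl.M₀ y - Matrix.diagonal (fun i : Fin Sl.N => Sl.V ⟪i⟫ y)).mulVec (fun i => Sl.w ⟪i⟫ y) = 0 :=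
    Sl.Hmat_w hS y hy
  have hsmall : (Fintype.card (Fin Sl.N) : ℝ) * Real.exp b * (2 * Sl.Sh.G.c⁻¹ * Real.exp (3 * (-t) + g)) ≤ 1 / 2 := by
    rw [Fintype.card_fin]
    have h1 : (4 * Sl.N * Sl.Sh.G.c⁻¹) * (Real.exp b * Real.exp (3 * (-t) + g)) ≤ 1 := by
      calc (4 * Sl.N * Sl.Sh.G.c⁻¹) * (Real.exp b * Real.exp (3 * (-t) + g))
          ≤ Real.exp (4 * Sl.N * Sl.Sh.G.c⁻¹) * (Real.exp b * Real.exp (3 * (-t) + g)) := by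
            gcongr; exact drv_le_exp _
        _ = Real.exp (4 * Sl.N * Sl.Sh.G.c⁻¹ + (b + (3 * (-t) + g))) := by
            rw [Real.exp_add (4 * Sl.N * Sl.Sh.G.c⁻¹), Real.exp_add b]
        _ ≤ 1 := Real.exp_le_one_iff.mpr (by linarith)
    nlinarith
  have hel := elim (Sl.M₀ y) (fun i => Sl.V ⟪i⟫ y) (fun i => Sl.w ⟪i⟫ y) Jᶜ F hdisj hz (hy.2.2 Jᶜ F hadm)
    (Real.exp b) (4 * Real.exp g) (2 * Sl.Sh.G.c⁻¹ * Real.exp (3 * (-t) + g))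
    (Sl.Sh.G.c * Real.exp g * Real.exp (2 * t) * sm) (hinv F hFJ) (Sl.drv_M₀_le hS y hy g hgeo) hV
    (by
      intro j hj
      rw [Finset.mem_union, not_or, Finset.mem_compl, not_not] at hj
      exact hD j hj.1 hj.2) hsmall hεD i hi
  rw [Fintype.card_fin] at hel
  refine hel.trans ?_
  have e : 2 * (Sl.N : ℝ) ^ 2 * Real.exp b * (4 * Real.exp g) * (Sl.Sh.G.c * Real.exp g * Real.exp (2 * t) * sm)
      = (8 * (Sl.N : ℝ) ^ 2 * Sl.Sh.G.c) * (Real.exp b * Real.exp g * Real.exp g * Real.exp (2 * t)) * sm := by ring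
  rw [e]
  refine mul_le_mul_of_nonneg_right ?_ hsm
  calc (8 * (Sl.N : ℝ) ^ 2 * Sl.Sh.G.c) * (Real.exp b * Real.exp g * Real.exp g * Real.exp (2 * t))
      ≤ Real.exp (8 * (Sl.N : ℝ) ^ 2 * Sl.Sh.G.c) * (Real.exp b * Real.exp g * Real.exp g * Real.exp (2 * t)) := by
        gcongr; exact drv_le_exp _
    _ = Real.exp (8 * (Sl.N : ℝ) ^ 2 * Sl.Sh.G.c + (b + g + g + 2 * t)) := by
        rw [Real.exp_add, Real.exp_add, Real.exp_add, Real.exp_add]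
    _ ≤ Real.exp (3 * t) := Real.exp_le_exp.mpr (by linarith)

end Slice

end Claimed.Agent.R269
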