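/-
Row 269, P1 Sections 11.6-11.7: the DEFINITIONS of S11/Last.lean (moved verbatim, so that the proof files `S11/*Pf.lean` can be imported by Last.lean).
Owner of the statements: helper171.
-/
import Claimed.Agent.R269.S10.Power
import Claimed.Agent.R269.S11.RowDefs

set_option autoImplicit false

namespace Claimed.Agent.R269

open Complex Metric Set Filter Topology Chn MeasureTheory
open scoped Real ENNReal

local notation "⟪" i "⟫" => ((Fin.val i : ℕ) : ℤ)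

namespace Slice

open Shape

variable (Sl : Slice)

/-- the site `j` has reached log depth `t` at some time `≤ m` -/
def Hit (W : Walk) (j : Fin Sl.N) (t : ℝ) (m : ℕ) (ω : Om ℝ) : Prop := ∃ m', m' ≤ m ∧ t ≤ Sl.k ⟪j⟫ (W.y m' ω)

/-- `n = τ_L` -/
def Term (W : Walk) (L : ℝ) (n : ℕ) (ω : Om ℝ) : Prop := Sl.Upto W L n ω ∧ ¬ Sl.cutL W L n ω

/-- the size of the menu of Lemma 11.9 -/
def Mn : ℕ := 10 * Sl.N + 1

/-- the menu of exponents `γ_m = (α/16)^{M-m}`, `m < M` -/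
noncomputable def gam (m : ℕ) : ℝ := ((1 : ℝ) / 1600) ^ (Sl.Mn - m)

/-- bad event of the history gap for the level `K`: a terminal history lies in `(K^{α/8}, 3K)` -/
def BadGap (K L : ℝ) (W : Walk) : Set (Om ℝ) :=
  {ω | ∃ n, Sl.Term W L n ω ∧ ∃ j : Fin Sl.N, (∃ m, m ≤ n ∧ u0 K < Sl.k ⟪j⟫ (W.y m ω)) ∧ ∀ m, m ≤ n → Sl.k ⟪j⟫ (W.y m ω) < 3 * K}

/-- bad event of the first hits: some site first reaches `k - ϰ` at a point which is not robust (radius `r_rob/2`) -/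
def BadHit (K k ϰ : ℝ) (W : Walk) : Set (Om ℝ) :=
  {ω | ∃ (n : ℕ) (j : Fin Sl.N), (∀ m, m < n → Sl.k ⟪j⟫ (W.y m ω) < k - ϰ) ∧ k - ϰ ≤ Sl.k ⟪j⟫ (W.y n ω) ∧
    ¬ Sl.Sh.Rob (h1 K) (rrob K k / 2) (Sl.s ⟪j⟫ (W.y n ω))}

/-- bad event of the remaining clocks (11.30) -/
def BadClock (K k ϰ : ℝ) (W : Walk) : Set (Om ℝ) :=
  {ω | ∃ (j : Fin Sl.N) (m n : ℕ), m ≤ n ∧ k - ϰ ≤ Sl.k ⟪j⟫ (W.y m ω) ∧
    Real.exp (-(2 * k) + Real.sqrt (h2 K)) < ∑ l ∈ Finset.Ico m n, Sl.qs W j l ω}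

/-- bad event of the inverse estimates of Lemma 11.10 -/
def BadInv2 (C K : ℝ) (W : Walk) : Set (Om ℝ) :=
  {ω | ∃ I F : Finset (Fin Sl.N), Sl.Adm I F ∧ ∃ n,
    (∀ m, m ≤ n → Sl.geo (W.y m ω) ≤ 2 * u0 K ∧ ∀ i ∈ I, Sl.k ⟪i⟫ (W.y m ω) ≤ 2 * u0 K) ∧
    ∃ i k, Real.exp (C * u0 K ^ ((3 : ℝ) / 2)) < ‖(Sl.Bmat I F (W.y n ω))⁻¹ i k‖}

open Classical in
/-- displacement of the site `i` after the last first hit `T_J` of the sites of `J` -/
noncomputable def Disp (W : Walk) (J : Finset (Fin Sl.N)) (t : ℝ) (i : Fin Sl.N) (n : ℕ) (ω : Om ℝ) : ℂ :=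
  ∑ m ∈ Finset.range n, if (∀ j ∈ J, Sl.Hit W j t m ω) then Sl.s ⟪i⟫ (W.y (m + 1) ω) - Sl.s ⟪i⟫ (W.y m ω) else 0

open Classical in
/-- its clock -/
noncomputable def DispQ (W : Walk) (J : Finset (Fin Sl.N)) (t : ℝ) (i : Fin Sl.N) (n : ℕ) (ω : Om ℝ) : ℝ :=
  ∑ m ∈ Finset.range n, if (∀ j ∈ J, Sl.Hit W j t m ω) then Sl.qs W i m ω else 0

/-- bad event of the disc escape (11.35): clock `≤ q_K = d² e^{C h₂ - 2h₁}` but displacement `≥ r_rob/2` -/
def BadEsc (C K k ϰ : ℝ) (W : Walk) : Set (Om ℝ) :=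
  {ω | ∃ (J : Finset (Fin Sl.N)) (i : Fin Sl.N) (n : ℕ),
    Sl.DispQ W J (k - ϰ) i n ω ≤ Real.exp (-(2 * k) + C * h2 K - 2 * h1 K) ∧ rrob K k / 2 ≤ ‖Sl.Disp W J (k - ϰ) i n ω‖}

/-- forces the equation lemmas of the definitions above to be generated in this file. -/
theorem lastDefs_eqns_cited : True := by
  have := @Hit.eq_1; have := @Hit.eq_def; have := @Hit.congr_simp
  have := @Term.eq_1; have := @Term.eq_def; have := @Term.congr_simp
  have := @Mn.eq_1; have := @Mn.eq_def; have := @Mn.congr_simp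
  have := @gam.eq_1; have := @gam.eq_def; have := @gam.congr_simp
  have := @BadGap.eq_1; have := @BadGap.eq_def; have := @BadGap.congr_simp
  have := @BadHit.eq_1; have := @BadHit.eq_def; have := @BadHit.congr_simp
  have := @BadClock.eq_1; have := @BadClock.eq_def; have := @BadClock.congr_simp
  have := @BadInv2.eq_1; have := @BadInv2.eq_def; have := @BadInv2.congr_simp
  have := @Disp.eq_1; have := @Disp.eq_def; have := @Disp.congr_simp
  have := @DispQ.eq_1; have := @DispQ.eq_def; have := @DispQ.congr_simp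
  have := @BadEsc.eq_1; have := @BadEsc.eq_def; have := @BadEsc.congr_simp
  trivial

end Slice

end Claimed.Agent.R269
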