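/-
Row 269, P1 Section 11.6, package LF-S11c-2 (helper196): proof of `Slice.history_gap` (Lemma 11.9; statement verbatim, name `history_gap_pf`).
The bad events are measurable and every path lies in at most `N` of the `M = 10 N + 1` events.
-/
import Claimed.Agent.R269.S11.LastDefs

set_option autoImplicit false

namespace Claimed.Agent.R269

open Complex Metric Set Filter Topology Chn MeasureTheory
open scoped Real ENNReal

local notation "⟪" i "⟫" => ((Fin.val i : ℕ) : ℤ)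

/-- finitely many measurable events of multiplicity `≤ N`: the probabilities add up to at most `N` -/
theorem gap_sum_le {Ω : Type} [MeasurableSpace Ω] (μ : Measure Ω) [IsProbabilityMeasure μ] (M N : ℕ) (A : ℕ → Set Ω)
    (hA : ∀ m, MeasurableSet (A m))
    (hN : ∀ ω, ∀ s : Finset ℕ, s ⊆ Finset.range M → (∀ m ∈ s, ω ∈ A m) → s.card ≤ N) :
    ∑ m ∈ Finset.range M, μ.real (A m) ≤ N := by
  classical
  have h1 : ∀ m, μ.real (A m) = ∫ ω, (A m).indicator (fun _ => (1 : ℝ)) ω ∂μ := by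
    intro m
    rw [integral_indicator (hA m), setIntegral_const, smul_eq_mul, mul_one]
  have hint : ∀ m, Integrable ((A m).indicator (fun _ => (1 : ℝ))) μ := fun m =>
    (integrable_const (1 : ℝ)).indicator (hA m)
  calc ∑ m ∈ Finset.range M, μ.real (A m) = ∑ m ∈ Finset.range M, ∫ ω, (A m).indicator (fun _ => (1 : ℝ)) ω ∂μ :=
        Finset.sum_congr rfl fun m _ => h1 m
    _ = ∫ ω, ∑ m ∈ Finset.range M, (A m).indicator (fun _ => (1 : ℝ)) ω ∂μ :=
        (integral_finsetSum _ fun m _ => hint m).symm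
    _ ≤ ∫ _ω, (N : ℝ) ∂μ := by
        refine integral_mono (integrable_finsetSum _ fun m _ => hint m) (integrable_const _) fun ω => ?_
        have e : ∑ m ∈ Finset.range M, (A m).indicator (fun _ => (1 : ℝ)) ω
            = (((Finset.range M).filter fun m => ω ∈ A m).card : ℝ) := by
          rw [Finset.card_filter]
          push_cast
          refine Finset.sum_congr rfl fun m _ => ?_
          by_cases h : ω ∈ A m <;> simp [h]
        show ∑ m ∈ Finset.range M, (A m).indicator (fun _ => (1 : ℝ)) ω ≤ (N : ℝ)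
        rw [e]
        exact_mod_cast hN ω _ (Finset.filter_subset _ _) fun m hm => (Finset.mem_filter.1 hm).2
    _ = N := by simp

namespace Slice

open Shape

variable (Sl : Slice)

theorem gap_gam_pos (m : ℕ) : 0 < Sl.gam m := by unfold gam; positivity

/-- consecutive exponents of the menu -/
theorem gap_gam_lt {m m' : ℕ} (h : m < m') (hm' : m' < Sl.Mn) : 1600 * Sl.gam m ≤ Sl.gam m' := by
  unfold gam
  have e : Sl.Mn - m = (Sl.Mn - m' - 1) + 1 + (m' - m) := by omega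
  have e' : Sl.Mn - m' = (Sl.Mn - m' - 1) + 1 := by omega
  obtain ⟨d, hd⟩ : ∃ d, m' - m = d + 1 := ⟨m' - m - 1, by omega⟩
  rw [e, hd, pow_add, pow_succ ((1 : ℝ) / 1600) d, ← e']
  have h1 : ((1 : ℝ) / 1600) ^ d ≤ 1 := pow_le_one₀ (by norm_num) (by norm_num)
  have h2 : (0 : ℝ) < ((1 : ℝ) / 1600) ^ (Sl.Mn - m') := by positivity
  have h3 : (0 : ℝ) < ((1 : ℝ) / 1600) ^ d := by positivity
  nlinarith

theorem gap_gam_ge (m : ℕ) : Sl.gam 0 ≤ Sl.gam m := by
  unfold gam
  exact pow_le_pow_of_le_one (by norm_num) (by norm_num) (by omega)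

/-- the intervals `(u₀(K_m), 3 K_m)` are ordered -/
theorem gap_sep (L : ℝ) (hL1 : 1 ≤ L) (hL3 : 3 ≤ L ^ Sl.gam 0) {m m' : ℕ} (h : m < m') (hm' : m' < Sl.Mn) :
    3 * L ^ Sl.gam m ≤ u0 (L ^ Sl.gam m') := by
  have hL0 : 0 < L := by linarith
  have h1 : 3 ≤ L ^ Sl.gam m := hL3.trans (Real.rpow_le_rpow_of_exponent_le hL1 (Sl.gap_gam_ge m))
  have h2 : L ^ (2 * Sl.gam m) = L ^ Sl.gam m * L ^ Sl.gam m := by
    rw [← Real.rpow_add hL0]; ring_nf
  have h3 : L ^ (2 * Sl.gam m) ≤ u0 (L ^ Sl.gam m') := by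
    unfold u0
    rw [← Real.rpow_mul hL0.le]
    refine Real.rpow_le_rpow_of_exponent_le hL1 ?_
    have := Sl.gap_gam_lt h hm'
    linarith
  have h4 : 0 < L ^ Sl.gam m := by linarith
  nlinarith

/-- `τ_L` is unique -/
theorem gap_term_unique (W : Walk) (L : ℝ) (ω : Om ℝ) {n n' : ℕ} (h : Sl.Term W L n ω) (h' : Sl.Term W L n' ω) : n = n' := by
  rcases lt_trichotomy n n' with h1 | h1 | h1
  · exact absurd (h'.1 n h1) h.2
  · exact h1
  · exact absurd (h.1 n' h1) h'.2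

variable (hS : Sl.Hyp)
include hS

theorem gap_meas (K L : ℝ) (W : Walk) (hW : W.U = Sl.reg) : MeasurableSet (Sl.BadGap K L W) := by
  have hP : ∀ i : Fin Sl.N, Proc fun n ω => Sl.k ⟪i⟫ (W.y n ω) := fun i =>
    W.proc_comp (Sl.k ⟪i⟫) (by rw [hW]; exact Sl.wlk_k_cont hS i)
  have hcut := Sl.cut_cutL W hW hS L
  have e : Sl.BadGap K L W = ⋃ n, ({ω | Alive (Sl.cutL W L) n ω} ∩ {ω | Sl.cutL W L n ω}ᶜ) ∩
      ⋃ j : Fin Sl.N, (⋃ m, ⋃ (_ : m ≤ n), {ω | u0 K < Sl.k ⟪j⟫ (W.y m ω)}) ∩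
        ⋂ m, ⋂ (_ : m ≤ n), {ω | Sl.k ⟪j⟫ (W.y m ω) < 3 * K} := by
    ext ω
    simp [BadGap, Term, Upto]
  rw [e]
  refine MeasurableSet.iUnion fun n => ((chn_alive_meas _ hcut n).inter (hcut.meas n).compl).inter
    (MeasurableSet.iUnion fun j => MeasurableSet.inter ?_ ?_)
  · exact MeasurableSet.iUnion fun m => MeasurableSet.iUnion fun _ => measurableSet_lt measurable_const ((hP j).meas m)
  · exact MeasurableSet.iInter fun m => MeasurableSet.iInter fun _ => measurableSet_lt ((hP j).meas m) measurable_const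

theorem history_gap_pf : ∃ L0 : ℝ, ∀ L, L0 ≤ L → ∀ (W : Walk) (κ : ℝ), Sl.Fine W κ →
    ∃ m, m < Sl.Mn ∧ Pw (Sl.BadGap (L ^ Sl.gam m) L W) ≤ 1 / 10 := by
  classical
  obtain ⟨L0, hL0⟩ := eventually_atTop.1 (((tendsto_rpow_atTop (Sl.gap_gam_pos 0)).eventually_ge_atTop (3 : ℝ)).and
    (eventually_ge_atTop (1 : ℝ)))
  refine ⟨L0, fun L hL W κ hW => ?_⟩
  obtain ⟨hL3, hL1⟩ := hL0 L hL
  by_contra hcon
  push Not at hcon
  have hsum := gap_sum_le (Pr unif) Sl.Mn Sl.N (fun m => Sl.BadGap (L ^ Sl.gam m) L W)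
    (fun m => Sl.gap_meas hS _ L W hW.dom) (fun ω s hs hmem => ?_)
  · have h1 : ∑ m ∈ Finset.range Sl.Mn, (1 / 10 : ℝ) ≤ ∑ m ∈ Finset.range Sl.Mn, (Pr unif).real (Sl.BadGap (L ^ Sl.gam m) L W) :=
      Finset.sum_le_sum fun m hm => (hcon m (Finset.mem_range.1 hm)).le
    rw [Finset.sum_const, Finset.card_range, nsmul_eq_mul] at h1
    have h2 : (Sl.Mn : ℝ) = 10 * Sl.N + 1 := by unfold Mn; push_cast; ring
    rw [h2] at h1
    linarith
  · -- a witness site for each member of `s`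
    have hw : ∀ m ∈ s, ∃ j : Fin Sl.N, ∃ n, Sl.Term W L n ω ∧ (∃ i, i ≤ n ∧ u0 (L ^ Sl.gam m) < Sl.k ⟪j⟫ (W.y i ω)) ∧
        ∀ i, i ≤ n → Sl.k ⟪j⟫ (W.y i ω) < 3 * L ^ Sl.gam m := by
      intro m hm
      obtain ⟨n, hn, j, h1, h2⟩ := hmem m hm
      exact ⟨j, n, hn, h1, h2⟩
    choose! f hf using hw
    have hinj : Set.InjOn f s := by
      have key : ∀ m ∈ s, ∀ m' ∈ s, m < m' → f m ≠ f m' := by
        intro m hm m' hm' hlt heq
        obtain ⟨n, hn, -, h2⟩ := hf m hm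
        obtain ⟨n', hn', ⟨i, hi, h3⟩, -⟩ := hf m' hm'
        have hnn := Sl.gap_term_unique W L ω hn hn'
        subst hnn
        have h4 := h2 i hi
        rw [heq] at h4
        have h5 := Sl.gap_sep L hL1 hL3 hlt (Finset.mem_range.1 (hs hm'))
        linarith
      intro m hm m' hm' heq
      rcases lt_trichotomy m m' with h | h | h
      · exact absurd heq (key m hm m' hm' h)
      · exact h
      · exact absurd heq.symm (key m' hm' m hm h)
    calc s.card = (s.image f).card := (Finset.card_image_of_injOn hinj).symm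
      _ ≤ (Finset.univ : Finset (Fin Sl.N)).card := Finset.card_le_card (Finset.subset_univ _)
      _ = Sl.N := by rw [Finset.card_univ, Fintype.card_fin]

end Slice

end Claimed.Agent.R269
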