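/-
Row 269, P1 Section 11.6, package LF-S11c-1 (helper196): proof of `Slice.first_hit` (Proposition 11.8, second half; statement verbatim, name `first_hit_pf`).
Plan of helper171 (header of `first_hit` in S11/Last.lean): Dirichlet problem on the cylinder `|Im z| ≤ H - e^{-k}` with bump data supported in the
non-robust sets of the two rows; `V (s_j (y_n))` is a nonnegative martingale before the first hit; `ville_mean`, `integral_start`, `start_density`.
-/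
import Claimed.Agent.R269.S11.LastDefs

set_option autoImplicit false

namespace Claimed.Agent.R269

open Complex Metric Set Filter Topology Chn MeasureTheory
open scoped Real ENNReal

local notation "⟪" i "⟫" => ((Fin.val i : ℕ) : ℤ)

/-- a continuous periodic bump: `1` where the whole `r`-interval is bad, supported in the bad set -/
theorem hit_bump (Bad : Set ℝ) (hper : ∀ x, x + 2 * π ∈ Bad ↔ x ∈ Bad) (r : ℝ) (hr : 0 < r) :
    ∃ χ : ℝ → ℝ, Continuous χ ∧ Function.Periodic χ (2 * π) ∧ (∀ x, 0 ≤ χ x ∧ χ x ≤ 1) ∧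
      (∀ x, (∀ x', |x' - x| ≤ r → x' ∈ Bad) → χ x = 1) ∧ ∀ x, 0 < χ x → x ∈ Bad := by
  set B' : Set ℝ := {x | ∀ x', |x' - x| ≤ r → x' ∈ Bad} with hB'
  have hB'per : (fun x : ℝ => x + 2 * π) '' B' = B' := by
    ext x
    constructor
    · rintro ⟨y, hy, rfl⟩
      intro x' hx'
      have := hy (x' - 2 * π) (by rw [show x' - 2 * π - y = x' - (y + 2 * π) by ring]; exact hx')
      rw [← hper] at this
      simpa using this
    · intro hx
      refine ⟨x - 2 * π, ?_, by ring⟩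
      intro x' hx'
      rw [← hper]
      exact hx _ (by rw [show x' + 2 * π - x = x' - (x - 2 * π) by ring]; exact hx')
  refine ⟨fun x => ((thickenedIndicator hr B' x : NNReal) : ℝ), ?_, ?_, ?_, ?_, ?_⟩
  · exact NNReal.continuous_coe.comp (thickenedIndicator hr B').continuous
  · intro x
    have h1 : infEDist (x + 2 * π) B' = infEDist x B' := by
      conv_lhs => rw [← hB'per]
      exact infEDist_image (isometry_add_right (2 * π))
    show ((thickenedIndicator hr B' (x + 2 * π) : NNReal) : ℝ) = ((thickenedIndicator hr B' x : NNReal) : ℝ)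
    rw [thickenedIndicator_apply, thickenedIndicator_apply]
    unfold thickenedIndicatorAux
    rw [h1]
  · intro x
    exact ⟨NNReal.coe_nonneg _, by exact_mod_cast thickenedIndicator_le_one hr B' x⟩
  · intro x hx
    show ((thickenedIndicator hr B' x : NNReal) : ℝ) = 1
    rw [thickenedIndicator_one hr B' hx]
    rfl
  · intro x hx
    by_contra hcon
    have h1 : x ∉ thickening r B' := by
      intro h2
      obtain ⟨z, hz, hd⟩ := mem_thickening_iff.1 h2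
      exact hcon (hz x (by rw [← Real.dist_eq]; exact hd.le))
    have h3 := thickenedIndicator_zero hr B' h1
    have h4 : ((thickenedIndicator hr B' x : NNReal) : ℝ) = 0 := by rw [h3]; rfl
    have h5 : (0 : ℝ) < ((thickenedIndicator hr B' x : NNReal) : ℝ) := hx
    linarith

/-- the integral of such a bump is at most the measure of the bad set -/
theorem hit_bump_int (Bad : Set ℝ) (χ : ℝ → ℝ) (hc : Continuous χ) (h01 : ∀ x, 0 ≤ χ x ∧ χ x ≤ 1)
    (hs : ∀ x, 0 < χ x → x ∈ Bad) :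
    ∫ x in (0 : ℝ)..(2 * π), χ x ≤ (volume {x | x ∈ Icc (0 : ℝ) (2 * π) ∧ x ∈ Bad}).toReal := by
  have h2π : (0 : ℝ) ≤ 2 * π := by positivity
  set S : Set ℝ := {x | 0 < χ x} with hS
  have hSm : MeasurableSet S := (isOpen_lt continuous_const hc).measurableSet
  rw [intervalIntegral.integral_of_le h2π]
  have h1 : ∫ x in Ioc (0 : ℝ) (2 * π), χ x ≤ ∫ x in Ioc (0 : ℝ) (2 * π), S.indicator (fun _ => (1 : ℝ)) x := by
    refine setIntegral_mono_on hc.integrableOn_Ioc ?_ measurableSet_Ioc fun x _ => ?_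
    · exact ((integrable_const (1 : ℝ)).indicator hSm)
    · by_cases hx : x ∈ S
      · rw [indicator_of_mem hx]; exact (h01 x).2
      · rw [indicator_of_notMem hx]; exact not_lt.1 hx
  refine h1.trans ?_
  rw [integral_indicator hSm, setIntegral_const, smul_eq_mul, mul_one, Measure.real, Measure.restrict_apply hSm]
  refine ENNReal.toReal_mono ?_ (measure_mono ?_)
  · exact ne_top_of_le_ne_top (measure_Icc_lt_top (a := (0 : ℝ)) (b := 2 * π)).ne (measure_mono fun x hx => hx.1)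
  · rintro x ⟨hx1, hx2⟩
    exact ⟨Ioc_subset_Icc_self hx2, hs x hx1⟩

theorem hit_exp_sub_one_le {x : ℝ} (h0 : 0 ≤ x) (h1 : x ≤ 1 / 2) : Real.exp x - 1 ≤ 2 * x := by
  have h2 := Real.exp_bound_div_one_sub_of_interval h0 (by linarith)
  have h3 : 1 / (1 - x) ≤ 1 + 2 * x := by
    rw [div_le_iff₀ (by linarith)]
    nlinarith
  linarith

/-- a non-robust point near a row makes a whole interval of the row non-robust -/
theorem hit_not_rob (Sh : Shape) (t r c : ℝ) (z : ℂ) (hz : |z.im - c| ≤ r / 4) (h : ¬ Sh.Rob t (r / 2) z) (x' : ℝ)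
    (hx' : |x' - z.re| ≤ r / 4) : ¬ Sh.Rob t r (⟨x', c⟩ : ℂ) := by
  unfold Shape.Rob at h
  push Not at h
  obtain ⟨ζ, hζ, hlt⟩ := h
  intro hR
  refine absurd (hR ζ ?_) (not_le.2 hlt)
  rw [mem_closedBall] at hζ ⊢
  have h1 : dist z (⟨x', c⟩ : ℂ) ≤ r / 4 + r / 4 := by
    rw [dist_eq_norm]
    refine (Complex.norm_le_abs_re_add_abs_im _).trans (add_le_add ?_ ?_)
    · rw [Complex.sub_re, abs_sub_comm]; exact hx'
    · rw [Complex.sub_im]; exact hz
  have h2 := dist_triangle ζ z (⟨x', c⟩ : ℂ)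
  linarith

namespace Slice

open Shape

variable (Sl : Slice)

/-- robustness is periodic along a row -/
theorem hit_rob_per (t r y : ℝ) (hy : |y| + r < Sl.H) (x : ℝ) :
    Sl.Sh.Rob t r (⟨x + 2 * π, y⟩ : ℂ) ↔ Sl.Sh.Rob t r (⟨x, y⟩ : ℂ) := by
  have hsh : (⟨x + 2 * π, y⟩ : ℂ) = (⟨x, y⟩ : ℂ) + 2 * π := by
    apply Complex.ext <;> simp
  have hD : ∀ ζ ∈ closedBall (⟨x, y⟩ : ℂ) r, ζ ∈ Sl.Sh.D := by
    intro ζ hζ
    refine Sl.clk_mem_estrip ζ ?_
    rw [mem_closedBall, dist_eq_norm] at hζ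
    have h1 := (Complex.abs_im_le_norm (ζ - ⟨x, y⟩)).trans hζ
    rw [Complex.sub_im] at h1
    have h2 : |ζ.im| ≤ |ζ.im - y| + |y| := by
      have := abs_add_le (ζ.im - y) y
      simpa using this
    linarith
  constructor
  · intro h ζ hζ
    have h1 := h (ζ + 2 * π) (by rw [hsh, mem_closedBall, dist_add_right]; exact hζ)
    rwa [Sl.Sh.sb_f_per ζ (hD ζ hζ)] at h1
  · intro h ζ hζ
    have hζ' : ζ - 2 * π ∈ closedBall (⟨x, y⟩ : ℂ) r := by
      rw [hsh, mem_closedBall] at hζ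
      rw [mem_closedBall]
      have : dist (ζ - 2 * π) (⟨x, y⟩ : ℂ) = dist ζ ((⟨x, y⟩ : ℂ) + 2 * π) := by
        rw [dist_eq_norm, dist_eq_norm]; congr 1; ring
      rw [this]; exact hζ
    have h1 := h _ hζ'
    rw [← Sl.Sh.sb_f_per _ (hD _ hζ'), sub_add_cancel] at h1
    exact h1

variable (hS : Sl.Hyp)
include hS

theorem hit_main : ∃ C : ℝ, 0 < C ∧ ∀ K k : ℝ, 0 < K → -Real.log Sl.H + 1 / 2 < k →
    ∃ ϰ : ℝ, 0 < ϰ ∧ ϰ ≤ 1 / 2 ∧ ∀ W : Walk, Sl.Fine W ϰ →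
      Pw (Sl.BadHit K k ϰ W) ≤
        C * ((volume (Sl.Sh.badRow K k 1)).toReal + (volume (Sl.Sh.badRow K k (-1))).toReal) := by
  obtain ⟨Cs, hCs, hstart⟩ := Sl.start_density hS
  have hH := Sl.H_pos hS
  have hN : (0 : ℝ) < Sl.N := by
    have := Sl.N_ge
    exact_mod_cast (by omega : 0 < Sl.N)
  refine ⟨Sl.N * Cs, by positivity, fun K k hK hk => ?_⟩
  set d : ℝ := Real.exp (-k) with hd
  have hd0 : 0 < d := Real.exp_pos _
  set b : ℝ := Sl.H - d with hb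
  have hb0 : 0 < b := by
    have h1 : Real.exp (-k) < Real.exp (Real.log Sl.H) := Real.exp_lt_exp.mpr (by linarith)
    rw [Real.exp_log hH] at h1
    linarith
  set r : ℝ := rrob K k with hr
  have hr0 : 0 < r := Real.exp_pos _
  have hh1 : 0 < h1 K := by
    unfold h1
    have := Real.rpow_pos_of_pos hK ((1 : ℝ) / 200)
    positivity
  have hrd : r < d := Real.exp_lt_exp.2 (by linarith)
  set Bad : ℝ → Set ℝ := fun σ => {x | ¬ Sl.Sh.Rob (h1 K) r (⟨x, σ * b⟩ : ℂ)} with hBad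
  have hBper : ∀ σ : ℝ, (σ = 1 ∨ σ = -1) → ∀ x, x + 2 * π ∈ Bad σ ↔ x ∈ Bad σ := by
    intro σ hσ x
    have h1 : |σ * b| + r < Sl.H := by
      have : |σ * b| = b := by rcases hσ with rfl | rfl <;> simp [abs_of_pos hb0]
      rw [this]; linarith
    exact not_congr (Sl.hit_rob_per _ _ _ h1 x)
  obtain ⟨χp, hpc, hpp, hp01, hp1, hps⟩ := hit_bump (Bad 1) (hBper 1 (Or.inl rfl)) (r / 4) (by positivity)
  obtain ⟨χm, hmc, hmp, hm01, hm1, hms⟩ := hit_bump (Bad (-1)) (hBper (-1) (Or.inr rfl)) (r / 4) (by positivity)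
  obtain ⟨V, hVc, hV, hVper, hVt, hVb, hVint⟩ := dirichlet b hb0 χp χm hpc hmc hpp hmp
  have hV0 : ∀ z ∈ cstrip b, 0 ≤ V z := dirichlet_nonneg b hb0 V hV hVper
    (fun x => by rw [hVt]; exact (hp01 x).1) (fun x => by rw [hVb]; exact (hm01 x).1)
  obtain ⟨η, hη, hunif⟩ := cyl_unifCont b V hV.cont hVper (1 / 2) (by norm_num)
  set ϰ : ℝ := min (1 / 2) (min (η / (4 * d)) (r / (8 * d))) with hϰ
  have hϰ0 : 0 < ϰ := lt_min (by norm_num) (lt_min (by positivity) (by positivity))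
  have hϰ1 : ϰ ≤ 1 / 2 := min_le_left _ _
  have hϰη : 2 * ϰ * d < η := by
    have h1 : ϰ ≤ η / (4 * d) := (min_le_right _ _).trans (min_le_left _ _)
    rw [le_div_iff₀ (by positivity)] at h1
    linarith
  have hϰr : 2 * ϰ * d ≤ r / 4 := by
    have h1 : ϰ ≤ r / (8 * d) := (min_le_right _ _).trans (min_le_right _ _)
    rw [le_div_iff₀ (by positivity)] at h1
    linarith
  refine ⟨ϰ, hϰ0, hϰ1, fun W hW => ?_⟩
  set vp : ℝ := (volume (Sl.Sh.badRow K k 1)).toReal with hvp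
  set vm : ℝ := (volume (Sl.Sh.badRow K k (-1))).toReal with hvm
  have hip : ∫ x in (0 : ℝ)..(2 * π), χp x ≤ vp := hit_bump_int (Bad 1) χp hpc hp01 hps
  have him : ∫ x in (0 : ℝ)..(2 * π), χm x ≤ vm := hit_bump_int (Bad (-1)) χm hmc hm01 hms
  have hreal : ∀ x : ℝ, (x : ℂ) ∈ cstrip b := fun x => by
    show |(x : ℂ).im| ≤ b
    simp [hb0.le]
  have hreg : ∀ n ω, W.y n ω ∈ Sl.reg := fun n ω => hW.dom ▸ W.y_mem n ω
  have hone : ∀ j : Fin Sl.N, (Pr unif).real {ω | ∃ n : ℕ, (∀ m, m < n → Sl.k ⟪j⟫ (W.y m ω) < k - ϰ) ∧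
      k - ϰ ≤ Sl.k ⟪j⟫ (W.y n ω) ∧ ¬ Sl.Sh.Rob (h1 K) (r / 2) (Sl.s ⟪j⟫ (W.y n ω))} ≤ Cs * (vp + vm) := by
    intro j
    have hd' : DifferentiableOn ℂ (Sl.s ⟪j⟫) W.U := Sl.clk_s_diff hS hW j
    have hX : Proc fun n ω => V (Sl.s ⟪j⟫ (W.y n ω)) :=
      W.proc_comp (fun z => V (Sl.s ⟪j⟫ z)) (hVc.comp_continuousOn hd'.continuousOn)
    have hkP : Proc fun n ω => Sl.k ⟪j⟫ (W.y n ω) :=
      W.proc_comp (Sl.k ⟪j⟫) (by rw [hW.dom]; exact Sl.wlk_k_cont hS j)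
    set A : ℕ → Om ℝ → Prop := fun m ω => Sl.k ⟪j⟫ (W.y m ω) < k - ϰ with hA
    have hcut : Cut A := ⟨fun n => measurableSet_lt (hkP.meas n) measurable_const, fun n ω ω' h => by
      simp only [hA]; rw [W.y_reads n ω ω' h]⟩
    have hdisc : ∀ n ω, A n ω → ∀ z ∈ closedBall (W.y n ω) (W.rad n ω), z ∈ Sl.reg ∧ Sl.k ⟪j⟫ z < k := by
      intro n ω h z hz
      have hzr : z ∈ Sl.reg := hW.dom ▸ W.woc_closedBall_subset (W.y_mem n ω) hz
      have h2 := (abs_le.mp (hW.k _ (hreg n ω) z hz j)).2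
      have h3 : Sl.k ⟪j⟫ (W.y n ω) < k - ϰ := h
      exact ⟨hzr, by linarith⟩
    have hmem : ∀ n ω, Alive A n ω → Sl.s ⟪j⟫ (W.y n ω) ∈ cstrip b := by
      intro n ω h
      cases n with
      | zero =>
        obtain ⟨x, -, hx⟩ := W.y_zero_mem ω
        rw [hx]
        show |(Sl.s ⟪j⟫ (x : ℂ)).im| ≤ b
        rw [(hS.nice.real x ⟪j⟫).1]
        simp [hb0.le]
      | succ m =>
        have h2 := hdisc m ω (h m (Nat.lt_succ_self m)) _ (sphere_subset_closedBall (W.y_succ_mem m ω))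
        exact (Sl.clk_im_of_k hS _ _ h2.1.1 _ h2.2).le
    have g1 := ville_mean unif A hcut (fun n ω => V (Sl.s ⟪j⟫ (W.y n ω))) hX
      (fun n ω h => by
        rw [W.stp_comp (fun z => V (Sl.s ⟪j⟫ z)) n ω]
        refine (hV.mean (Sl.s ⟪j⟫) (W.y n ω) (W.rad n ω) (W.nonneg _) ?_ ?_).le
        · refine ((Sl.s_diff hS ⟪j⟫).analyticOnNhd Sl.wlk_isOpen_strip).mono fun z hz => ?_
          exact (hdisc n ω (h n (Nat.lt_succ_self n)) z hz).1.1
        · intro z hz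
          have h2 := hdisc n ω (h n (Nat.lt_succ_self n)) z hz
          exact (Sl.clk_im_of_k hS _ _ h2.1.1 _ h2.2).le)
      (fun n ω h => hV0 _ (hmem n ω h)) (1 / 2) (by norm_num)
    have hsub : {ω | ∃ n : ℕ, (∀ m, m < n → Sl.k ⟪j⟫ (W.y m ω) < k - ϰ) ∧
        k - ϰ ≤ Sl.k ⟪j⟫ (W.y n ω) ∧ ¬ Sl.Sh.Rob (h1 K) (r / 2) (Sl.s ⟪j⟫ (W.y n ω))} ⊆
        {ω | ∃ n, Alive A n ω ∧ 1 / 2 ≤ V (Sl.s ⟪j⟫ (W.y n ω))} := by
      rintro ω ⟨n, hn1, hn2, hn3⟩
      have hal : Alive A n ω := hn1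
      refine ⟨n, hal, ?_⟩
      set z : ℂ := Sl.s ⟪j⟫ (W.y n ω) with hz
      have hzb : z ∈ cstrip b := hmem n ω hal
      have hzb' : |z.im| ≤ b := hzb
      have hδ := Sl.δ_pos hS ⟪j⟫ _ (hreg n ω).1
      have hlow : b - 2 * ϰ * d ≤ |z.im| := by
        have h4 : Real.log (Sl.δ ⟪j⟫ (W.y n ω)) ≤ ϰ - k := by
          unfold Slice.k at hn2
          linarith
        have h5 := (Real.log_le_iff_le_exp hδ).1 h4
        have h6 : Real.exp (ϰ - k) = Real.exp ϰ * d := by rw [hd, ← Real.exp_add]; ring_nf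
        have h7 := hit_exp_sub_one_le hϰ0.le hϰ1
        have h8 : (Real.exp ϰ - 1) * d ≤ 2 * ϰ * d := mul_le_mul_of_nonneg_right h7 hd0.le
        unfold Slice.δ at h5
        rw [h6] at h5
        have h9 : Sl.H - |z.im| ≤ Real.exp ϰ * d := h5
        linarith
      by_cases hpos : 0 ≤ z.im
      · rw [abs_of_nonneg hpos] at hlow hzb'
        have hc : |z.im - 1 * b| ≤ r / 4 := by
          rw [one_mul, abs_le]; constructor <;> linarith
        have h10 : χp z.re = 1 := hp1 z.re fun x' hx' => hit_not_rob Sl.Sh (h1 K) r (1 * b) z hc hn3 x' hx'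
        have h11 : dist z (⟨z.re, b⟩ : ℂ) < η := by
          rw [Complex.dist_of_re_eq (show z.re = (⟨z.re, b⟩ : ℂ).re from rfl), Real.dist_eq]
          show |z.im - b| < η
          rw [abs_lt]; constructor <;> linarith
        have h12 := hunif z hzb _ (cyl_mem_mk (abs_of_nonneg hb0.le).le z.re) h11
        rw [hVt, h10] at h12
        have := (abs_lt.1 h12).1
        linarith
      · have hneg : z.im < 0 := not_le.1 hpos
        rw [abs_of_neg hneg] at hlow hzb'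
        have hc : |z.im - -1 * b| ≤ r / 4 := by
          rw [abs_le]; constructor <;> linarith
        have h10 : χm z.re = 1 := hm1 z.re fun x' hx' => hit_not_rob Sl.Sh (h1 K) r (-1 * b) z hc hn3 x' hx'
        have h11 : dist z (⟨z.re, -b⟩ : ℂ) < η := by
          rw [Complex.dist_of_re_eq (show z.re = (⟨z.re, -b⟩ : ℂ).re from rfl), Real.dist_eq]
          show |z.im - -b| < η
          rw [abs_lt]; constructor <;> linarith
        have h12 := hunif z hzb _ (cyl_mem_mk (by rw [abs_neg, abs_of_nonneg hb0.le]) z.re) h11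
        rw [hVb, h10] at h12
        have := (abs_lt.1 h12).1
        linarith
    refine (measureReal_mono hsub (measure_ne_top _ _)).trans (g1.trans ?_)
    rw [W.integral_start (fun z => V (Sl.s ⟪j⟫ z)) (hVc.comp_continuousOn hd'.continuousOn)]
    have g2 := hstart j V hVc (fun x => hV0 _ (hreal x)) (fun x => hVper _ (hreal x))
    rw [hVint] at g2
    have g3 : (2 * π)⁻¹ ≤ 1 := by
      have := Real.pi_gt_three
      exact inv_le_one_of_one_le₀ (by linarith)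
    have g4 : 0 ≤ ∫ x in (0 : ℝ)..(2 * π), V (Sl.s ⟪j⟫ x) := by
      refine intervalIntegral.integral_nonneg (by positivity) fun x _ => hV0 _ ?_
      show |(Sl.s ⟪j⟫ (x : ℂ)).im| ≤ b
      rw [(hS.nice.real x ⟪j⟫).1]
      simp [hb0.le]
    have g5 : (2 * π)⁻¹ * ∫ x in (0 : ℝ)..(2 * π), V (Sl.s ⟪j⟫ x) ≤ 1 * ∫ x in (0 : ℝ)..(2 * π), V (Sl.s ⟪j⟫ x) :=
      mul_le_mul_of_nonneg_right g3 g4
    have g6 : Cs * (((∫ x in (0 : ℝ)..(2 * π), χp x) + ∫ x in (0 : ℝ)..(2 * π), χm x) / 2) ≤ Cs * ((vp + vm) / 2) :=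
      mul_le_mul_of_nonneg_left (by linarith) hCs.le
    rw [div_le_iff₀ (by norm_num)]
    linarith
  have hsub : Sl.BadHit K k ϰ W ⊆ ⋃ j ∈ (Finset.univ : Finset (Fin Sl.N)),
      {ω | ∃ n : ℕ, (∀ m, m < n → Sl.k ⟪j⟫ (W.y m ω) < k - ϰ) ∧
        k - ϰ ≤ Sl.k ⟪j⟫ (W.y n ω) ∧ ¬ Sl.Sh.Rob (h1 K) (r / 2) (Sl.s ⟪j⟫ (W.y n ω))} := by
    rintro ω ⟨n, j, h⟩
    simp only [Finset.mem_univ, iUnion_true, mem_iUnion]
    exact ⟨j, n, h⟩
  calc Pw (Sl.BadHit K k ϰ W) ≤ (Pr unif).real _ := measureReal_mono hsub (measure_ne_top _ _)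
    _ ≤ ∑ j ∈ (Finset.univ : Finset (Fin Sl.N)), (Pr unif).real _ := measureReal_biUnion_finset_le _ _
    _ ≤ ∑ _j ∈ (Finset.univ : Finset (Fin Sl.N)), Cs * (vp + vm) := Finset.sum_le_sum fun j _ => hone j
    _ = _ := by
        rw [Finset.sum_const, Finset.card_univ, Fintype.card_fin, nsmul_eq_mul]; ring

theorem first_hit_pf (kf : ℝ → ℝ) (hk : Sl.Sh.RowTest kf) : ∃ ϰf : ℝ → ℝ, (∀ K, 0 < ϰf K ∧ ϰf K ≤ 1 / 2) ∧
    ∀ ε : ℝ, 0 < ε → ∃ K0 : ℝ, ∀ K, K0 ≤ K → ∀ W : Walk, Sl.Fine W (ϰf K) → Pw (Sl.BadHit K (kf K) (ϰf K) W) ≤ ε := by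
  obtain ⟨C, hC, hmain⟩ := Sl.hit_main hS
  have hex : ∀ K : ℝ, ∃ ϰ : ℝ, 0 < ϰ ∧ ϰ ≤ 1 / 2 ∧ (0 < K → -Real.log Sl.H + 1 / 2 < kf K → ∀ W : Walk, Sl.Fine W ϰ →
      Pw (Sl.BadHit K (kf K) ϰ W) ≤
        C * ((volume (Sl.Sh.badRow K (kf K) 1)).toReal + (volume (Sl.Sh.badRow K (kf K) (-1))).toReal)) := by
    intro K
    by_cases h : 0 < K ∧ -Real.log Sl.H + 1 / 2 < kf K
    · obtain ⟨ϰ, h1, h2, h3⟩ := hmain K (kf K) h.1 h.2
      exact ⟨ϰ, h1, h2, fun _ _ => h3⟩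
    · exact ⟨1 / 2, by norm_num, le_rfl, fun a b => absurd ⟨a, b⟩ h⟩
  choose ϰf g1 g2 g3 using hex
  refine ⟨ϰf, fun K => ⟨g1 K, g2 K⟩, fun ε hε => ?_⟩
  have t1 := hk.2 1 (Or.inl rfl)
  have t2 := hk.2 (-1) (Or.inr rfl)
  have t3 : Tendsto (fun K => C * ((volume (Sl.Sh.badRow K (kf K) 1)).toReal +
      (volume (Sl.Sh.badRow K (kf K) (-1))).toReal)) atTop (𝓝 0) := by
    have := (t1.add t2).const_mul C
    simpa using this
  obtain ⟨K0, hK0⟩ := eventually_atTop.1 ((t3.eventually (gt_mem_nhds hε)).and (hk.1.and ((eventually_gt_atTop (0 : ℝ)).and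
    (eventually_gt_atTop ((-Real.log Sl.H + 1 / 2) / 0.8)))))
  refine ⟨K0, fun K hK W hW => ?_⟩
  obtain ⟨a1, a2, a3, a4⟩ := hK0 K hK
  have a5 : -Real.log Sl.H + 1 / 2 < kf K := by
    rw [div_lt_iff₀ (by norm_num)] at a4
    linarith [a2.1]
  exact (g3 K a3 a5 W hW).trans a1.le

end Slice

end Claimed.Agent.R269
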