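/-
Row 269, P1 Section 11.2: Lemma 11.2 (the large-moment alternative), WITHOUT weak convergence.  Owner: helper171.
Paper: 11-sign-test.tex l.119-258.  CHANGES (all checked by hand):
 * no laws on function spaces, no Prokhorov/Skorokhod: argue by contradiction along a sequence `K_n`, SELECT one centre `x_n` which is typical (`NN x k ≤ Λ`, one weighted
   area integral, Markov) and whose LOCAL bad fraction is `≥ ε/2π` (translation averaging), extract limits by Montel (`s9_montel`);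
 * the local bad fraction is TWO-DIMENSIONAL: `(u,t) ∈ [-1,1] × [0,1]`, rows `k + t`.  A nonconstant holomorphic `Q` takes values in `(-∞,0]` only on a null set
   (`LS.null_slit`), so the paper's stationarity + reflection + Liouville argument ("`Q` is not real on the line `Im Z = -1`") is NOT needed;
 * no WKB basis: `LS.wkb_measure`;
 * near-maximiser of `μ(l) e^{-c|l-j|}` (factor 2), so no continuity of `μ` is needed;  `c = 1/8`, cone exponents `5/8 < 3/4 < 1 - c`.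
-/
import Claimed.Agent.R269.S11.Amp
import Claimed.Agent.R269.S9.Imports
import Claimed.Agent.R269.S9.LibMontel

set_option autoImplicit false

namespace Claimed.Agent.R269

open Complex Metric Set Filter Topology MeasureTheory
open scoped Real ENNReal

/-- the lower half plane -/
def s11LH : Set ℂ := {Z | Z.im < 0}

/-- the weight `W(X - iD) = min(D³, D^{-1/2}) / (1 + (X/D)²)` -/
noncomputable def s11wt (Z : ℂ) : ℝ := min ((-Z.im) ^ 3) ((-Z.im) ^ (-(1 / 2 : ℝ))) / (1 + (Z.re / Z.im) ^ 2)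

/-- the rectangle of the local test -/
def s11rect : Set (ℝ × ℝ) := Icc (-1 : ℝ) 1 ×ˢ Icc (0 : ℝ) 1

/-! ### host-free lemmas on the weight (LF-S11h-2) -/

/-- `dA = dX dD` on the lower half plane -/
theorem lg_lintegral_lower (g : ℂ → ℝ≥0∞) (hg : Measurable g) :
    ∫⁻ Z in {Z : ℂ | Z.im < 0}, g Z = ∫⁻ D in Ioi (0 : ℝ), ∫⁻ X : ℝ, g ⟨X, -D⟩ := by
  have hS : MeasurableSet {Z : ℂ | Z.im < 0} := measurableSet_lt Complex.measurable_im measurable_const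
  rw [← lintegral_indicator hS, LS.lintegral_complex _ (hg.indicator hS), ← lintegral_indicator measurableSet_Ioi,
    ← lintegral_neg_eq_self]
  refine lintegral_congr fun y => ?_
  by_cases hy : 0 < y
  · rw [indicator_of_mem (show y ∈ Ioi (0 : ℝ) from hy)]
    refine lintegral_congr fun x => ?_
    rw [indicator_of_mem]
    show -y < 0
    linarith
  · rw [indicator_of_notMem (show y ∉ Ioi (0 : ℝ) from hy)]
    have : ∀ x : ℝ, ({Z : ℂ | Z.im < 0}.indicator g) ⟨x, -y⟩ = 0 := by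
      intro x
      rw [indicator_of_notMem]
      show ¬ (-y < 0)
      linarith
    simp [this]

/-- the explicit integral of the weight -/
theorem lg_J : ∫⁻ Z in {Z : ℂ | Z.im < 0}, ENNReal.ofReal (s11wt Z * ((Z.im ^ 2)⁻¹ * Real.exp (|Real.log (-Z.im)| / 4)))
    ≤ ENNReal.ofReal (5 * π) := by
  have hm : Measurable fun Z : ℂ => ENNReal.ofReal (s11wt Z * ((Z.im ^ 2)⁻¹ * Real.exp (|Real.log (-Z.im)| / 4))) := by
    unfold s11wt
    fun_prop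
  rw [lg_lintegral_lower _ hm]
  -- the inner integral
  have hin : ∀ D ∈ Ioi (0 : ℝ), ∫⁻ X : ℝ, ENNReal.ofReal (s11wt ⟨X, -D⟩ * (((-D) ^ 2)⁻¹ * Real.exp (|Real.log (- -D)| / 4)))
      = ENNReal.ofReal (π * (min (D ^ 3) (D ^ (-(1 / 2 : ℝ))) * D⁻¹ * Real.exp (|Real.log D| / 4))) := by
    intro D hD
    have hD : 0 < D := hD
    have hm0 : 0 ≤ min (D ^ 3) (D ^ (-(1 / 2 : ℝ))) := le_min (by positivity) (Real.rpow_nonneg hD.le _)
    have e : ∀ X : ℝ, ENNReal.ofReal (s11wt ⟨X, -D⟩ * (((-D) ^ 2)⁻¹ * Real.exp (|Real.log (- -D)| / 4)))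
        = ENNReal.ofReal (min (D ^ 3) (D ^ (-(1 / 2 : ℝ))) * (D ^ 2)⁻¹ * Real.exp (|Real.log D| / 4)) * ENNReal.ofReal (1 / (1 + (X / D) ^ 2)) := by
      intro X
      rw [← ENNReal.ofReal_mul (by positivity)]
      congr 1
      simp only [s11wt, neg_neg]
      have : (X / -D) ^ 2 = (X / D) ^ 2 := by rw [div_neg, neg_sq]
      rw [this, neg_sq]
      ring
    simp only [e]
    rw [lintegral_const_mul' _ _ ENNReal.ofReal_ne_top, LS.lintegral_cauchy D hD, ← ENNReal.ofReal_mul (by positivity)]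
    congr 1
    field_simp
  rw [setLIntegral_congr_fun measurableSet_Ioi hin]
  rw [← Ioc_union_Ioi_eq_Ioi (zero_le_one' ℝ), lintegral_union measurableSet_Ioi (Ioc_disjoint_Ioi le_rfl)]
  have h1 : ∫⁻ D in Ioc (0 : ℝ) 1, ENNReal.ofReal (π * (min (D ^ 3) (D ^ (-(1 / 2 : ℝ))) * D⁻¹ * Real.exp (|Real.log D| / 4)))
      ≤ ENNReal.ofReal π := by
    have : ∫⁻ D in Ioc (0 : ℝ) 1, ENNReal.ofReal (π * (min (D ^ 3) (D ^ (-(1 / 2 : ℝ))) * D⁻¹ * Real.exp (|Real.log D| / 4)))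
        ≤ ∫⁻ _D in Ioc (0 : ℝ) 1, ENNReal.ofReal π := by
      refine setLIntegral_mono' measurableSet_Ioc fun D hD => ENNReal.ofReal_le_ofReal ?_
      have hDp : 0 < D := hD.1
      have hlog : Real.log D ≤ 0 := Real.log_nonpos hDp.le hD.2
      have a1 : Real.exp (|Real.log D| / 4) ≤ D⁻¹ := by
        rw [abs_of_nonpos hlog]
        calc Real.exp (-Real.log D / 4) ≤ Real.exp (-Real.log D) := Real.exp_le_exp.2 (by linarith)
          _ = D⁻¹ := by rw [Real.exp_neg, Real.exp_log hDp]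
      have a2 : min (D ^ 3) (D ^ (-(1 / 2 : ℝ))) ≤ D ^ 3 := min_le_left _ _
      have hm0 : 0 ≤ min (D ^ 3) (D ^ (-(1 / 2 : ℝ))) := le_min (by positivity) (Real.rpow_nonneg hDp.le _)
      have a3 : min (D ^ 3) (D ^ (-(1 / 2 : ℝ))) * D⁻¹ * Real.exp (|Real.log D| / 4) ≤ D ^ 3 * D⁻¹ * D⁻¹ := by
        gcongr
      have a4 : D ^ 3 * D⁻¹ * D⁻¹ = D := by field_simp
      have : min (D ^ 3) (D ^ (-(1 / 2 : ℝ))) * D⁻¹ * Real.exp (|Real.log D| / 4) ≤ 1 := by linarith [hD.2]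
      nlinarith [Real.pi_pos]
    refine this.trans ?_
    rw [setLIntegral_const, Real.volume_Ioc]
    simp
  have h2 : ∫⁻ D in Ioi (1 : ℝ), ENNReal.ofReal (π * (min (D ^ 3) (D ^ (-(1 / 2 : ℝ))) * D⁻¹ * Real.exp (|Real.log D| / 4)))
      ≤ ENNReal.ofReal (4 * π) := by
    have hi : IntegrableOn (fun D : ℝ => π * D ^ (-(5 / 4 : ℝ))) (Ioi 1) :=
      (integrableOn_Ioi_rpow_of_lt (by norm_num) one_pos).const_mul π
    have hv : ∫ D in Ioi (1 : ℝ), π * D ^ (-(5 / 4 : ℝ)) = 4 * π := by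
      rw [integral_const_mul, integral_Ioi_rpow_of_lt (by norm_num) one_pos]
      norm_num
      ring
    rw [← hv, ofReal_integral_eq_lintegral_ofReal hi ((ae_restrict_iff' measurableSet_Ioi).2
      (Eventually.of_forall fun D hD => mul_nonneg Real.pi_pos.le (Real.rpow_nonneg (le_trans zero_le_one (le_of_lt hD)) _)))]
    refine setLIntegral_mono' measurableSet_Ioi fun D hD => ENNReal.ofReal_le_ofReal ?_
    have hD1 : 1 < D := hD
    have hDp : 0 < D := by linarith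
    have hlog : 0 ≤ Real.log D := Real.log_nonneg hD1.le
    have a1 : Real.exp (|Real.log D| / 4) = D ^ ((1 : ℝ) / 4) := by
      rw [abs_of_nonneg hlog, Real.rpow_def_of_pos hDp]; congr 1; ring
    have a2 : min (D ^ 3) (D ^ (-(1 / 2 : ℝ))) ≤ D ^ (-(1 / 2 : ℝ)) := min_le_right _ _
    have a3 : D ^ (-(1 / 2 : ℝ)) * D⁻¹ * D ^ ((1 : ℝ) / 4) = D ^ (-(5 / 4 : ℝ)) := by
      rw [← Real.rpow_neg_one D, ← Real.rpow_add hDp, ← Real.rpow_add hDp]; norm_num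
    rw [a1, ← a3]
    gcongr
  refine (add_le_add h1 h2).trans ?_
  rw [← ENNReal.ofReal_add Real.pi_pos.le (by positivity)]
  exact ENNReal.ofReal_le_ofReal (by linarith)

theorem lg_wt_pos (Z : ℂ) (hZ : Z.im < 0) : 0 < s11wt Z := by
  unfold s11wt
  have hD : 0 < -Z.im := by linarith
  have h1 : 0 < (-Z.im) ^ 3 := by positivity
  have h2 : 0 < (-Z.im) ^ (-(1 / 2 : ℝ)) := Real.rpow_pos_of_pos hD _
  have : 0 < min ((-Z.im) ^ 3) ((-Z.im) ^ (-(1 / 2 : ℝ))) := lt_min h1 h2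
  positivity

theorem lg_wt_nonneg (Z : ℂ) (hZ : Z.im < 0) : 0 ≤ s11wt Z := (lg_wt_pos Z hZ).le

theorem lg_disc (Z Z' : ℂ) (h : Z' ∈ closedBall Z (-Z.im / 2)) :
    |Z'.re - Z.re| ≤ -Z.im / 2 ∧ -Z.im / 2 ≤ -Z'.im ∧ -Z'.im ≤ 3 / 2 * -Z.im := by
  rw [mem_closedBall, dist_eq_norm] at h
  have h1 := (Complex.abs_re_le_norm (Z' - Z)).trans h
  have h2 := (Complex.abs_im_le_norm (Z' - Z)).trans h
  simp only [Complex.sub_re, Complex.sub_im] at h1 h2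
  rw [abs_le] at h2
  exact ⟨h1, by linarith [h2.2], by linarith [h2.1]⟩

theorem lg_wt_ge (Z Z' : ℂ) (hZ : Z.im < 0) (h : Z' ∈ closedBall Z (-Z.im / 2)) : s11wt Z / 64 ≤ s11wt Z' := by
  obtain ⟨hre, hlo, hhi⟩ := lg_disc Z Z' h
  set D : ℝ := -Z.im with hD
  set D' : ℝ := -Z'.im with hD'
  have hDp : 0 < D := by rw [hD]; linarith
  have hD'p : 0 < D' := by linarith
  -- numerators
  have hnum : min (D ^ 3) (D ^ (-(1 / 2 : ℝ))) / 8 ≤ min (D' ^ 3) (D' ^ (-(1 / 2 : ℝ))) := by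
    refine le_min ?_ ?_
    · have a1 : (D / 2) ^ 3 ≤ D' ^ 3 := pow_le_pow_left₀ (by positivity) hlo 3
      have a2 : min (D ^ 3) (D ^ (-(1 / 2 : ℝ))) ≤ D ^ 3 := min_le_left _ _
      have a3 : (D / 2) ^ 3 = D ^ 3 / 8 := by ring
      linarith
    · have a1 : (64 * D) ^ (-(1 / 2 : ℝ)) ≤ D' ^ (-(1 / 2 : ℝ)) :=
        Real.rpow_le_rpow_of_nonpos hD'p (by linarith) (by norm_num)
      have a2 : (64 * D) ^ (-(1 / 2 : ℝ)) = D ^ (-(1 / 2 : ℝ)) / 8 := by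
        rw [Real.mul_rpow (by norm_num) hDp.le]
        have : (64 : ℝ) ^ (-(1 / 2 : ℝ)) = 1 / 8 := by
          rw [show (64 : ℝ) = 8 ^ (2 : ℝ) by norm_num, ← Real.rpow_mul (by norm_num)]
          norm_num
        rw [this]; ring
      have a3 : min (D ^ 3) (D ^ (-(1 / 2 : ℝ))) ≤ D ^ (-(1 / 2 : ℝ)) := min_le_right _ _
      linarith
  -- denominators
  have hden : 1 + (Z'.re / Z'.im) ^ 2 ≤ 8 * (1 + (Z.re / Z.im) ^ 2) := by
    have e1 : (Z'.re / Z'.im) ^ 2 = Z'.re ^ 2 / D' ^ 2 := by rw [hD']; rw [div_pow]; congr 1; ring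
    have e2 : (Z.re / Z.im) ^ 2 = Z.re ^ 2 / D ^ 2 := by rw [hD]; rw [div_pow]; congr 1; ring
    rw [e1, e2]
    have b1 : Z'.re ^ 2 ≤ 2 * Z.re ^ 2 + D ^ 2 / 2 := by
      rw [abs_le] at hre
      nlinarith [sq_nonneg (Z'.re - 2 * Z.re), sq_nonneg (Z'.re - Z.re), sq_nonneg (Z.re)]
    have b2 : D ^ 2 / 4 ≤ D' ^ 2 := by nlinarith
    have b3 : Z'.re ^ 2 / D' ^ 2 ≤ (2 * Z.re ^ 2 + D ^ 2 / 2) / (D ^ 2 / 4) :=
      div_le_div₀ (by positivity) b1 (by positivity) b2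
    have b4 : (2 * Z.re ^ 2 + D ^ 2 / 2) / (D ^ 2 / 4) = 8 * (Z.re ^ 2 / D ^ 2) + 2 := by
      field_simp; ring
    have b5 : 0 ≤ Z.re ^ 2 / D ^ 2 := by positivity
    linarith
  have hm0 : 0 ≤ min (D ^ 3) (D ^ (-(1 / 2 : ℝ))) := le_min (by positivity) (Real.rpow_nonneg hDp.le _)
  unfold s11wt
  rw [← hD, ← hD']
  calc min (D ^ 3) (D ^ (-(1 / 2 : ℝ))) / (1 + (Z.re / Z.im) ^ 2) / 64
      = (min (D ^ 3) (D ^ (-(1 / 2 : ℝ))) / 8) / (8 * (1 + (Z.re / Z.im) ^ 2)) := by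
        field_simp; ring
    _ ≤ min (D' ^ 3) (D' ^ (-(1 / 2 : ℝ))) / (1 + (Z'.re / Z'.im) ^ 2) :=
        div_le_div₀ (le_trans (by positivity) hnum) hnum (by positivity) hden

theorem lg_measurable_wt : Measurable s11wt := by
  unfold s11wt
  fun_prop

theorem lg_isOpen_LH : IsOpen s11LH := isOpen_lt Complex.continuous_im continuous_const

theorem lg_tlu_subseq {F : ℕ → ℂ → ℂ} {G : ℂ → ℂ} {U : Set ℂ} (h : TendstoLocallyUniformlyOn F G atTop U) (φ : ℕ → ℕ)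
    (hφ : StrictMono φ) : TendstoLocallyUniformlyOn (fun n => F (φ n)) G atTop U := by
  intro u hu x hx
  obtain ⟨t, ht, h1⟩ := h u hu x hx
  exact ⟨t, ht, hφ.tendsto_atTop.eventually h1⟩

theorem lg_ch_eq (p : ℝ × ℝ) : LS.ch p = (p.1 : ℂ) + ((-Real.exp (-p.2) : ℝ) : ℂ) * I := by
  apply Complex.ext
  · simp only [LS.ch, Complex.add_re, Complex.ofReal_re, Complex.mul_re, Complex.I_re, Complex.I_im, Complex.ofReal_im]
    ring
  · simp only [LS.ch, Complex.add_im, Complex.ofReal_re, Complex.mul_im, Complex.I_re, Complex.I_im, Complex.ofReal_im]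
    ring

theorem lg_continuous_ch : Continuous LS.ch := by
  have : LS.ch = fun p : ℝ × ℝ => (p.1 : ℂ) + ((-Real.exp (-p.2) : ℝ) : ℂ) * I := funext lg_ch_eq
  rw [this]
  fun_prop

theorem lg_ch_mem (p : ℝ × ℝ) : LS.ch p ∈ s11LH := by
  show (LS.ch p).im < 0
  simp only [LS.ch]
  linarith [Real.exp_pos (-p.2)]

theorem lg_isCompact_rect : IsCompact s11rect := isCompact_Icc.prod isCompact_Icc

/-- principal square root -/
noncomputable def lgsq (w : ℂ) : ℂ := w ^ (((2 : ℕ) : ℂ)⁻¹)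

theorem lg_sq_sq (w : ℂ) : lgsq w ^ 2 = w := Complex.cpow_nat_inv_pow w two_ne_zero

theorem lg_sq_re_pos (w : ℂ) (hw : w ∈ Complex.slitPlane) : 0 < (lgsq w).re := by
  obtain ⟨harg, h0⟩ := Complex.mem_slitPlane_iff_arg.1 hw
  unfold lgsq
  rw [Complex.cpow_def_of_ne_zero h0, Complex.exp_re]
  refine mul_pos (Real.exp_pos _) (Real.cos_pos_of_mem_Ioo ?_)
  have him : (Complex.log w * (((2 : ℕ) : ℂ)⁻¹)).im = w.arg / 2 := by
    have : (((2 : ℕ) : ℂ)⁻¹) = ((2⁻¹ : ℝ) : ℂ) := by push_cast; rfl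
    rw [this, Complex.im_mul_ofReal, Complex.log_im]; ring
  rw [him]
  have h1 := Complex.neg_pi_lt_arg w
  have h2 : w.arg < π := lt_of_le_of_ne (Complex.arg_le_pi w) harg
  constructor <;> linarith

theorem lg_sq_cont (w : ℂ) (hw : w ∈ Complex.slitPlane) : ContinuousAt lgsq w := continuousAt_cpow_const hw

theorem lg_sq_diff (w : ℂ) (hw : w ∈ Complex.slitPlane) : DifferentiableAt ℂ lgsq w :=
  differentiableAt_id.cpow (differentiableAt_const _) hw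

/-- calculus on rows -/
theorem lg_row_deriv (G : ℂ → ℂ) (G' : ℂ) (y u : ℝ) (h : HasDerivAt G G' (⟨u, y⟩ : ℂ)) :
    HasDerivAt (fun u : ℝ => G (⟨u, y⟩ : ℂ)) G' u := by
  have e : ∀ v : ℝ, (⟨v, y⟩ : ℂ) = (v : ℂ) + (y : ℂ) * I := by
    intro v; apply Complex.ext <;> simp
  have h1 : HasDerivAt (fun w : ℂ => G (w + (y : ℂ) * I)) G' (u : ℂ) := by
    apply HasDerivAt.comp_add_const
    rw [← e]; exact h
  have h2 := h1.comp_ofReal
  simpa only [e] using h2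

namespace Shape

variable (Sh : Shape)

/-- the profiles at the centre `x`, level `k`, amplitude `μ(k)` -/
noncomputable def pF (x k : ℝ) : ℂ → ℂ := Sh.profF x k (Sh.μ k)

noncomputable def pQ (x k : ℝ) : ℂ → ℂ := Sh.profQ x k (Sh.μ k)

/-- the envelope at the level `k` -/
def Env (k : ℝ) : Prop := ∀ l, Sh.s9k0 ≤ l → Sh.μ l ≤ 2 * Sh.μ k * Real.exp (1 / 8 * |l - k|)

/-- the typicality functional -/
noncomputable def NN (x k : ℝ) : ℝ≥0∞ :=
  ∫⁻ Z in {Z : ℂ | Z.im < 0 ∧ -Z.im ≤ Real.exp (k - Sh.s9k0)}, ENNReal.ofReal (s11wt Z * (‖Sh.pF x k Z‖ ^ 2 + ‖Sh.pQ x k Z‖))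

/-- the local bad set in the coordinates `(u,t)`: the point `x + iH + e^{-k}(u - i e^{-t})` -/
def lbad (T x k : ℝ) : Set (ℝ × ℝ) :=
  {p | |Sh.aa (Sh.up (x + Real.exp (-k) * p.1) (Real.exp (-(k + p.2))))| ≤ T}

/-! ### LF-S11h-1: the envelope -/

/-! ### LF-S11h-2: typical centres -/

theorem lg_k0_row (hH : Sh.H ≠ ⊤) (l : ℝ) (hl : Sh.s9k0 ≤ l) : Real.exp (-l) < Sh.Hr / 10 := by
  have hHr := Sh.sb_Hr_pos hH
  have h1 : 1 - Real.log (Sh.Hr / 10) ≤ Sh.s9k0 := le_max_right _ _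
  have h2 : Real.exp (-l) < Real.exp (Real.log (Sh.Hr / 10)) := Real.exp_lt_exp.2 (by linarith)
  rwa [Real.exp_log (by positivity)] at h2

theorem lg_pt (x k : ℝ) (Z : ℂ) : (x : ℂ) + Sh.Hr * I + (Real.exp (-k) : ℝ) * Z
    = Sh.up (x + Real.exp (-k) * Z.re) (Real.exp (-k) * (-Z.im)) := by
  apply Complex.ext
  · simp only [up, Complex.add_re, Complex.ofReal_re, Complex.mul_re, Complex.I_re, Complex.I_im, Complex.ofReal_im]
    ring
  · simp only [up, Complex.add_im, Complex.ofReal_re, Complex.mul_im, Complex.I_re, Complex.I_im, Complex.ofReal_im]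
    ring

/-- depth of the point -/
theorem lg_depth (hH : Sh.H ≠ ⊤) (k : ℝ) (Z : ℂ) (h1 : Z.im < 0) (h2 : -Z.im ≤ Real.exp (k - Sh.s9k0)) :
    0 < Real.exp (-k) * (-Z.im) ∧ Real.exp (-k) * (-Z.im) < Sh.Hr / 10 := by
  refine ⟨mul_pos (Real.exp_pos _) (by linarith), ?_⟩
  calc Real.exp (-k) * (-Z.im) ≤ Real.exp (-k) * Real.exp (k - Sh.s9k0) := mul_le_mul_of_nonneg_left h2 (Real.exp_pos _).le
    _ = Real.exp (-Sh.s9k0) := by rw [← Real.exp_add]; congr 1; ring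
    _ < _ := Sh.lg_k0_row hH _ le_rfl

theorem lg_up_mem (hH : Sh.H ≠ ⊤) (x d : ℝ) (h0 : 0 < d) (h1 : d < Sh.Hr) : Sh.up x d ∈ Sh.D := by
  rw [Sh.mem_D_iff hH, Sh.dep_up x d h1.le]; exact h0

theorem lg_pt_mem (hH : Sh.H ≠ ⊤) (x k : ℝ) (Z : ℂ) (h1 : Z.im < 0) (h2 : -Z.im ≤ Real.exp (k - Sh.s9k0)) :
    (x : ℂ) + Sh.Hr * I + (Real.exp (-k) : ℝ) * Z ∈ Sh.D := by
  rw [Sh.lg_pt]
  obtain ⟨a, b⟩ := Sh.lg_depth hH k Z h1 h2
  exact Sh.lg_up_mem hH _ _ a (by linarith [Sh.sb_Hr_pos hH])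

theorem lg_pF_at (hH : Sh.H ≠ ⊤) (x k : ℝ) (Z : ℂ) (h1 : Z.im < 0) (h2 : -Z.im ≤ Real.exp (k - Sh.s9k0)) :
    DifferentiableAt ℂ (Sh.pF x k) Z := by
  unfold pF profF
  refine DifferentiableAt.const_mul ?_ _
  exact DifferentiableAt.comp Z (Sh.sb_f_at (Sh.lg_pt_mem hH x k Z h1 h2)) (by fun_prop)

theorem lg_pQ_at (hH : Sh.H ≠ ⊤) (x k : ℝ) (Z : ℂ) (h1 : Z.im < 0) (h2 : -Z.im ≤ Real.exp (k - Sh.s9k0)) :
    DifferentiableAt ℂ (Sh.pQ x k) Z := by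
  unfold pQ profQ
  refine DifferentiableAt.const_mul ?_ _
  exact DifferentiableAt.comp Z (Sh.sb_q_at (Sh.lg_pt_mem hH x k Z h1 h2)) (by fun_prop)

theorem prof_diff (hH : Sh.H ≠ ⊤) (x k : ℝ) :
    DifferentiableOn ℂ (Sh.pF x k) {Z | Z.im < 0 ∧ -Z.im < Real.exp (k - Sh.s9k0)} ∧
    DifferentiableOn ℂ (Sh.pQ x k) {Z | Z.im < 0 ∧ -Z.im < Real.exp (k - Sh.s9k0)} :=
  ⟨fun Z hZ => (Sh.lg_pF_at hH x k Z hZ.1 hZ.2.le).differentiableWithinAt,
   fun Z hZ => (Sh.lg_pQ_at hH x k Z hZ.1 hZ.2.le).differentiableWithinAt⟩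

theorem prof_bound (hH : Sh.H ≠ ⊤) : ∃ C : ℝ, 0 < C ∧ ∀ (x k Λ : ℝ), 0 < Sh.μ k → 0 ≤ Λ → Sh.NN x k ≤ ENNReal.ofReal Λ →
    ∀ Z : ℂ, Z.im < 0 → 3 / 2 * -Z.im ≤ Real.exp (k - Sh.s9k0) →
    ‖Sh.pF x k Z‖ ^ 2 + ‖Sh.pQ x k Z‖ ≤ C * Λ / (Z.im ^ 2 * s11wt Z) := by
  refine ⟨256, by norm_num, fun x k Λ _ hΛ hN Z hZ hZ2 => ?_⟩
  set D : ℝ := -Z.im with hD
  have hDp : 0 < D := by rw [hD]; linarith
  set R : ℝ := D / 2 with hR
  have hRp : 0 < R := by positivity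
  have hin : ∀ Z' ∈ closedBall Z R, Z'.im < 0 ∧ -Z'.im ≤ Real.exp (k - Sh.s9k0) := by
    intro Z' hZ'
    obtain ⟨_, hlo, hhi⟩ := lg_disc Z Z' hZ'
    exact ⟨by linarith, by linarith⟩
  have hFd : DifferentiableOn ℂ (Sh.pF x k) (closedBall Z R) :=
    fun Z' hZ' => (Sh.lg_pF_at hH x k Z' (hin Z' hZ').1 (hin Z' hZ').2).differentiableWithinAt
  have hQd : DifferentiableOn ℂ (Sh.pQ x k) (closedBall Z R) :=
    fun Z' hZ' => (Sh.lg_pQ_at hH x k Z' (hin Z' hZ').1 (hin Z' hZ').2).differentiableWithinAt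
  have m1 := LS.norm_le_area_mean (fun Z' => Sh.pF x k Z' ^ 2) Z R hRp ((hFd.pow 2).diffContOnCl_ball subset_rfl)
  have m2 := LS.norm_le_area_mean (Sh.pQ x k) Z R hRp (hQd.diffContOnCl_ball subset_rfl)
  have i1 : IntegrableOn (fun Z' => ‖Sh.pF x k Z' ^ 2‖) (ball Z R) :=
    ((hFd.pow 2).continuousOn.norm.integrableOn_compact (isCompact_closedBall Z R)).mono_set ball_subset_closedBall
  have i2 : IntegrableOn (fun Z' => ‖Sh.pQ x k Z'‖) (ball Z R) :=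
    (hQd.continuousOn.norm.integrableOn_compact (isCompact_closedBall Z R)).mono_set ball_subset_closedBall
  set u : ℂ → ℝ := fun Z' => ‖Sh.pF x k Z'‖ ^ 2 + ‖Sh.pQ x k Z'‖ with hu
  have hui : IntegrableOn u (ball Z R) := by
    have := i1.add i2
    refine this.congr (Eventually.of_forall fun Z' => ?_)
    simp [hu, norm_pow]
  have hsum : π * R ^ 2 * u Z ≤ ∫ Z' in ball Z R, u Z' := by
    have e : ∫ Z' in ball Z R, u Z' = (∫ Z' in ball Z R, ‖Sh.pF x k Z' ^ 2‖) + ∫ Z' in ball Z R, ‖Sh.pQ x k Z'‖ := by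
      rw [← integral_add i1 i2]
      refine integral_congr_ae (Eventually.of_forall fun Z' => ?_)
      simp [hu, norm_pow]
    rw [e]
    have : π * R ^ 2 * u Z = π * R ^ 2 * ‖Sh.pF x k Z ^ 2‖ + π * R ^ 2 * ‖Sh.pQ x k Z‖ := by
      simp only [hu, norm_pow]; ring
    rw [this]
    exact add_le_add m1 m2
  have hW := lg_wt_pos Z hZ
  -- comparison with NN
  have hI : s11wt Z / 64 * ∫ Z' in ball Z R, u Z' ≤ Λ := by
    have hu0 : ∀ Z', 0 ≤ u Z' := fun Z' => by simp only [hu]; positivity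
    have e1 : ENNReal.ofReal (s11wt Z / 64 * ∫ Z' in ball Z R, u Z') = ∫⁻ Z' in ball Z R, ENNReal.ofReal (s11wt Z / 64 * u Z') := by
      rw [← integral_const_mul, ofReal_integral_eq_lintegral_ofReal (hui.const_mul _)
        (Eventually.of_forall fun Z' => mul_nonneg (by positivity) (hu0 Z'))]
    have e2 : ∫⁻ Z' in ball Z R, ENNReal.ofReal (s11wt Z / 64 * u Z') ≤ ∫⁻ Z' in ball Z R, ENNReal.ofReal (s11wt Z' * u Z') := by
      refine setLIntegral_mono' measurableSet_ball fun Z' hZ' => ENNReal.ofReal_le_ofReal ?_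
      exact mul_le_mul_of_nonneg_right (lg_wt_ge Z Z' hZ (ball_subset_closedBall hZ')) (hu0 Z')
    have e3 : ∫⁻ Z' in ball Z R, ENNReal.ofReal (s11wt Z' * u Z') ≤ Sh.NN x k := by
      unfold NN
      exact lintegral_mono_set fun Z' hZ' => hin Z' (ball_subset_closedBall hZ')
    have := (e1.le.trans (e2.trans e3)).trans hN
    exact (ENNReal.ofReal_le_ofReal_iff hΛ).1 this
  have hπ : (1 : ℝ) ≤ π := by linarith [Real.pi_gt_three]
  have hu0 : 0 ≤ u Z := by simp only [hu]; positivity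
  have hfin : u Z * (D ^ 2 * s11wt Z) ≤ 256 * Λ := by
    have a1 : s11wt Z / 64 * (π * R ^ 2 * u Z) ≤ Λ := le_trans (mul_le_mul_of_nonneg_left hsum (by positivity)) hI
    have a2 : s11wt Z / 64 * (π * R ^ 2 * u Z) = π * (u Z * (D ^ 2 * s11wt Z) / 256) := by rw [hR]; ring
    rw [a2] at a1
    have a3 : 0 ≤ u Z * (D ^ 2 * s11wt Z) / 256 := by positivity
    nlinarith
  have e : Z.im ^ 2 = D ^ 2 := by rw [hD]; ring
  rw [e, le_div_iff₀ (by positivity)]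
  exact hfin


/-- measurable, everywhere periodic version of `|f|² + |q|` -/
noncomputable def fq (z : ℂ) : ℝ≥0∞ := ENNReal.ofReal (‖Sh.D.indicator Sh.f z‖ ^ 2 + ‖Sh.D.indicator Sh.q z‖)

theorem lg_measurable_fq : Measurable Sh.fq := by
  classical
  have h1 : Measurable (Sh.D.indicator Sh.f) := Sh.sb_measurable_f.indicator Sh.isOpen_D.measurableSet
  have h2 : Measurable (Sh.D.indicator Sh.q) := by
    have := ContinuousOn.measurable_piecewise (f := Sh.q) (g := fun _ => (0 : ℂ)) (s := Sh.D) Sh.q_diff.continuousOn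
      continuousOn_const Sh.isOpen_D.measurableSet
    have e : Sh.D.piecewise Sh.q (fun _ => (0 : ℂ)) = Sh.D.indicator Sh.q := Set.piecewise_eq_indicator
    rwa [e] at this
  unfold fq
  exact ENNReal.measurable_ofReal.comp ((h1.norm.pow_const 2).add h2.norm)

theorem lg_fq_of_mem (z : ℂ) (hz : z ∈ Sh.D) : Sh.fq z = ENNReal.ofReal (‖Sh.f z‖ ^ 2 + ‖Sh.q z‖) := by
  unfold fq
  rw [indicator_of_mem hz, indicator_of_mem hz]

theorem lg_fq_per (z : ℂ) : Sh.fq (z + 2 * π) = Sh.fq z := by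
  by_cases hz : z ∈ Sh.D
  · rw [Sh.lg_fq_of_mem z hz, Sh.lg_fq_of_mem _ (Sh.sb_add_two_pi_mem_D hz), Sh.f_per z hz, Sh.q_per z hz]
  · have hz' : z + 2 * π ∉ Sh.D := by
      intro h
      apply hz
      have := Sh.sb_sub_two_pi_mem_D h
      simpa using this
    unfold fq
    rw [indicator_of_notMem hz, indicator_of_notMem hz, indicator_of_notMem hz', indicator_of_notMem hz']

/-- the domain of `NN` -/
def lgS (k : ℝ) : Set ℂ := {Z : ℂ | Z.im < 0 ∧ -Z.im ≤ Real.exp (k - Sh.s9k0)}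

theorem lg_measurableSet_S (k : ℝ) : MeasurableSet (Sh.lgS k) :=
  (measurableSet_lt Complex.measurable_im measurable_const).inter (measurableSet_le Complex.measurable_im.neg measurable_const)

theorem lg_NN_eq (hH : Sh.H ≠ ⊤) (x k : ℝ) : Sh.NN x k = ∫⁻ Z in Sh.lgS k,
    ENNReal.ofReal (s11wt Z * (Real.exp (-k) / Sh.μ k) ^ 2) * Sh.fq ((x : ℂ) + Sh.Hr * I + (Real.exp (-k) : ℝ) * Z) := by
  unfold NN
  refine setLIntegral_congr_fun (Sh.lg_measurableSet_S k) fun Z hZ => ?_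
  rw [Sh.lg_fq_of_mem _ (Sh.lg_pt_mem hH x k Z hZ.1 hZ.2), ← ENNReal.ofReal_mul (mul_nonneg (lg_wt_nonneg Z hZ.1) (sq_nonneg _))]
  congr 1
  simp only [pF, pQ, profF, profQ, norm_mul, Complex.norm_real, Real.norm_eq_abs, mul_pow, sq_abs, abs_pow]
  ring

theorem measurable_NN (hH : Sh.H ≠ ⊤) (k : ℝ) : Measurable fun x => Sh.NN x k := by
  have e : (fun x => Sh.NN x k) = fun x : ℝ => ∫⁻ Z in Sh.lgS k,
      ENNReal.ofReal (s11wt Z * (Real.exp (-k) / Sh.μ k) ^ 2) * Sh.fq ((x : ℂ) + Sh.Hr * I + (Real.exp (-k) : ℝ) * Z) :=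
    funext fun x => Sh.lg_NN_eq hH x k
  rw [e]
  have hm : Measurable fun p : ℝ × ℂ => ENNReal.ofReal (s11wt p.2 * (Real.exp (-k) / Sh.μ k) ^ 2)
      * Sh.fq ((p.1 : ℂ) + Sh.Hr * I + (Real.exp (-k) : ℝ) * p.2) := by
    have a1 : Measurable fun p : ℝ × ℂ => ENNReal.ofReal (s11wt p.2 * (Real.exp (-k) / Sh.μ k) ^ 2) :=
      ENNReal.measurable_ofReal.comp ((lg_measurable_wt.comp measurable_snd).mul_const _)
    have a2 : Measurable fun p : ℝ × ℂ => Sh.fq ((p.1 : ℂ) + Sh.Hr * I + (Real.exp (-k) : ℝ) * p.2) :=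
      Sh.lg_measurable_fq.comp (by fun_prop)
    exact a1.mul a2
  exact hm.lintegral_prod_right'

theorem lg_up_add (x d : ℝ) : Sh.up (x + 2 * π) d = Sh.up x d + 2 * π := by
  apply Complex.ext <;> simp [up]

/-- the row integral -/
theorem lg_row (hH : Sh.H ≠ ⊤) (k : ℝ) (Z : ℂ) (hZ : Z ∈ Sh.lgS k) :
    ∫⁻ x in Icc (0 : ℝ) (2 * π), Sh.fq ((x : ℂ) + Sh.Hr * I + (Real.exp (-k) : ℝ) * Z)
      = ENNReal.ofReal (2 * π * Real.exp (2 * (k - Real.log (-Z.im))) * Sh.μ (k - Real.log (-Z.im)) ^ 2) := by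
  have hD : 0 < -Z.im := by linarith [hZ.1]
  obtain ⟨d0, d1⟩ := Sh.lg_depth hH k Z hZ.1 hZ.2
  have hHr := Sh.sb_Hr_pos hH
  have hδ : Real.exp (-(k - Real.log (-Z.im))) = Real.exp (-k) * (-Z.im) := by
    rw [neg_sub, sub_eq_add_neg, Real.exp_add, Real.exp_log hD, mul_comm]
  rw [← Sh.lintegral_row hH _ (by rw [hδ]; linarith), hδ]
  simp only [Sh.lg_pt]
  rw [LS.lintegral_Icc_shift (fun x => Sh.fq (Sh.up x (Real.exp (-k) * (-Z.im)))) (2 * π) (Real.exp (-k) * Z.re) Real.two_pi_pos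
    (fun x => by rw [Sh.lg_up_add, Sh.lg_fq_per])]
  refine lintegral_congr fun x => ?_
  exact Sh.lg_fq_of_mem _ (Sh.lg_up_mem hH _ _ d0 (by linarith))

theorem lg_mu_nonneg (l : ℝ) : 0 ≤ Sh.μ l := by unfold μ; positivity

theorem NN_mean (hH : Sh.H ≠ ⊤) : ∃ C : ℝ, 0 < C ∧ ∀ k : ℝ, Sh.s9k0 ≤ k → 0 < Sh.μ k → Sh.Env k →
    ∫⁻ x in Icc (0 : ℝ) (2 * π), Sh.NN x k ≤ ENNReal.ofReal C := by
  refine ⟨8 * π * (5 * π), by positivity, fun k _ hμ hE => ?_⟩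
  simp only [Sh.lg_NN_eq hH]
  have hm : Measurable fun p : ℝ × ℂ => ENNReal.ofReal (s11wt p.2 * (Real.exp (-k) / Sh.μ k) ^ 2)
      * Sh.fq ((p.1 : ℂ) + Sh.Hr * I + (Real.exp (-k) : ℝ) * p.2) := by
    have a1 : Measurable fun p : ℝ × ℂ => ENNReal.ofReal (s11wt p.2 * (Real.exp (-k) / Sh.μ k) ^ 2) :=
      ENNReal.measurable_ofReal.comp ((lg_measurable_wt.comp measurable_snd).mul_const _)
    have a2 : Measurable fun p : ℝ × ℂ => Sh.fq ((p.1 : ℂ) + Sh.Hr * I + (Real.exp (-k) : ℝ) * p.2) :=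
      Sh.lg_measurable_fq.comp (by fun_prop)
    exact a1.mul a2
  rw [lintegral_lintegral_swap hm.aemeasurable]
  have h1 : ∀ Z ∈ Sh.lgS k, ∫⁻ x in Icc (0 : ℝ) (2 * π), ENNReal.ofReal (s11wt Z * (Real.exp (-k) / Sh.μ k) ^ 2)
      * Sh.fq ((x : ℂ) + Sh.Hr * I + (Real.exp (-k) : ℝ) * Z)
      ≤ ENNReal.ofReal (8 * π) * ENNReal.ofReal (s11wt Z * ((Z.im ^ 2)⁻¹ * Real.exp (|Real.log (-Z.im)| / 4))) := by
    intro Z hZ
    have hD : 0 < -Z.im := by linarith [hZ.1]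
    have hW := lg_wt_nonneg Z hZ.1
    rw [lintegral_const_mul' _ _ ENNReal.ofReal_ne_top, Sh.lg_row hH k Z hZ, ← ENNReal.ofReal_mul (by positivity),
      ← ENNReal.ofReal_mul (by positivity)]
    refine ENNReal.ofReal_le_ofReal ?_
    set D : ℝ := -Z.im with hDdef
    set l : ℝ := k - Real.log D with hl
    have hls : Sh.s9k0 ≤ l := by
      have : Real.log D ≤ k - Sh.s9k0 := by
        rw [← Real.log_exp (k - Sh.s9k0)]; exact Real.log_le_log hD hZ.2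
      rw [hl]; linarith
    have hμl := hE l hls
    have habs : |l - k| = |Real.log D| := by rw [hl]; simp
    rw [habs] at hμl
    have hsq : Sh.μ l ^ 2 ≤ 4 * Sh.μ k ^ 2 * Real.exp (|Real.log D| / 4) := by
      have := pow_le_pow_left₀ (Sh.lg_mu_nonneg l) hμl 2
      have e : (2 * Sh.μ k * Real.exp (1 / 8 * |Real.log D|)) ^ 2 = 4 * Sh.μ k ^ 2 * Real.exp (|Real.log D| / 4) := by
        rw [mul_pow, mul_pow, ← Real.exp_nat_mul]
        congr 2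
        · norm_num
        · push_cast; ring
      rwa [e] at this
    have he : Real.exp (2 * l) = Real.exp (2 * k) * (D ^ 2)⁻¹ := by
      rw [hl, mul_sub, Real.exp_sub, div_eq_mul_inv]
      congr 2
      rw [show 2 * Real.log D = Real.log D + Real.log D by ring, Real.exp_add, Real.exp_log hD]; ring
    have hek : Real.exp (-k) ^ 2 * Real.exp (2 * k) = 1 := by
      rw [← Real.exp_nat_mul, ← Real.exp_add]; simp
    have hZD : Z.im ^ 2 = D ^ 2 := by rw [hDdef]; ring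
    rw [he, hZD]
    have key : (Real.exp (-k) / Sh.μ k) ^ 2 * (2 * π * (Real.exp (2 * k) * (D ^ 2)⁻¹) * Sh.μ l ^ 2)
        = 2 * π * (D ^ 2)⁻¹ * (Sh.μ l ^ 2 / Sh.μ k ^ 2) := by
      rw [div_pow]
      calc Real.exp (-k) ^ 2 / Sh.μ k ^ 2 * (2 * π * (Real.exp (2 * k) * (D ^ 2)⁻¹) * Sh.μ l ^ 2)
          = (Real.exp (-k) ^ 2 * Real.exp (2 * k)) * (2 * π * (D ^ 2)⁻¹ * (Sh.μ l ^ 2 / Sh.μ k ^ 2)) := by ring
        _ = _ := by rw [hek, one_mul]
    have hq : Sh.μ l ^ 2 / Sh.μ k ^ 2 ≤ 4 * Real.exp (|Real.log D| / 4) := by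
      rw [div_le_iff₀ (by positivity)]; linarith
    calc s11wt Z * (Real.exp (-k) / Sh.μ k) ^ 2 * (2 * π * (Real.exp (2 * k) * (D ^ 2)⁻¹) * Sh.μ l ^ 2)
        = s11wt Z * ((Real.exp (-k) / Sh.μ k) ^ 2 * (2 * π * (Real.exp (2 * k) * (D ^ 2)⁻¹) * Sh.μ l ^ 2)) := by ring
      _ = s11wt Z * (2 * π * (D ^ 2)⁻¹ * (Sh.μ l ^ 2 / Sh.μ k ^ 2)) := by rw [key]
      _ ≤ s11wt Z * (2 * π * (D ^ 2)⁻¹ * (4 * Real.exp (|Real.log D| / 4))) := by gcongr
      _ = 8 * π * (s11wt Z * ((D ^ 2)⁻¹ * Real.exp (|Real.log D| / 4))) := by ring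
  refine (setLIntegral_mono' (Sh.lg_measurableSet_S k) h1).trans ?_
  have e8 : ENNReal.ofReal (8 * π * (5 * π)) = ENNReal.ofReal (8 * π) * ENNReal.ofReal (5 * π) :=
    ENNReal.ofReal_mul (by positivity)
  rw [lintegral_const_mul' _ _ ENNReal.ofReal_ne_top, e8]
  refine mul_le_mul' le_rfl ?_
  exact (lintegral_mono_set fun Z hZ => hZ.1).trans lg_J

theorem lg_up_eq (x d : ℝ) : Sh.up x d = (x : ℂ) + ((Sh.Hr - d : ℝ) : ℂ) * I := by
  apply Complex.ext <;> simp [up]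

theorem lg_aa_per (z : ℂ) (hz : z ∈ Sh.D) : Sh.aa (z + 2 * π) = Sh.aa z := by
  unfold aa; rw [Sh.f_per z hz]

theorem lg_vol_rect : volume s11rect = 2 := by
  unfold s11rect
  rw [Measure.volume_eq_prod, Measure.prod_prod, Real.volume_Icc, Real.volume_Icc]
  norm_num

theorem select (hH : Sh.H ≠ ⊤) : ∀ ε : ℝ, 0 < ε → ∃ Λ : ℝ, 0 < Λ ∧ ∀ k T : ℝ, Sh.s9k0 ≤ k → 0 < Sh.μ k → Sh.Env k →
    (∀ t ∈ Icc (0 : ℝ) 1, ENNReal.ofReal ε ≤ volume (Sh.modRow T (k + t))) →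
    ∃ x ∈ Icc (0 : ℝ) (2 * π), Sh.NN x k ≤ ENNReal.ofReal Λ ∧ ENNReal.ofReal (ε / (2 * π)) ≤ volume (Sh.lbad T x k ∩ s11rect) := by
  intro ε hε
  obtain ⟨C, hC, hmean⟩ := Sh.NN_mean hH
  refine ⟨4 * C / ε, by positivity, fun k T hk hμ hE hrow => ?_⟩
  by_contra hcon
  push Not at hcon
  have hHr := Sh.sb_Hr_pos hH
  set Λ : ℝ := 4 * C / ε with hΛ
  have hΛp : 0 < Λ := by positivity
  -- the measurable set
  set A : Set (ℝ × (ℝ × ℝ)) := {q | |Sh.aa (Sh.up (q.1 + Real.exp (-k) * q.2.1) (Real.exp (-(k + q.2.2))))| ≤ T} with hA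
  have hAm : MeasurableSet A := by
    refine measurableSet_le ?_ measurable_const
    have : Measurable fun q : ℝ × (ℝ × ℝ) => Sh.up (q.1 + Real.exp (-k) * q.2.1) (Real.exp (-(k + q.2.2))) := by
      simp only [Sh.lg_up_eq]
      fun_prop
    exact (Sh.measurable_aa.comp this).abs
  have hrm : MeasurableSet s11rect := measurableSet_Icc.prod measurableSet_Icc
  have hg : ∀ x : ℝ, volume (Sh.lbad T x k ∩ s11rect) = ∫⁻ p in s11rect, A.indicator 1 (x, p) := by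
    intro x
    have hl : MeasurableSet (Sh.lbad T x k) := measurable_prodMk_left hAm
    rw [← Measure.restrict_apply hl, ← lintegral_indicator_one hl]
    rfl
  -- lower bound of the mean
  have hlow : 2 * ENNReal.ofReal ε ≤ ∫⁻ x in Icc (0 : ℝ) (2 * π), volume (Sh.lbad T x k ∩ s11rect) := by
    simp only [hg]
    have hsw : AEMeasurable (Function.uncurry fun (x : ℝ) (p : ℝ × ℝ) => A.indicator (1 : ℝ × (ℝ × ℝ) → ℝ≥0∞) (x, p))
        ((volume.restrict (Icc (0 : ℝ) (2 * π))).prod (volume.restrict s11rect)) :=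
      ((measurable_one.indicator hAm)).aemeasurable
    rw [lintegral_lintegral_swap hsw]
    have h1 : ∀ p ∈ s11rect, ENNReal.ofReal ε ≤ ∫⁻ x in Icc (0 : ℝ) (2 * π), A.indicator 1 (x, p) := by
      rintro ⟨u, t⟩ ⟨_, ht⟩
      simp only at ht
      set δ : ℝ := Real.exp (-(k + t)) with hδ
      have hδ1 : δ < Sh.Hr := by
        have := Sh.lg_k0_row hH (k + t) (by linarith [ht.1]); linarith
      have hδ0 : 0 < δ := Real.exp_pos _
      set B : Set ℝ := {x | |Sh.aa (Sh.up x δ)| ≤ T} with hB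
      have hBm : MeasurableSet B := by
        refine measurableSet_le ?_ measurable_const
        have : Measurable fun x : ℝ => Sh.up x δ := by
          simp only [Sh.lg_up_eq]; fun_prop
        exact (Sh.measurable_aa.comp this).abs
      have e1 : ∀ x : ℝ, A.indicator (1 : ℝ × (ℝ × ℝ) → ℝ≥0∞) (x, (u, t)) = B.indicator 1 (x + Real.exp (-k) * u) := by
        intro x
        by_cases hx : (x, (u, t)) ∈ A
        · rw [indicator_of_mem hx, indicator_of_mem (show x + Real.exp (-k) * u ∈ B from hx)]; rfl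
        · rw [indicator_of_notMem hx, indicator_of_notMem (show x + Real.exp (-k) * u ∉ B from hx)]
      simp only [e1]
      rw [LS.lintegral_Icc_shift (fun x => B.indicator (1 : ℝ → ℝ≥0∞) x) (2 * π) _ Real.two_pi_pos ?_]
      · rw [lintegral_indicator_one hBm, Measure.restrict_apply hBm]
        refine (hrow t ht).trans (measure_mono ?_)
        intro x hx
        exact ⟨hx.2, hx.1⟩
      · intro x
        have hmem : x + 2 * π ∈ B ↔ x ∈ B := by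
          simp only [hB, mem_ofPred_eq]
          rw [Sh.lg_up_add, Sh.lg_aa_per _ (Sh.lg_up_mem hH x δ hδ0 hδ1)]
        by_cases hx : x ∈ B
        · rw [indicator_of_mem hx, indicator_of_mem (hmem.2 hx)]; rfl
        · rw [indicator_of_notMem hx, indicator_of_notMem (fun h => hx (hmem.1 h))]
    calc 2 * ENNReal.ofReal ε = ∫⁻ _p in s11rect, ENNReal.ofReal ε := by
          rw [setLIntegral_const, lg_vol_rect, mul_comm]
      _ ≤ _ := setLIntegral_mono' hrm h1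
  -- upper bound
  set Bd : Set ℝ := {x | ENNReal.ofReal Λ ≤ Sh.NN x k} with hBd
  have hBdm : MeasurableSet Bd := measurableSet_le measurable_const (Sh.measurable_NN hH k)
  have hmarkov : ENNReal.ofReal Λ * (volume.restrict (Icc (0 : ℝ) (2 * π))) Bd ≤ ENNReal.ofReal C :=
    (mul_meas_ge_le_lintegral (Sh.measurable_NN hH k) _).trans (hmean k hk hμ hE)
  have hBdvol : (volume.restrict (Icc (0 : ℝ) (2 * π))) Bd ≤ ENNReal.ofReal (ε / 4) := by
    have e : ENNReal.ofReal C = ENNReal.ofReal Λ * ENNReal.ofReal (ε / 4) := by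
      rw [← ENNReal.ofReal_mul hΛp.le]; congr 1; rw [hΛ]; field_simp
    rw [e] at hmarkov
    exact (ENNReal.mul_le_mul_iff_right (ENNReal.ofReal_pos.2 hΛp).ne' ENNReal.ofReal_ne_top).1 hmarkov
  have hup : ∫⁻ x in Icc (0 : ℝ) (2 * π), volume (Sh.lbad T x k ∩ s11rect)
      ≤ 2 * ENNReal.ofReal (ε / 4) + ENNReal.ofReal ε := by
    have h1 : ∀ x ∈ Icc (0 : ℝ) (2 * π), volume (Sh.lbad T x k ∩ s11rect)
        ≤ Bd.indicator (fun _ => (2 : ℝ≥0∞)) x + ENNReal.ofReal (ε / (2 * π)) := by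
      intro x hx
      by_cases hb : x ∈ Bd
      · rw [indicator_of_mem hb]
        refine le_add_right ?_
        rw [← lg_vol_rect]
        exact measure_mono inter_subset_right
      · rw [indicator_of_notMem hb, zero_add]
        exact (hcon x hx (not_le.1 hb).le).le
    refine (setLIntegral_mono' measurableSet_Icc h1).trans ?_
    rw [lintegral_add_right _ measurable_const, lintegral_indicator_const hBdm, setLIntegral_const, Real.volume_Icc,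
      ← ENNReal.ofReal_mul (by positivity)]
    refine add_le_add (mul_le_mul' le_rfl hBdvol) (ENNReal.ofReal_le_ofReal (le_of_eq ?_))
    field_simp
    ring
  have hfin := hlow.trans hup
  have e2 : (2 : ℝ≥0∞) = ENNReal.ofReal 2 := by simp
  rw [e2, ← ENNReal.ofReal_mul (by norm_num), ← ENNReal.ofReal_mul (by norm_num), ← ENNReal.ofReal_add (by positivity) hε.le,
    ENNReal.ofReal_le_ofReal_iff (by positivity)] at hfin
  linarith

/-! ### LF-S11h-1 (proofs): the envelope -/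

theorem mu_le (h : Sh.CritPoly) : ∃ C : ℝ, 0 < C ∧ ∀ l, Sh.s9k0 ≤ l → Sh.μ l ≤ C * (1 + l) := by
  have hH := h.fin
  have hHr := Sh.sb_Hr_pos hH
  obtain ⟨C, k₀, hk₀, hp⟩ := h.poly
  have hc : Sh.Hr - Real.exp (-k₀) < Sh.Hr := by linarith [Real.exp_pos (-k₀)]
  obtain ⟨Mf, hMf⟩ := Sh.sb_bdd_f hH hc
  obtain ⟨Mq, hMq⟩ := Sh.sb_bdd_q hH hc
  set B : ℝ := Real.sqrt (Mf ^ 2 + |Mq|) with hB
  have hB0 : 0 ≤ B := Real.sqrt_nonneg _
  refine ⟨|C| + B + 1, by positivity, fun l hl => ?_⟩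
  have hl1 : 1 ≤ l := le_trans (le_max_left _ _) hl
  rcases le_total k₀ l with hkl | hkl
  · have := (hp l hkl).1
    have h2 : C * (1 + l) ≤ |C| * (1 + l) := mul_le_mul_of_nonneg_right (le_abs_self C) (by linarith)
    nlinarith
  · -- compact range
    have hrow := Sh.lg_k0_row hH l hl
    have him : ∀ x : ℝ, |(⟨x, Sh.Hr - Real.exp (-l)⟩ : ℂ).im| ≤ Sh.Hr - Real.exp (-k₀) := by
      intro x
      have e1 : Real.exp (-k₀) ≤ Real.exp (-l) := Real.exp_le_exp.2 (by linarith)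
      show |Sh.Hr - Real.exp (-l)| ≤ _
      rw [abs_of_nonneg (by linarith)]
      linarith
    have hint : ∫ x in (0 : ℝ)..(2 * π), (‖Sh.f (⟨x, Sh.Hr - Real.exp (-l)⟩ : ℂ)‖ ^ 2 + ‖Sh.q (⟨x, Sh.Hr - Real.exp (-l)⟩ : ℂ)‖)
        ≤ (Mf ^ 2 + |Mq|) * (2 * π) := by
      have := intervalIntegral.norm_integral_le_of_norm_le_const (a := (0 : ℝ)) (b := 2 * π) (C := Mf ^ 2 + |Mq|)
        (f := fun x : ℝ => ‖Sh.f (⟨x, Sh.Hr - Real.exp (-l)⟩ : ℂ)‖ ^ 2 + ‖Sh.q (⟨x, Sh.Hr - Real.exp (-l)⟩ : ℂ)‖) (fun x _ => by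
          rw [Real.norm_of_nonneg (by positivity)]
          have a1 := hMf _ (him x)
          have a2 := hMq _ (him x)
          have a3 : ‖Sh.f (⟨x, Sh.Hr - Real.exp (-l)⟩ : ℂ)‖ ^ 2 ≤ Mf ^ 2 := pow_le_pow_left₀ (norm_nonneg _) a1 2
          linarith [le_abs_self Mq])
      rw [sub_zero, abs_of_pos Real.two_pi_pos] at this
      exact (le_abs_self _).trans this
    have hμ : Sh.μ l ≤ B := by
      unfold μ
      have e1 : Real.exp (-l) ≤ 1 := Real.exp_le_one_iff.2 (by linarith)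
      have e2 : Real.sqrt ((2 * π)⁻¹ * ∫ x in (0 : ℝ)..(2 * π), (‖Sh.f (⟨x, Sh.Hr - Real.exp (-l)⟩ : ℂ)‖ ^ 2
          + ‖Sh.q (⟨x, Sh.Hr - Real.exp (-l)⟩ : ℂ)‖)) ≤ B := by
        refine Real.sqrt_le_sqrt ?_
        calc (2 * π)⁻¹ * ∫ x in (0 : ℝ)..(2 * π), (‖Sh.f (⟨x, Sh.Hr - Real.exp (-l)⟩ : ℂ)‖ ^ 2
              + ‖Sh.q (⟨x, Sh.Hr - Real.exp (-l)⟩ : ℂ)‖) ≤ (2 * π)⁻¹ * ((Mf ^ 2 + |Mq|) * (2 * π)) :=
              mul_le_mul_of_nonneg_left hint (by positivity)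
          _ = Mf ^ 2 + |Mq| := by field_simp
      calc Real.exp (-l) * _ ≤ 1 * B := mul_le_mul e1 e2 (Real.sqrt_nonneg _) zero_le_one
        _ = B := one_mul B
    have : B ≤ B * (1 + l) := le_mul_of_one_le_right hB0 (by linarith)
    have h3 : 0 ≤ (|C| + 1) * (1 + l) := by positivity
    nlinarith

theorem lg_u_exp (u : ℝ) : u * Real.exp (-(u / 8)) ≤ 8 := by
  have h1 : u / 8 ≤ Real.exp (u / 8) := by linarith [Real.add_one_le_exp (u / 8)]
  have h2 : Real.exp (-(u / 8)) * Real.exp (u / 8) = 1 := by rw [← Real.exp_add]; simp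
  have h3 := Real.exp_pos (-(u / 8))
  nlinarith

theorem lg_u_exp2 (u : ℝ) (hu : 1 ≤ u) : (1 + 43 * u) * Real.exp (-(u / 8)) ≤ 5632 / u := by
  have h1 : 1 + u / 8 + (u / 8) ^ 2 / 2 ≤ Real.exp (u / 8) := Real.quadratic_le_exp_of_nonneg (by positivity)
  have h2 : Real.exp (-(u / 8)) * Real.exp (u / 8) = 1 := by rw [← Real.exp_add]; simp
  have h3 := Real.exp_pos (-(u / 8))
  have h4 : u ^ 2 / 128 ≤ Real.exp (u / 8) := by nlinarith
  have h5 : Real.exp (-(u / 8)) * (u ^ 2 / 128) ≤ 1 := by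
    calc Real.exp (-(u / 8)) * (u ^ 2 / 128) ≤ Real.exp (-(u / 8)) * Real.exp (u / 8) := mul_le_mul_of_nonneg_left h4 h3.le
      _ = 1 := h2
  rw [le_div_iff₀ (by linarith)]
  have h6 : (1 + 43 * u) * u ≤ 44 * u ^ 2 := by nlinarith
  calc (1 + 43 * u) * Real.exp (-(u / 8)) * u = Real.exp (-(u / 8)) * ((1 + 43 * u) * u) := by ring
    _ ≤ Real.exp (-(u / 8)) * (44 * u ^ 2) := mul_le_mul_of_nonneg_left h6 h3.le
    _ = 5632 * (Real.exp (-(u / 8)) * (u ^ 2 / 128)) := by ring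
    _ ≤ 5632 := by linarith

theorem exists_env (h : Sh.CritPoly) : ∃ K0 : ℝ, ∀ K, K0 ≤ K → ∀ j ∈ Icc (0.9 * K) (2.1 * K), K ^ ((1 : ℝ) / 100) ≤ Sh.μ j →
    ∃ k ∈ Icc (0.85 * K) (2.15 * K), K ^ ((1 : ℝ) / 100) / 2 ≤ Sh.μ k ∧ Sh.Env k := by
  obtain ⟨C, hC, hmu⟩ := Sh.mu_le h
  refine ⟨max (max 1 (Sh.s9k0 / 0.9)) (20 * (11264 * C + 1)), fun K hK j hj hμj => ?_⟩
  have hK1 : 1 ≤ K := le_trans (le_trans (le_max_left _ _) (le_max_left _ _)) hK
  have hKs : Sh.s9k0 / 0.9 ≤ K := le_trans (le_trans (le_max_right _ _) (le_max_left _ _)) hK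
  have hKC : 20 * (11264 * C + 1) ≤ K := le_trans (le_max_right _ _) hK
  rw [div_le_iff₀ (by norm_num)] at hKs
  have hjs : Sh.s9k0 ≤ j := by linarith [hj.1]
  have hK100 : 1 ≤ K ^ ((1 : ℝ) / 100) := Real.one_le_rpow hK1 (by norm_num)
  set Φ : ℝ → ℝ := fun l => Sh.μ l * Real.exp (-(|l - j| / 8)) with hΦ
  set S : Set ℝ := Φ '' Ici Sh.s9k0 with hS
  have hs1 : (1 : ℝ) ≤ Sh.s9k0 := le_max_left _ _
  have hΦle : ∀ l, Sh.s9k0 ≤ l → Φ l ≤ C * ((1 + j + |l - j|) * Real.exp (-(|l - j| / 8))) := by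
    intro l hl
    have a1 := hmu l hl
    have a2 : l ≤ j + |l - j| := by linarith [le_abs_self (l - j)]
    have a3 := Real.exp_pos (-(|l - j| / 8))
    calc Φ l ≤ (C * (1 + l)) * Real.exp (-(|l - j| / 8)) := mul_le_mul_of_nonneg_right a1 a3.le
      _ ≤ (C * (1 + j + |l - j|)) * Real.exp (-(|l - j| / 8)) :=
          mul_le_mul_of_nonneg_right (mul_le_mul_of_nonneg_left (by linarith) hC.le) a3.le
      _ = _ := by ring
  have hbdd : BddAbove S := by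
    refine ⟨C * ((1 + j) + 8), ?_⟩
    rintro _ ⟨l, hl, rfl⟩
    refine (hΦle l hl).trans (mul_le_mul_of_nonneg_left ?_ hC.le)
    have a1 := lg_u_exp |l - j|
    have a2 : Real.exp (-(|l - j| / 8)) ≤ 1 := Real.exp_le_one_iff.2 (by have := abs_nonneg (l - j); linarith)
    have a3 : 0 ≤ 1 + j := by linarith
    nlinarith
  have hjS : Φ j ∈ S := mem_image_of_mem _ hjs
  have hΦj : Φ j = Sh.μ j := by simp [hΦ]
  have hsup : K ^ ((1 : ℝ) / 100) ≤ sSup S := by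
    calc K ^ ((1 : ℝ) / 100) ≤ Φ j := by rw [hΦj]; exact hμj
      _ ≤ sSup S := le_csSup hbdd hjS
  have hsup0 : 0 < sSup S := by linarith
  obtain ⟨_, ⟨k, hk, rfl⟩, hkS⟩ := exists_lt_of_lt_csSup ⟨_, hjS⟩ (show sSup S / 2 < sSup S by linarith)
  have hk : Sh.s9k0 ≤ k := hk
  have hek : Real.exp (-(|k - j| / 8)) ≤ 1 := Real.exp_le_one_iff.2 (by have := abs_nonneg (k - j); linarith)
  have hμk0 := Sh.lg_mu_nonneg k
  have hμk : K ^ ((1 : ℝ) / 100) / 2 ≤ Sh.μ k := by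
    have : Φ k ≤ Sh.μ k := by
      simp only [hΦ]; exact mul_le_of_le_one_right hμk0 hek
    linarith
  refine ⟨k, ?_, hμk, ?_⟩
  · -- localisation
    have hclose : |k - j| ≤ 0.05 * K := by
      by_contra hcon
      push Not at hcon
      set u : ℝ := |k - j| with hu
      have hu1 : 1 ≤ u := by nlinarith
      have a1 := hΦle k hk
      have a2 : (1 + j + u) ≤ 1 + 43 * u := by linarith [hj.2]
      have a3 := lg_u_exp2 u hu1
      have a4 : Φ k ≤ C * (5632 / u) := by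
        refine a1.trans (mul_le_mul_of_nonneg_left ?_ hC.le)
        exact (mul_le_mul_of_nonneg_right a2 (Real.exp_pos _).le).trans a3
      have a5 : C * (5632 / u) < 1 / 2 := by
        rw [mul_div_assoc', div_lt_iff₀ (by linarith)]
        nlinarith
      linarith
    rw [abs_le] at hclose
    exact ⟨by linarith [hj.1, hclose.1], by linarith [hj.2, hclose.2]⟩
  · intro l hl
    have b1 : Φ l ≤ sSup S := le_csSup hbdd (mem_image_of_mem _ hl)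
    have b2 : Φ l ≤ 2 * Φ k := by linarith
    simp only [hΦ] at b2
    have b3 : |l - j| ≤ |l - k| + |k - j| := by
      have := abs_add_le (l - k) (k - j); simpa using this
    have b4 : Sh.μ l = Sh.μ l * Real.exp (-(|l - j| / 8)) * Real.exp (|l - j| / 8) := by
      rw [mul_assoc, ← Real.exp_add]; simp
    rw [b4]
    calc Sh.μ l * Real.exp (-(|l - j| / 8)) * Real.exp (|l - j| / 8)
        ≤ 2 * (Sh.μ k * Real.exp (-(|k - j| / 8))) * Real.exp (|l - j| / 8) := mul_le_mul_of_nonneg_right b2 (Real.exp_pos _).le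
      _ = 2 * Sh.μ k * Real.exp (-(|k - j| / 8) + |l - j| / 8) := by rw [Real.exp_add]; ring
      _ ≤ 2 * Sh.μ k * Real.exp (1 / 8 * |l - k|) := by
          refine mul_le_mul_of_nonneg_left (Real.exp_le_exp.2 (by linarith)) (by positivity)

/-! ### LF-S11h-3: limits of typical profiles -/

/-- local uniform bound of the typical profiles -/
theorem lg_local_bound (hH : Sh.H ≠ ⊤) (Λ : ℝ) (z : ℂ) (hz : z.im < 0) : ∃ B : ℝ, 0 ≤ B ∧ ∀ x k : ℝ, 0 < Sh.μ k →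
    Sh.NN x k ≤ ENNReal.ofReal Λ → 9 / 4 * -z.im ≤ Real.exp (k - Sh.s9k0) → ∀ w ∈ closedBall z (-z.im / 2),
    (w.im < 0 ∧ -w.im < Real.exp (k - Sh.s9k0)) ∧ ‖Sh.pF x k w‖ ^ 2 + ‖Sh.pQ x k w‖ ≤ B := by
  obtain ⟨C, hC, hb⟩ := Sh.prof_bound hH
  have hW := lg_wt_pos z hz
  have hD : 0 < -z.im := by linarith
  refine ⟨C * max Λ 0 / ((-z.im) ^ 2 / 4 * (s11wt z / 64)), by positivity, fun x k hμ hN hk w hw => ?_⟩
  obtain ⟨_, hlo, hhi⟩ := lg_disc z w hw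
  have hw0 : w.im < 0 := by linarith
  refine ⟨⟨hw0, by linarith⟩, ?_⟩
  have h1 := hb x k (max Λ 0) hμ (le_max_right _ _) (hN.trans (ENNReal.ofReal_le_ofReal (le_max_left _ _))) w hw0 (by linarith)
  refine h1.trans ?_
  have h2 := lg_wt_ge z w hz hw
  have h3 : (-z.im) ^ 2 / 4 ≤ w.im ^ 2 := by nlinarith
  exact div_le_div_of_nonneg_left (by positivity) (by positivity) (mul_le_mul h3 h2 (by positivity) (by positivity))

theorem lg_ev_exp (k : ℕ → ℝ) (hk : Tendsto k atTop atTop) (a : ℝ) : ∀ᶠ n in atTop, a ≤ Real.exp (k n - Sh.s9k0) :=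
  (Real.tendsto_exp_atTop.comp (tendsto_atTop_add_const_right _ (-Sh.s9k0) hk)).eventually_ge_atTop a

theorem montel_prof (hH : Sh.H ≠ ⊤) (k x : ℕ → ℝ) (Λ : ℝ) (hk : Tendsto k atTop atTop) (hμ : ∀ n, 0 < Sh.μ (k n))
    (hN : ∀ n, Sh.NN (x n) (k n) ≤ ENNReal.ofReal Λ) :
    ∃ (φ : ℕ → ℕ) (F Q : ℂ → ℂ), StrictMono φ ∧ DifferentiableOn ℂ F s11LH ∧ DifferentiableOn ℂ Q s11LH ∧
      TendstoLocallyUniformlyOn (fun n => Sh.pF (x (φ n)) (k (φ n))) F atTop s11LH ∧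
      TendstoLocallyUniformlyOn (fun n => Sh.pQ (x (φ n)) (k (φ n))) Q atTop s11LH := by
  have key : ∀ (k x : ℕ → ℝ), Tendsto k atTop atTop → (∀ n, 0 < Sh.μ (k n)) → (∀ n, Sh.NN (x n) (k n) ≤ ENNReal.ofReal Λ) →
      ∀ z ∈ s11LH, ∃ r > 0, ∃ B : ℝ, 0 ≤ B ∧ ∀ᶠ n in atTop,
        (DifferentiableOn ℂ (Sh.pF (x n) (k n)) (ball z r) ∧ DifferentiableOn ℂ (Sh.pQ (x n) (k n)) (ball z r)) ∧
        ∀ w ∈ ball z r, ‖Sh.pF (x n) (k n) w‖ ^ 2 + ‖Sh.pQ (x n) (k n) w‖ ≤ B := by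
    intro k x hk hμ hN z hz
    have hz : z.im < 0 := hz
    obtain ⟨B, hB, hb⟩ := Sh.lg_local_bound hH Λ z hz
    refine ⟨-z.im / 2, by linarith, B, hB, ?_⟩
    filter_upwards [Sh.lg_ev_exp k hk (9 / 4 * -z.im)] with n hn
    have h1 := hb (x n) (k n) (hμ n) (hN n) hn
    refine ⟨⟨?_, ?_⟩, fun w hw => (h1 w (ball_subset_closedBall hw)).2⟩
    · exact (Sh.prof_diff hH (x n) (k n)).1.mono fun w hw => (h1 w (ball_subset_closedBall hw)).1
    · exact (Sh.prof_diff hH (x n) (k n)).2.mono fun w hw => (h1 w (ball_subset_closedBall hw)).1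
  obtain ⟨φ₁, F, hφ₁, hFd, hF⟩ := s9_montel s11LH lg_isOpen_LH (fun n => Sh.pF (x n) (k n)) (by
    intro z hz
    obtain ⟨r, hr, B, hB, h⟩ := key k x hk hμ hN z hz
    refine ⟨r, hr, Real.sqrt B, h.mono fun n hn => ⟨hn.1.1, fun w hw => ?_⟩⟩
    refine Real.le_sqrt_of_sq_le ?_
    have := hn.2 w hw
    linarith [norm_nonneg (Sh.pQ (x n) (k n) w)])
  obtain ⟨φ₂, Q, hφ₂, hQd, hQ⟩ := s9_montel s11LH lg_isOpen_LH (fun n => Sh.pQ (x (φ₁ n)) (k (φ₁ n))) (by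
    intro z hz
    obtain ⟨r, hr, B, hB, h⟩ := key (fun n => k (φ₁ n)) (fun n => x (φ₁ n)) (hk.comp hφ₁.tendsto_atTop) (fun n => hμ _)
      (fun n => hN _) z hz
    refine ⟨r, hr, B, h.mono fun n hn => ⟨hn.1.2, fun w hw => ?_⟩⟩
    have := hn.2 w hw
    nlinarith [sq_nonneg ‖Sh.pF (x (φ₁ n)) (k (φ₁ n)) w‖])
  exact ⟨φ₁ ∘ φ₂, F, Q, hφ₁.comp hφ₂, hFd, hQd, lg_tlu_subseq hF φ₂ hφ₂, hQ⟩

/-- the open domain of the profiles -/
def lgU (R : ℝ) : Set ℂ := {W : ℂ | W.im < 0 ∧ -W.im < R}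

omit Sh in
theorem lg_isOpen_U (R : ℝ) : IsOpen (lgU R) :=
  (isOpen_lt Complex.continuous_im continuous_const).inter (isOpen_lt Complex.continuous_im.neg continuous_const)

/-- the profile equation `F'' = μ² Q F` -/
theorem lg_prof_ode (hH : Sh.H ≠ ⊤) (x k : ℝ) (hμ : Sh.μ k ≠ 0) (Z : ℂ) (hZ : Z ∈ lgU (Real.exp (k - Sh.s9k0))) :
    deriv (deriv (Sh.pF x k)) Z = (Sh.μ k : ℂ) ^ 2 * Sh.pQ x k Z * Sh.pF x k Z := by
  set c : ℂ := ((Real.exp (-k) / Sh.μ k : ℝ) : ℂ) with hc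
  set d : ℂ := ((Real.exp (-k) : ℝ) : ℂ) with hd
  set A : ℂ → ℂ := fun W => (x : ℂ) + Sh.Hr * I + d * W with hA
  have hAd : ∀ W, HasDerivAt A d W := by
    intro W
    have := ((hasDerivAt_id W).const_mul d).const_add ((x : ℂ) + Sh.Hr * I)
    simpa [hA] using this
  have hmem : ∀ W ∈ lgU (Real.exp (k - Sh.s9k0)), A W ∈ Sh.D := fun W hW => Sh.lg_pt_mem hH x k W hW.1 hW.2.le
  have h1 : ∀ W ∈ lgU (Real.exp (k - Sh.s9k0)), HasDerivAt (Sh.pF x k) (c * (deriv Sh.f (A W) * d)) W := by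
    intro W hW
    exact ((Sh.sb_f_at (hmem W hW)).hasDerivAt.comp W (hAd W)).const_mul c
  have h2 : deriv (Sh.pF x k) =ᶠ[𝓝 Z] fun W => c * (deriv Sh.f (A W) * d) := by
    filter_upwards [(lg_isOpen_U _).mem_nhds hZ] with W hW
    exact (h1 W hW).deriv
  have hf' : DifferentiableAt ℂ (deriv Sh.f) (A Z) :=
    Sh.sb_f'_diff.differentiableAt (Sh.sb_D_mem_nhds (hmem Z hZ))
  have h3 : HasDerivAt (fun W => c * (deriv Sh.f (A W) * d)) (c * (deriv (deriv Sh.f) (A Z) * d * d)) Z :=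
    ((hf'.hasDerivAt.comp Z (hAd Z)).mul_const d).const_mul c
  rw [h2.deriv_eq, h3.deriv, Sh.f_ode _ (hmem Z hZ)]
  have e1 : Sh.pF x k Z = c * Sh.f (A Z) := rfl
  have e2 : Sh.pQ x k Z = (((Real.exp (-k) / Sh.μ k) ^ 2 : ℝ) : ℂ) * Sh.q (A Z) := rfl
  rw [e1, e2]
  have e3 : (Sh.μ k : ℂ) ^ 2 * (((Real.exp (-k) / Sh.μ k) ^ 2 : ℝ) : ℂ) = d * d := by
    rw [hd]
    have hμ' : (Sh.μ k : ℂ) ≠ 0 := by exact_mod_cast hμ
    push_cast
    field_simp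
  calc c * (Sh.q (A Z) * Sh.f (A Z) * d * d) = (d * d) * Sh.q (A Z) * (c * Sh.f (A Z)) := by ring
    _ = _ := by rw [← e3]; ring

theorem pure_limit (hH : Sh.H ≠ ⊤) (k x : ℕ → ℝ) (F Q : ℂ → ℂ) (hk : Tendsto k atTop atTop)
    (hμ : Tendsto (fun n => Sh.μ (k n)) atTop atTop) (hFd : DifferentiableOn ℂ F s11LH) (hQd : DifferentiableOn ℂ Q s11LH)
    (hF : TendstoLocallyUniformlyOn (fun n => Sh.pF (x n) (k n)) F atTop s11LH)
    (hQ : TendstoLocallyUniformlyOn (fun n => Sh.pQ (x n) (k n)) Q atTop s11LH) :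
    (∀ Z ∈ s11LH, F Z = 0) ∨ (∀ Z ∈ s11LH, Q Z = 0) := by
  have hprod : ∀ Z ∈ s11LH, Q Z * F Z = 0 := by
    intro Z hZ
    have hZ' : Z.im < 0 := hZ
    set R : ℝ := -Z.im + 1 with hR
    have hZU : Z ∈ lgU R := ⟨hZ', by rw [hR]; linarith⟩
    have hsub : lgU R ⊆ s11LH := fun W hW => hW.1
    have hev : ∀ᶠ n in atTop, R ≤ Real.exp (k n - Sh.s9k0) := Sh.lg_ev_exp k hk R
    have hd0 : ∀ᶠ n in atTop, DifferentiableOn ℂ (Sh.pF (x n) (k n)) (lgU R) :=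
      hev.mono fun n hn => (Sh.prof_diff hH (x n) (k n)).1.mono fun W hW => ⟨hW.1, lt_of_lt_of_le hW.2 hn⟩
    have t1 := (hF.mono hsub).deriv hd0 (lg_isOpen_U R)
    have hd1 : ∀ᶠ n in atTop, DifferentiableOn ℂ ((deriv ∘ fun n => Sh.pF (x n) (k n)) n) (lgU R) :=
      hd0.mono fun n hn => hn.deriv (lg_isOpen_U R)
    have t2 := t1.deriv hd1 (lg_isOpen_U R)
    have l2 := t2.tendsto_at hZU
    have lF := hF.tendsto_at hZ
    have lQ := hQ.tendsto_at hZ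
    have hinv : Tendsto (fun n => (((Sh.μ (k n)) ^ 2)⁻¹ : ℝ)) atTop (𝓝 0) :=
      tendsto_inv_atTop_zero.comp ((tendsto_pow_atTop (by norm_num)).comp hμ)
    have hinvC : Tendsto (fun n => ((((Sh.μ (k n)) ^ 2)⁻¹ : ℝ) : ℂ)) atTop (𝓝 0) := by
      have := (Complex.continuous_ofReal.tendsto 0).comp hinv
      rw [Complex.ofReal_zero] at this
      exact this
    have l3 := l2.mul hinvC
    rw [mul_zero] at l3
    have l4 : Tendsto (fun n => Sh.pQ (x n) (k n) Z * Sh.pF (x n) (k n) Z) atTop (𝓝 0) := by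
      refine l3.congr' ?_
      filter_upwards [hev, hμ.eventually_gt_atTop 0] with n hn hμn
      have := Sh.lg_prof_ode hH (x n) (k n) hμn.ne' Z ⟨hZ', lt_of_lt_of_le hZU.2 hn⟩
      simp only [Function.comp]
      rw [this]
      have hμ' : (Sh.μ (k n) : ℂ) ≠ 0 := by exact_mod_cast hμn.ne'
      push_cast
      field_simp
    exact tendsto_nhds_unique (lQ.mul lF) l4
  by_cases hF0 : ∀ Z ∈ s11LH, F Z = 0
  · exact Or.inl hF0
  right
  push Not at hF0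
  obtain ⟨Z₀, hZ₀, hne⟩ := hF0
  have hQa : AnalyticOnNhd ℂ Q s11LH := hQd.analyticOnNhd lg_isOpen_LH
  have hpre : IsPreconnected s11LH := (convex_halfSpace_im_lt 0).isPreconnected
  have hFc : ContinuousAt F Z₀ := (hFd.differentiableAt (lg_isOpen_LH.mem_nhds hZ₀)).continuousAt
  have hev : Q =ᶠ[𝓝 Z₀] 0 := by
    filter_upwards [hFc.eventually_ne hne, lg_isOpen_LH.mem_nhds hZ₀] with W hW hWL
    have := hprod W hWL
    rcases mul_eq_zero.1 this with h | h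
    · exact h
    · exact absurd h hW
  exact fun Z hZ => hQa.eqOn_zero_of_preconnected_of_eventuallyEq_zero hpre hZ₀ hev hZ

omit Sh in
/-- the weight far from the boundary in a cone -/
theorem lg_wt_cone (Z : ℂ) (L : ℝ) (hD : 1 ≤ -Z.im) (hX : |Z.re| ≤ L * -Z.im) :
    (-Z.im) ^ ((3 : ℝ) / 2) / (1 + L ^ 2) ≤ Z.im ^ 2 * s11wt Z := by
  set D : ℝ := -Z.im with hDd
  have hDp : 0 < D := by linarith
  have h1 : D ^ (-(1 / 2 : ℝ)) ≤ 1 := Real.rpow_le_one_of_one_le_of_nonpos hD (by norm_num)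
  have h2 : (1 : ℝ) ≤ D ^ 3 := one_le_pow₀ hD
  have hmin : min (D ^ 3) (D ^ (-(1 / 2 : ℝ))) = D ^ (-(1 / 2 : ℝ)) := min_eq_right (h1.trans h2)
  have hq : (Z.re / Z.im) ^ 2 ≤ L ^ 2 := by
    have e : (Z.re / Z.im) ^ 2 = (|Z.re| / D) ^ 2 := by
      rw [hDd, div_pow, div_pow, sq_abs, neg_sq]
    rw [e]
    have : |Z.re| / D ≤ L := by rw [div_le_iff₀ hDp]; exact hX
    exact pow_le_pow_left₀ (by positivity) this 2
  unfold s11wt
  rw [← hDd, hmin]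
  have e2 : Z.im ^ 2 = D ^ 2 := by rw [hDd]; ring
  have e3 : D ^ 2 * D ^ (-(1 / 2 : ℝ)) = D ^ ((3 : ℝ) / 2) := by
    rw [← Real.rpow_natCast D 2, ← Real.rpow_add hDp]; norm_num
  rw [e2, ← mul_div_assoc, e3]
  exact div_le_div_of_nonneg_left (Real.rpow_nonneg hDp.le _) (by positivity) (by linarith)

theorem Q_nonconst (hH : Sh.H ≠ ⊤) (k x : ℕ → ℝ) (Q : ℂ → ℂ) (Λ : ℝ) (hk : Tendsto k atTop atTop) (hμ : ∀ n, 0 < Sh.μ (k n))
    (hN : ∀ n, Sh.NN (x n) (k n) ≤ ENNReal.ofReal Λ)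
    (hQ : TendstoLocallyUniformlyOn (fun n => Sh.pQ (x n) (k n)) Q atTop s11LH) (hne : ∃ Z ∈ s11LH, Q Z ≠ 0) :
    ∃ Z Z' : ℂ, Z.im < 0 ∧ Z'.im < 0 ∧ Q Z ≠ Q Z' := by
  by_contra hcon
  push Not at hcon
  obtain ⟨Z₀, hZ₀, hc⟩ := hne
  obtain ⟨C, hC, hb⟩ := Sh.prof_bound hH
  have hcpos : 0 < ‖Q Z₀‖ := norm_pos_iff.2 hc
  set Λp : ℝ := max Λ 0 with hΛp
  have hΛ0 : 0 ≤ Λp := le_max_right _ _
  set D : ℝ := max 1 (C * Λp / ‖Q Z₀‖ + 1) with hD
  have hD1 : 1 ≤ D := le_max_left _ _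
  have hDp : 0 < D := by linarith
  set Z : ℂ := ⟨0, -D⟩ with hZ
  have hZim : Z.im = -D := rfl
  have hZre : Z.re = 0 := rfl
  have hZL : Z ∈ s11LH := by show Z.im < 0; rw [hZim]; linarith
  have hlim := (hQ.tendsto_at hZL).norm
  have hwt := lg_wt_cone Z 0 (by rw [hZim]; linarith) (by rw [hZre]; simp)
  have hbound : ‖Q Z‖ ≤ C * Λp / D := by
    refine le_of_tendsto hlim ?_
    filter_upwards [Sh.lg_ev_exp k hk (3 / 2 * D)] with n hn
    have h1 := hb (x n) (k n) Λp (hμ n) hΛ0 ((hN n).trans (ENNReal.ofReal_le_ofReal (le_max_left _ _))) Z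
      (by rw [hZim]; linarith) (by rw [hZim]; linarith)
    have h2 : ‖Sh.pQ (x n) (k n) Z‖ ≤ C * Λp / (Z.im ^ 2 * s11wt Z) := by
      nlinarith [sq_nonneg ‖Sh.pF (x n) (k n) Z‖]
    refine h2.trans (div_le_div_of_nonneg_left (by positivity) hDp ?_)
    refine le_trans ?_ hwt
    rw [hZim, neg_neg]
    have : D ^ (1 : ℝ) ≤ D ^ ((3 : ℝ) / 2) := Real.rpow_le_rpow_of_exponent_le hD1 (by norm_num)
    rw [Real.rpow_one] at this
    simpa using this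
  have heq : Q Z = Q Z₀ := hcon Z Z₀ hZL hZ₀
  rw [heq] at hbound
  have h3 : C * Λp / ‖Q Z₀‖ + 1 ≤ D := le_max_right _ _
  have h4 : C * Λp / D < ‖Q Z₀‖ := by
    rw [div_lt_iff₀ hDp]
    have : C * Λp / ‖Q Z₀‖ < D := by linarith
    rw [div_lt_iff₀ hcpos] at this
    linarith
  linarith

/-- `e^{-k} M(s)/μ(k) = max(|F Z|, √|Q Z|)` -/
theorem lg_M_prof (x k : ℝ) (hμ : 0 < Sh.μ k) (Z : ℂ) :
    Real.exp (-k) * Sh.M ((x : ℂ) + Sh.Hr * I + (Real.exp (-k) : ℝ) * Z) / Sh.μ k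
      = max ‖Sh.pF x k Z‖ (Real.sqrt ‖Sh.pQ x k Z‖) := by
  have hc : 0 < Real.exp (-k) / Sh.μ k := div_pos (Real.exp_pos _) hμ
  simp only [pF, pQ, profF, profQ, M, norm_mul, Complex.norm_real, Real.norm_eq_abs]
  rw [abs_of_pos hc, abs_of_pos (by positivity), Real.sqrt_mul (by positivity), Real.sqrt_sq hc.le,
    ← mul_max_of_nonneg _ _ hc.le]
  ring

theorem not_both (h : Sh.CritPoly) (k x : ℕ → ℝ) (Λ : ℝ) (hk : Tendsto k atTop atTop)
    (hμ : Tendsto (fun n => Sh.μ (k n)) atTop atTop) (hE : ∀ n, Sh.Env (k n))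
    (hN : ∀ n, Sh.NN (x n) (k n) ≤ ENNReal.ofReal Λ)
    (hF : TendstoLocallyUniformlyOn (fun n => Sh.pF (x n) (k n)) (fun _ => 0) atTop s11LH)
    (hQ : TendstoLocallyUniformlyOn (fun n => Sh.pQ (x n) (k n)) (fun _ => 0) atTop s11LH) : False := by
  have hH := h.fin
  have hHr := Sh.sb_Hr_pos hH
  set δb : ℝ := Real.exp (-Sh.s9k0) / 2 with hδb
  have hδ0 : 0 < δb := by positivity
  have hδ1 : δb < Sh.Hr / 2 := by
    have := Sh.lg_k0_row hH Sh.s9k0 le_rfl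
    rw [hδb]; linarith
  obtain ⟨L, hL, hcone⟩ := Sh.s9i_no_quiet_cone hH h.crit (5 / 8) (1 / 8) (1 / 8) 2 δb (by norm_num) (by norm_num) (by norm_num)
    (by norm_num) (by norm_num) hδ0 hδ1
  obtain ⟨C, hC, hb⟩ := Sh.prof_bound hH
  set Λp : ℝ := max Λ 0 with hΛp
  have hΛ0 : 0 ≤ Λp := le_max_right _ _
  refine hcone k x hk hμ (Eventually.of_forall fun n l hl => ?_) ?_
  · have := hE n l hl
    unfold s9env
    refine this.trans (le_of_eq ?_)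
    congr 2
    rcases le_total l (k n) with hle | hle
    · rw [max_eq_left (by linarith), max_eq_right (by linarith), abs_of_nonpos (by linarith)]; ring
    · rw [max_eq_right (by linarith), max_eq_left (by linarith), abs_of_nonneg (by linarith)]; ring
  intro c hc η hη
  set A2 : ℝ := C * Λp * (1 + L ^ 2) with hA2
  have hA20 : 0 ≤ A2 := by positivity
  set R₀ : ℝ := max (max 1 c) ((A2 / η ^ 2) ^ 4) with hR₀
  have hR1 : 1 ≤ R₀ := le_trans (le_max_left _ _) (le_max_left _ _)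
  have hRp : 0 < R₀ := by linarith
  -- the compact set
  set Kc : Set ℂ := Icc (-(L * R₀)) (L * R₀) ×ℂ Icc (-R₀) (-c) with hKc
  have hKcc : IsCompact Kc := isCompact_Icc.reProdIm isCompact_Icc
  have hKsub : Kc ⊆ s11LH := by
    intro Z hZ
    have : Z.im ≤ -c := (Complex.mem_reProdIm.1 hZ).2.2
    show Z.im < 0
    linarith
  set ε₁ : ℝ := η / R₀ ^ ((5 : ℝ) / 8) with hε₁
  have hRr : 0 < R₀ ^ ((5 : ℝ) / 8) := Real.rpow_pos_of_pos hRp _
  have hε₁p : 0 < ε₁ := by positivity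
  have uF := Metric.tendstoUniformlyOn_iff.1 ((tendstoLocallyUniformlyOn_iff_forall_isCompact lg_isOpen_LH).1 hF Kc hKsub hKcc)
    ε₁ hε₁p
  have uQ := Metric.tendstoUniformlyOn_iff.1 ((tendstoLocallyUniformlyOn_iff_forall_isCompact lg_isOpen_LH).1 hQ Kc hKsub hKcc)
    (ε₁ ^ 2) (by positivity)
  filter_upwards [uF, uQ, hμ.eventually_gt_atTop 0] with n hnF hnQ hμn s hs
  obtain ⟨hs1, hs2, hs3⟩ := hs
  set d : ℝ := Real.exp (-k n) with hd
  have hdp : 0 < d := Real.exp_pos _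
  set D : ℝ := Sh.s9dep s / d with hD
  have hdep : Sh.s9dep s = D * d := by rw [hD]; field_simp
  have hcD : c ≤ D := by rw [hD, le_div_iff₀ hdp]; exact hs1
  have hDp : 0 < D := by linarith
  set Z : ℂ := ⟨(s.re - x n) / d, -D⟩ with hZ
  have hZim : Z.im = -D := rfl
  have hZre : Z.re = (s.re - x n) / d := rfl
  have hpt : (x n : ℂ) + Sh.Hr * I + (Real.exp (-k n) : ℝ) * Z = s := by
    rw [Sh.lg_pt, hZim, hZre, ← hd]
    apply Complex.ext
    · simp only [up]; field_simp; ring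
    · simp only [up, neg_neg]
      have : d * D = Sh.s9dep s := by rw [hdep]; ring
      rw [this]; unfold s9dep; ring
  have hM := Sh.lg_M_prof (x n) (k n) hμn Z
  rw [hpt] at hM
  rw [hM]
  have hXL : |Z.re| ≤ L * D := by
    rw [hZre, abs_div, abs_of_pos hdp, div_le_iff₀ hdp, mul_assoc, ← hdep]; exact hs3
  set m : ℝ := max ‖Sh.pF (x n) (k n) Z‖ (Real.sqrt ‖Sh.pQ (x n) (k n) Z‖) with hm
  have hm0 : 0 ≤ m := le_max_of_le_left (norm_nonneg _)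
  have hDr : 0 < D ^ ((5 : ℝ) / 8) := Real.rpow_pos_of_pos hDp _
  rcases le_total D R₀ with hDR | hDR
  · -- compact part
    have hZK : Z ∈ Kc := by
      rw [hKc, Complex.mem_reProdIm]
      have h1 : |Z.re| ≤ L * R₀ := hXL.trans (mul_le_mul_of_nonneg_left hDR hL.le)
      rw [abs_le] at h1
      exact ⟨⟨h1.1, h1.2⟩, ⟨by rw [hZim]; linarith, by rw [hZim]; linarith⟩⟩
    have f1 := hnF Z hZK
    have q1 := hnQ Z hZK
    rw [dist_zero_left] at f1 q1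
    have hmle : m ≤ ε₁ := by
      refine max_le f1.le ?_
      rw [Real.sqrt_le_left hε₁p.le]; exact q1.le
    calc m * D ^ ((5 : ℝ) / 8) ≤ ε₁ * R₀ ^ ((5 : ℝ) / 8) :=
          mul_le_mul hmle (Real.rpow_le_rpow hDp.le hDR (by norm_num)) hDr.le hε₁p.le
      _ = η := by rw [hε₁]; field_simp
  · -- far part
    have hD1 : 1 ≤ D := hR1.trans hDR
    have hexp : 3 / 2 * D ≤ Real.exp (k n - Sh.s9k0) := by
      have : D * d ≤ Real.exp (-Sh.s9k0) / 2 := by rw [← hdep]; exact hs2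
      have e : Real.exp (k n - Sh.s9k0) = Real.exp (-Sh.s9k0) / d := by
        rw [hd, sub_eq_add_neg, add_comm, Real.exp_add, Real.exp_neg (k n)]; field_simp
      rw [e, le_div_iff₀ hdp]
      have := Real.exp_pos (-Sh.s9k0)
      nlinarith
    have h1 := hb (x n) (k n) Λp hμn hΛ0 ((hN n).trans (ENNReal.ofReal_le_ofReal (le_max_left _ _))) Z
      (by rw [hZim]; linarith) (by rw [hZim, neg_neg]; exact hexp)
    have hwt := lg_wt_cone Z L (by rw [hZim, neg_neg]; exact hD1) (by rw [hZim, neg_neg]; exact hXL)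
    rw [hZim, neg_neg] at hwt
    have hD32 : 0 < D ^ ((3 : ℝ) / 2) := Real.rpow_pos_of_pos hDp _
    have h2 : ‖Sh.pF (x n) (k n) Z‖ ^ 2 + ‖Sh.pQ (x n) (k n) Z‖ ≤ A2 / D ^ ((3 : ℝ) / 2) := by
      refine h1.trans ?_
      have : C * Λp / (Z.im ^ 2 * s11wt Z) ≤ C * Λp / (D ^ ((3 : ℝ) / 2) / (1 + L ^ 2)) :=
        div_le_div_of_nonneg_left (by positivity) (by positivity) hwt
      refine this.trans (le_of_eq ?_)
      rw [hA2]; field_simp
    have hm2 : m ^ 2 ≤ A2 / D ^ ((3 : ℝ) / 2) := by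
      rcases le_total ‖Sh.pF (x n) (k n) Z‖ (Real.sqrt ‖Sh.pQ (x n) (k n) Z‖) with hle | hle
      · rw [hm, max_eq_right hle, Real.sq_sqrt (norm_nonneg _)]
        nlinarith [sq_nonneg ‖Sh.pF (x n) (k n) Z‖]
      · rw [hm, max_eq_left hle]
        linarith [norm_nonneg (Sh.pQ (x n) (k n) Z)]
    have hD14 : A2 / η ^ 2 ≤ D ^ ((1 : ℝ) / 4) := by
      have a1 : (A2 / η ^ 2) ^ 4 ≤ D := (le_max_right _ _).trans hDR
      have a2 : ((A2 / η ^ 2) ^ 4) ^ ((1 : ℝ) / 4) ≤ D ^ ((1 : ℝ) / 4) := Real.rpow_le_rpow (by positivity) a1 (by norm_num)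
      have a3 : ((A2 / η ^ 2) ^ 4) ^ ((1 : ℝ) / 4) = A2 / η ^ 2 := by
        rw [← Real.rpow_natCast, ← Real.rpow_mul (by positivity)]; norm_num
      rwa [a3] at a2
    have hsq : (m * D ^ ((5 : ℝ) / 8)) ^ 2 ≤ η ^ 2 := by
      have e1 : (D ^ ((5 : ℝ) / 8)) ^ 2 = D ^ ((5 : ℝ) / 4) := by
        rw [← Real.rpow_natCast, ← Real.rpow_mul hDp.le]; norm_num
      have e2 : D ^ ((3 : ℝ) / 2) = D ^ ((5 : ℝ) / 4) * D ^ ((1 : ℝ) / 4) := by
        rw [← Real.rpow_add hDp]; norm_num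
      have hD54 : 0 < D ^ ((5 : ℝ) / 4) := Real.rpow_pos_of_pos hDp _
      have hD14p : 0 < D ^ ((1 : ℝ) / 4) := Real.rpow_pos_of_pos hDp _
      rw [mul_pow, e1]
      calc m ^ 2 * D ^ ((5 : ℝ) / 4) ≤ A2 / D ^ ((3 : ℝ) / 2) * D ^ ((5 : ℝ) / 4) := mul_le_mul_of_nonneg_right hm2 hD54.le
        _ = A2 / D ^ ((1 : ℝ) / 4) := by rw [e2]; field_simp
        _ ≤ η ^ 2 := by
            rw [div_le_iff₀ hD14p]
            rw [div_le_iff₀ (by positivity)] at hD14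
            linarith
    exact (pow_le_pow_iff_left₀ (by positivity) hη.le two_ne_zero).1 hsq

/-! ### LF-S11h-4: the deterministic criterion, case `F ≢ 0` -/

/-- the point of the local chart -/
theorem lg_pt_ch (x k : ℝ) (p : ℝ × ℝ) : (x : ℂ) + Sh.Hr * I + (Real.exp (-k) : ℝ) * LS.ch p
    = Sh.up (x + Real.exp (-k) * p.1) (Real.exp (-(k + p.2))) := by
  rw [Sh.lg_pt]
  simp only [LS.ch, neg_neg]
  rw [← Real.exp_add]
  congr 2
  ring

theorem lg_mem_lbad (T x k : ℝ) (p : ℝ × ℝ) :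
    p ∈ Sh.lbad T x k ↔ |Real.log ‖Sh.f ((x : ℂ) + Sh.Hr * I + (Real.exp (-k) : ℝ) * LS.ch p)‖| ≤ T := by
  rw [Sh.lg_pt_ch]; rfl

theorem lg_measurableSet_lbad (T x k : ℝ) : MeasurableSet (Sh.lbad T x k) := by
  refine measurableSet_le ?_ measurable_const
  have : Measurable fun q : ℝ × ℝ => Sh.up (x + Real.exp (-k) * q.1) (Real.exp (-(k + q.2))) := by
    simp only [Sh.lg_up_eq]
    fun_prop
  exact (Sh.measurable_aa.comp this).abs

theorem crit_F (_hH : Sh.H ≠ ⊤) (k x T : ℕ → ℝ) (F : ℂ → ℂ) (hk : Tendsto k atTop atTop) (hμ : ∀ n, 1 ≤ Sh.μ (k n))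
    (hT : ∀ n, T n ≤ k n / 2) (hFd : DifferentiableOn ℂ F s11LH)
    (hF : TendstoLocallyUniformlyOn (fun n => Sh.pF (x n) (k n)) F atTop s11LH) (hne : ∃ Z ∈ s11LH, F Z ≠ 0) :
    Tendsto (fun n => volume (Sh.lbad (T n) (x n) (k n) ∩ s11rect)) atTop (𝓝 0) := by
  obtain ⟨Z₁, hZ₁, hZ₁ne⟩ := hne
  refine LS.local_to_global s11rect {p | F (LS.ch p) = 0} lg_isCompact_rect (LS.null_zero F hFd ⟨Z₁, hZ₁, hZ₁ne⟩)
    (fun n => Sh.lbad (T n) (x n) (k n)) ?_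
  rintro p₀ ⟨_, hp₀⟩
  have hp₀ : F (LS.ch p₀) ≠ 0 := hp₀
  set Z₀ : ℂ := LS.ch p₀ with hZ₀
  have hZ₀L : Z₀ ∈ s11LH := lg_ch_mem p₀
  set a : ℝ := ‖F Z₀‖ / 2 with ha
  have hap : 0 < a := by have := norm_pos_iff.2 hp₀; positivity
  obtain ⟨t, ht, hev⟩ := Metric.tendstoLocallyUniformlyOn_iff.1 hF (a / 2) (by positivity) Z₀ hZ₀L
  rw [lg_isOpen_LH.nhdsWithin_eq hZ₀L] at ht
  have hFc : ContinuousAt F Z₀ := (hFd.differentiableAt (lg_isOpen_LH.mem_nhds hZ₀L)).continuousAt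
  have ht1 : {Z | a < ‖F Z‖} ∈ 𝓝 Z₀ := hFc.norm.eventually (lt_mem_nhds (by rw [ha]; linarith [norm_pos_iff.2 hp₀]))
  refine ⟨LS.ch ⁻¹' (t ∩ {Z | a < ‖F Z‖}), lg_continuous_ch.continuousAt.preimage_mem_nhds (inter_mem ht ht1), ?_⟩
  refine tendsto_const_nhds.congr' ?_
  filter_upwards [hev, hk.eventually_gt_atTop (2 * -Real.log (a / 2))] with n hn hkn
  symm
  have hempty : Sh.lbad (T n) (x n) (k n) ∩ LS.ch ⁻¹' (t ∩ {Z | a < ‖F Z‖}) = ∅ := by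
    rw [eq_empty_iff_forall_notMem]
    rintro p ⟨hp1, hp2, hp3⟩
    have hp3 : a < ‖F (LS.ch p)‖ := hp3
    have h1 := hn (LS.ch p) hp2
    rw [dist_eq_norm] at h1
    have h2 : a / 2 < ‖Sh.pF (x n) (k n) (LS.ch p)‖ := by
      have := norm_sub_norm_le (F (LS.ch p)) (Sh.pF (x n) (k n) (LS.ch p))
      linarith
    rw [Sh.lg_mem_lbad] at hp1
    have hμn : 0 < Sh.μ (k n) := by linarith [hμ n]
    have hc : 0 < Real.exp (-k n) / Sh.μ (k n) := div_pos (Real.exp_pos _) hμn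
    have h3 : ‖Sh.pF (x n) (k n) (LS.ch p)‖ = Real.exp (-k n) / Sh.μ (k n)
        * ‖Sh.f ((x n : ℂ) + Sh.Hr * I + (Real.exp (-k n) : ℝ) * LS.ch p)‖ := by
      simp only [pF, profF, norm_mul, Complex.norm_real, Real.norm_eq_abs]
      rw [abs_of_pos hc]
    set N : ℝ := ‖Sh.f ((x n : ℂ) + Sh.Hr * I + (Real.exp (-k n) : ℝ) * LS.ch p)‖ with hN
    have h4 : a / 2 * Real.exp (k n) < N := by
      rw [h3] at h2
      have e1 : Real.exp (-k n) / Sh.μ (k n) * N ≤ Real.exp (-k n) * N := by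
        refine mul_le_mul_of_nonneg_right ?_ (norm_nonneg _)
        exact div_le_self (Real.exp_pos _).le (hμ n)
      have e2 : Real.exp (k n) * Real.exp (-k n) = 1 := by rw [← Real.exp_add]; simp
      have e3 : a / 2 < Real.exp (-k n) * N := by linarith
      calc a / 2 * Real.exp (k n) < Real.exp (-k n) * N * Real.exp (k n) := mul_lt_mul_of_pos_right e3 (Real.exp_pos _)
        _ = (Real.exp (k n) * Real.exp (-k n)) * N := by ring
        _ = N := by rw [e2, one_mul]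
    have h5 : Real.log (a / 2) + k n < Real.log N := by
      have := Real.log_lt_log (by positivity) h4
      rwa [Real.log_mul (by positivity) (Real.exp_pos _).ne', Real.log_exp] at this
    have h6 := (le_abs_self _).trans hp1
    linarith [hT n]
  rw [hempty, measure_empty]

/-- calculus on rows, in the chart -/
theorem _root_.Claimed.Agent.R269.lg_row_deriv' (G : ℂ → ℂ) (G' : ℂ) (t u : ℝ) (h : HasDerivAt G G' (LS.ch (u, t))) :
    HasDerivAt (fun u : ℝ => G (LS.ch (u, t))) G' u :=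
  lg_row_deriv G G' (-Real.exp (-t)) u h

/-- one row: the WKB measure estimate for `g(u) = f(x + iH + e^{-k} ch(u,t))` -/
theorem lg_row_est (hH : Sh.H ≠ ⊤) (c₁ C₁ : ℝ) (hc : 0 < c₁) : ∃ Cw B₀ : ℝ, 0 < Cw ∧ ∀ (x k T α β t : ℝ) (P : ℂ → ℂ),
    B₀ ≤ Sh.μ k → 0 < Sh.μ k → 0 ≤ T → α ≤ β →
    (∀ u ∈ Icc α β, LS.ch (u, t) ∈ lgU (Real.exp (k - Sh.s9k0))) →
    (∀ u ∈ Icc α β, DifferentiableAt ℂ P (LS.ch (u, t)) ∧ P (LS.ch (u, t)) ^ 2 = Sh.pQ x k (LS.ch (u, t)) ∧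
      c₁ ≤ (P (LS.ch (u, t))).re ∧ ‖P (LS.ch (u, t))‖ ≤ C₁ ∧ ‖deriv P (LS.ch (u, t))‖ ≤ C₁) →
    volume {u : ℝ | u ∈ Icc α β ∧ (u, t) ∈ Sh.lbad T x k} ≤ ENNReal.ofReal (Cw * (T + 1) / Sh.μ k) := by
  obtain ⟨Cw, B₀, hCw, hwkb⟩ := LS.wkb_measure c₁ C₁ hc
  refine ⟨Cw, B₀, hCw, fun x k T α β t P hB hμ hT hαβ hdom hP => ?_⟩
  set d : ℂ := ((Real.exp (-k) : ℝ) : ℂ) with hd
  set A : ℂ → ℂ := fun W => (x : ℂ) + Sh.Hr * I + d * W with hA
  have hAd : ∀ W, HasDerivAt A d W := by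
    intro W
    have := ((hasDerivAt_id W).const_mul d).const_add ((x : ℂ) + Sh.Hr * I)
    simpa [hA] using this
  have hD : ∀ u ∈ Icc α β, A (LS.ch (u, t)) ∈ Sh.D := fun u hu => Sh.lg_pt_mem hH x k _ (hdom u hu).1 (hdom u hu).2.le
  have hw := hwkb α β (Sh.μ k) T (fun u => Sh.f (A (LS.ch (u, t)))) (fun u => deriv Sh.f (A (LS.ch (u, t))) * d)
    (fun u => P (LS.ch (u, t))) (fun u => deriv P (LS.ch (u, t))) hαβ hB hT ?_ ?_ ?_ ?_ ?_
  · refine le_trans (measure_mono ?_) hw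
    rintro u ⟨hu1, hu2⟩
    exact ⟨hu1, (Sh.lg_mem_lbad T x k (u, t)).1 hu2⟩
  · intro u hu
    exact lg_row_deriv' (fun W => Sh.f (A W)) _ t u ((Sh.sb_f_at (hD u hu)).hasDerivAt.comp _ (hAd _))
  · intro u hu
    have hf' : DifferentiableAt ℂ (deriv Sh.f) (A (LS.ch (u, t))) := Sh.sb_f'_diff.differentiableAt (Sh.sb_D_mem_nhds (hD u hu))
    have h1 := lg_row_deriv' (fun W => deriv Sh.f (A W) * d) _ t u ((hf'.hasDerivAt.comp _ (hAd _)).mul_const d)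
    have e : (Sh.μ k : ℂ) ^ 2 * P (LS.ch (u, t)) ^ 2 * Sh.f (A (LS.ch (u, t)))
        = deriv (deriv Sh.f) (A (LS.ch (u, t))) * d * d := by
      rw [Sh.f_ode _ (hD u hu), (hP u hu).2.1]
      have e2 : Sh.pQ x k (LS.ch (u, t)) = (((Real.exp (-k) / Sh.μ k) ^ 2 : ℝ) : ℂ) * Sh.q (A (LS.ch (u, t))) := rfl
      rw [e2]
      have e3 : (Sh.μ k : ℂ) ^ 2 * (((Real.exp (-k) / Sh.μ k) ^ 2 : ℝ) : ℂ) = d * d := by
        rw [hd]
        have hμ' : (Sh.μ k : ℂ) ≠ 0 := by exact_mod_cast hμ.ne'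
        push_cast
        field_simp
      calc (Sh.μ k : ℂ) ^ 2 * ((((Real.exp (-k) / Sh.μ k) ^ 2 : ℝ) : ℂ) * Sh.q (A (LS.ch (u, t)))) * Sh.f (A (LS.ch (u, t)))
          = ((Sh.μ k : ℂ) ^ 2 * (((Real.exp (-k) / Sh.μ k) ^ 2 : ℝ) : ℂ)) * Sh.q (A (LS.ch (u, t))) * Sh.f (A (LS.ch (u, t))) := by ring
        _ = _ := by rw [e3]; ring
    rw [e]
    exact h1
  · intro u hu
    exact lg_row_deriv' P _ t u (hP u hu).1.hasDerivAt
  · intro u hu
    exact (hP u hu).2.2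
  · intro u hu
    rcases Sh.f_f'_ne _ (hD u hu) with h0 | h0
    · exact Or.inl h0
    · refine Or.inr (mul_ne_zero h0 ?_)
      rw [hd]; exact_mod_cast (Real.exp_pos _).ne'

omit Sh in
theorem lg_mem_box (p₀ : ℝ × ℝ) (ρ₁ u t : ℝ) :
    (u, t) ∈ closedBall p₀ ρ₁ ↔ u ∈ Icc (p₀.1 - ρ₁) (p₀.1 + ρ₁) ∧ t ∈ Icc (p₀.2 - ρ₁) (p₀.2 + ρ₁) := by
  rw [← Real.closedBall_eq_Icc, ← Real.closedBall_eq_Icc]
  conv_lhs => rw [← Prod.mk.eta (p := p₀), ← closedBall_prod_same]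
  exact Iff.rfl

theorem crit_Q_local (hH : Sh.H ≠ ⊤) (k x T : ℕ → ℝ) (Q : ℂ → ℂ) (hk : Tendsto k atTop atTop)
    (hμ : Tendsto (fun n => Sh.μ (k n)) atTop atTop) (hT0 : ∀ n, 0 ≤ T n)
    (hT : Tendsto (fun n => (T n + 1) / Sh.μ (k n)) atTop (𝓝 0)) (hQd : DifferentiableOn ℂ Q s11LH)
    (hQ : TendstoLocallyUniformlyOn (fun n => Sh.pQ (x n) (k n)) Q atTop s11LH) (p₀ : ℝ × ℝ) (hp : Q (LS.ch p₀) ∈ Complex.slitPlane) :
    ∃ V ∈ 𝓝 p₀, Tendsto (fun n => volume (Sh.lbad (T n) (x n) (k n) ∩ V)) atTop (𝓝 0) := by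
  set Z₀ : ℂ := LS.ch p₀ with hZ₀
  have hZ₀L : Z₀ ∈ s11LH := lg_ch_mem p₀
  set w₀ : ℂ := Q Z₀ with hw₀
  set c₁ : ℝ := (lgsq w₀).re / 2 with hc₁
  have hc₁p : 0 < c₁ := by have := lg_sq_re_pos w₀ hp; positivity
  set C₀ : ℝ := ‖lgsq w₀‖ + 1 with hC₀
  have hC₀p : 0 < C₀ := by positivity
  -- Step 1
  obtain ⟨ρ, hρ, hball⟩ : ∃ ρ > 0, ∀ w ∈ ball w₀ ρ, w ∈ Complex.slitPlane ∧ c₁ ≤ (lgsq w).re ∧ ‖lgsq w‖ ≤ C₀ := by
    have e1 : ∀ᶠ w in 𝓝 w₀, w ∈ Complex.slitPlane := Complex.isOpen_slitPlane.mem_nhds hp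
    have e2 : ∀ᶠ w in 𝓝 w₀, c₁ < (lgsq w).re :=
      (Complex.continuous_re.continuousAt.comp (lg_sq_cont w₀ hp)).eventually (lt_mem_nhds (by
        show c₁ < (lgsq w₀).re
        rw [hc₁]; linarith [lg_sq_re_pos w₀ hp]))
    have e3 : ∀ᶠ w in 𝓝 w₀, ‖lgsq w‖ < C₀ :=
      (lg_sq_cont w₀ hp).norm.eventually (gt_mem_nhds (by rw [hC₀]; linarith))
    obtain ⟨ρ, hρ, h⟩ := Metric.eventually_nhds_iff_ball.1 (e1.and (e2.and e3))
    exact ⟨ρ, hρ, fun w hw => ⟨(h w hw).1, (h w hw).2.1.le, (h w hw).2.2.le⟩⟩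
  -- Step 2
  obtain ⟨t, ht, hev⟩ := Metric.tendstoLocallyUniformlyOn_iff.1 hQ (ρ / 2) (by positivity) Z₀ hZ₀L
  rw [lg_isOpen_LH.nhdsWithin_eq hZ₀L] at ht
  have hQc : ContinuousAt Q Z₀ := (hQd.differentiableAt (lg_isOpen_LH.mem_nhds hZ₀L)).continuousAt
  have ht1 : {Z | dist (Q Z) w₀ < ρ / 2} ∈ 𝓝 Z₀ := hQc (ball_mem_nhds w₀ (by positivity))
  obtain ⟨r3, hr3, hsub⟩ := Metric.mem_nhds_iff.1 (inter_mem (inter_mem ht ht1) (lg_isOpen_LH.mem_nhds hZ₀L))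
  set r : ℝ := r3 / 3 with hr
  have hrp : 0 < r := by positivity
  -- Step 4: the box
  obtain ⟨ρ₁, hρ₁, hbox⟩ := Metric.nhds_basis_closedBall.mem_iff.1
    (lg_continuous_ch.continuousAt.preimage_mem_nhds (closedBall_mem_nhds Z₀ hrp) : LS.ch ⁻¹' closedBall Z₀ r ∈ 𝓝 p₀)
  -- Step 5
  obtain ⟨Cw, B₀, hCw, hwkb⟩ := Sh.lg_row_est hH c₁ (max C₀ (C₀ / r)) hc₁p
  refine ⟨closedBall p₀ ρ₁, closedBall_mem_nhds p₀ hρ₁, ?_⟩
  have hlim : Tendsto (fun n => ENNReal.ofReal (2 * ρ₁ * (Cw * ((T n + 1) / Sh.μ (k n))))) atTop (𝓝 0) := by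
    have := (hT.const_mul Cw).const_mul (2 * ρ₁)
    rw [mul_zero, mul_zero] at this
    have h2 := ENNReal.tendsto_ofReal this
    rwa [ENNReal.ofReal_zero] at h2
  refine tendsto_of_tendsto_of_tendsto_of_le_of_le' tendsto_const_nhds hlim (Eventually.of_forall fun n => zero_le) ?_
  filter_upwards [hev, Sh.lg_ev_exp k hk (-Z₀.im + r3), hμ.eventually_ge_atTop (max B₀ 1)] with n hn hexp hμn
  have hμB : B₀ ≤ Sh.μ (k n) := (le_max_left _ _).trans hμn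
  have hμ1 : 0 < Sh.μ (k n) := lt_of_lt_of_le one_pos ((le_max_right _ _).trans hμn)
  -- properties on the big ball
  have hbig : ∀ Z ∈ ball Z₀ r3, Z ∈ lgU (Real.exp (k n - Sh.s9k0)) ∧ Sh.pQ (x n) (k n) Z ∈ ball w₀ ρ := by
    intro Z hZ
    obtain ⟨⟨h1, h2⟩, h3⟩ := hsub hZ
    have h3 : Z.im < 0 := h3
    have h2 : dist (Q Z) w₀ < ρ / 2 := h2
    refine ⟨⟨h3, ?_⟩, ?_⟩
    · have : |Z.im - Z₀.im| < r3 := by
        have := Complex.abs_im_le_norm (Z - Z₀)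
        rw [mem_ball, dist_eq_norm] at hZ
        simpa using this.trans_lt hZ
      rw [abs_lt] at this
      linarith [this.1]
    · rw [mem_ball]
      have := hn Z h1
      calc dist (Sh.pQ (x n) (k n) Z) w₀ ≤ dist (Sh.pQ (x n) (k n) Z) (Q Z) + dist (Q Z) w₀ := dist_triangle _ _ _
        _ < ρ / 2 + ρ / 2 := add_lt_add (by rw [dist_comm]; exact this) h2
        _ = ρ := by ring
  set P : ℂ → ℂ := fun Z => lgsq (Sh.pQ (x n) (k n) Z) with hP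
  have hPd : ∀ Z ∈ ball Z₀ r3, DifferentiableAt ℂ P Z := by
    intro Z hZ
    obtain ⟨h1, h2⟩ := hbig Z hZ
    exact (lg_sq_diff _ (hball _ h2).1).comp Z (Sh.lg_pQ_at hH (x n) (k n) Z h1.1 h1.2.le)
  have hPder : ∀ Z ∈ closedBall Z₀ r, ‖deriv P Z‖ ≤ C₀ / r := by
    intro Z hZ
    have hs : closedBall Z r ⊆ ball Z₀ r3 := by
      intro W hW
      rw [mem_closedBall] at hW hZ
      rw [mem_ball]
      calc dist W Z₀ ≤ dist W Z + dist Z Z₀ := dist_triangle _ _ _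
        _ ≤ r + r := add_le_add hW hZ
        _ < r3 := by rw [hr]; linarith
    have hdo : DifferentiableOn ℂ P (closedBall Z r) := fun W hW => (hPd W (hs hW)).differentiableWithinAt
    refine Complex.norm_deriv_le_of_forall_mem_sphere_norm_le hrp (hdo.diffContOnCl_ball subset_rfl) ?_
    intro W hW
    exact (hball _ (hbig W (hs (sphere_subset_closedBall hW))).2).2.2
  have hrr3 : closedBall Z₀ r ⊆ ball Z₀ r3 := closedBall_subset_ball (by rw [hr]; linarith)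
  have hrow : ∀ t' : ℝ, volume ((fun u => (u, t')) ⁻¹' (Sh.lbad (T n) (x n) (k n) ∩ closedBall p₀ ρ₁))
      ≤ (Icc (p₀.2 - ρ₁) (p₀.2 + ρ₁)).indicator (fun _ => ENNReal.ofReal (Cw * (T n + 1) / Sh.μ (k n))) t' := by
    intro t'
    by_cases ht' : t' ∈ Icc (p₀.2 - ρ₁) (p₀.2 + ρ₁)
    · rw [indicator_of_mem ht']
      have hin : ∀ u ∈ Icc (p₀.1 - ρ₁) (p₀.1 + ρ₁), LS.ch (u, t') ∈ closedBall Z₀ r :=
        fun u hu => hbox ((lg_mem_box p₀ ρ₁ u t').2 ⟨hu, ht'⟩)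
      have hw := hwkb (x n) (k n) (T n) (p₀.1 - ρ₁) (p₀.1 + ρ₁) t' P hμB hμ1 (hT0 n) (by linarith)
        (fun u hu => (hbig _ (hrr3 (hin u hu))).1)
        (fun u hu => ⟨hPd _ (hrr3 (hin u hu)), lg_sq_sq _, (hball _ (hbig _ (hrr3 (hin u hu))).2).2.1,
          (hball _ (hbig _ (hrr3 (hin u hu))).2).2.2.trans (le_max_left _ _), (hPder _ (hin u hu)).trans (le_max_right _ _)⟩)
      refine le_trans (measure_mono ?_) hw
      rintro u ⟨hu1, hu2⟩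
      exact ⟨((lg_mem_box p₀ ρ₁ u t').1 hu2).1, hu1⟩
    · rw [indicator_of_notMem ht']
      have : (fun u => (u, t')) ⁻¹' (Sh.lbad (T n) (x n) (k n) ∩ closedBall p₀ ρ₁) = ∅ := by
        rw [eq_empty_iff_forall_notMem]
        rintro u ⟨_, hu2⟩
        exact ht' ((lg_mem_box p₀ ρ₁ u t').1 hu2).2
      rw [this, measure_empty]
  have hmeas : MeasurableSet (Sh.lbad (T n) (x n) (k n) ∩ closedBall p₀ ρ₁) :=
    (Sh.lg_measurableSet_lbad _ _ _).inter measurableSet_closedBall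
  rw [Measure.volume_eq_prod, Measure.prod_apply_symm hmeas]
  refine (lintegral_mono hrow).trans ?_
  have hnn : 0 ≤ Cw * (T n + 1) / Sh.μ (k n) := div_nonneg (mul_nonneg hCw.le (by linarith [hT0 n])) hμ1.le
  rw [lintegral_indicator_const measurableSet_Icc, Real.volume_Icc, ← ENNReal.ofReal_mul hnn]
  refine ENNReal.ofReal_le_ofReal (le_of_eq ?_)
  ring

theorem crit_Q (hH : Sh.H ≠ ⊤) (k x T : ℕ → ℝ) (Q : ℂ → ℂ) (hk : Tendsto k atTop atTop)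
    (hμ : Tendsto (fun n => Sh.μ (k n)) atTop atTop) (hT0 : ∀ n, 0 ≤ T n)
    (hT : Tendsto (fun n => (T n + 1) / Sh.μ (k n)) atTop (𝓝 0)) (hQd : DifferentiableOn ℂ Q s11LH)
    (hQ : TendstoLocallyUniformlyOn (fun n => Sh.pQ (x n) (k n)) Q atTop s11LH)
    (hne : ∃ Z Z' : ℂ, Z.im < 0 ∧ Z'.im < 0 ∧ Q Z ≠ Q Z') :
    Tendsto (fun n => volume (Sh.lbad (T n) (x n) (k n) ∩ s11rect)) atTop (𝓝 0) := by
  refine LS.local_to_global s11rect {p | Q (LS.ch p) ∉ Complex.slitPlane} lg_isCompact_rect (LS.null_slit Q hQd hne)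
    (fun n => Sh.lbad (T n) (x n) (k n)) ?_
  rintro p₀ ⟨_, hp₀⟩
  have hp₀ : Q (LS.ch p₀) ∈ Complex.slitPlane := not_not.1 hp₀
  exact Sh.crit_Q_local hH k x T Q hk hμ hT0 hT hQd hQ p₀ hp₀

/-! ### LF-S11h-6: assembly = Lemma 11.2.
By contradiction: `ε > 0`, `K_n ≥ n` with `j_n`, and `vol(modRow (K_n^{α/2}) k') > ε` for ALL `k' ∈ [0.8K_n, 2.2K_n]`.  `exists_env` gives `k_n ∈ [0.85K_n, 2.15K_n]` (so
`k_n + t ∈ [0.8K_n, 2.2K_n]` for `t ∈ [0,1]`), `select` gives `x_n`; `montel_prof`; `pure_limit`; `not_both`; `crit_F` / `Q_nonconst` + `crit_Q` contradict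
`vol(lbad ∩ s11rect) ≥ ε/2π`.  (`T_n = K_n^{α/2}`, `μ(k_n) ≥ K_n^α/2`.) -/

theorem lm_aux_rpow (K : ℝ) (hK : 16 ≤ K) : K ^ ((1 : ℝ) / 200) ≤ K / 4 := by
  have h1 : (1 : ℝ) ≤ K := by linarith
  have h0 : (0 : ℝ) ≤ K := by linarith
  have a : K ^ ((1 : ℝ) / 200) ≤ K ^ ((1 : ℝ) / 2) := Real.rpow_le_rpow_of_exponent_le h1 (by norm_num)
  have b : K ^ ((1 : ℝ) / 2) * K ^ ((1 : ℝ) / 2) = K := by
    rw [← Real.rpow_add (by linarith)]; norm_num
  have c : (4 : ℝ) ≤ K ^ ((1 : ℝ) / 2) := by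
    have : (16 : ℝ) ^ ((1 : ℝ) / 2) ≤ K ^ ((1 : ℝ) / 2) := Real.rpow_le_rpow (by norm_num) hK (by norm_num)
    have e : (16 : ℝ) ^ ((1 : ℝ) / 2) = 4 := by
      rw [show (16 : ℝ) = 4 ^ (2 : ℝ) by norm_num, ← Real.rpow_mul (by norm_num)]; norm_num
    linarith
  nlinarith

theorem large_moment' (h : Sh.CritPoly) : ∀ ε : ℝ, 0 < ε → ∃ K0 : ℝ, ∀ K, K0 ≤ K →
    (∃ j ∈ Icc (0.9 * K) (2.1 * K), K ^ ((1 : ℝ) / 100) ≤ Sh.μ j) →
    ∃ k ∈ Icc (0.8 * K) (2.2 * K), (volume (Sh.modRow (K ^ ((1 : ℝ) / 200)) k)).toReal ≤ ε := by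
  intro ε hε
  by_contra hcon
  push Not at hcon
  obtain ⟨K0, hK0⟩ := Sh.exists_env h
  obtain ⟨Λ, hΛ, hsel⟩ := Sh.select h.fin ε hε
  -- the sequence
  have hex : ∀ n : ℕ, ∃ K : ℝ, max (max (n : ℝ) K0) (max (2 ^ 100) (Sh.s9k0 / 0.85)) ≤ K ∧
      (∃ j ∈ Icc (0.9 * K) (2.1 * K), K ^ ((1 : ℝ) / 100) ≤ Sh.μ j) ∧
      ∀ k ∈ Icc (0.8 * K) (2.2 * K), ε < (volume (Sh.modRow (K ^ ((1 : ℝ) / 200)) k)).toReal := fun n => hcon _
  choose K hKge hKj hKbad using hex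
  have hKn : ∀ n : ℕ, (n : ℝ) ≤ K n := fun n => le_trans (le_trans (le_max_left _ _) (le_max_left _ _)) (hKge n)
  have hKK0 : ∀ n, K0 ≤ K n := fun n => le_trans (le_trans (le_max_right _ _) (le_max_left _ _)) (hKge n)
  have hKbig : ∀ n, (2 : ℝ) ^ 100 ≤ K n := fun n => le_trans (le_trans (le_max_left _ _) (le_max_right _ _)) (hKge n)
  have hKs : ∀ n, Sh.s9k0 / 0.85 ≤ K n := fun n => le_trans (le_trans (le_max_right _ _) (le_max_right _ _)) (hKge n)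
  have hK16 : ∀ n, (20 : ℝ) ≤ K n := fun n => le_trans (by norm_num) (hKbig n)
  have hKtop : Tendsto K atTop atTop := tendsto_atTop_mono hKn tendsto_natCast_atTop_atTop
  have hex2 : ∀ n, ∃ k ∈ Icc (0.85 * K n) (2.15 * K n), K n ^ ((1 : ℝ) / 100) / 2 ≤ Sh.μ k ∧ Sh.Env k := by
    intro n
    obtain ⟨j, hj, hμj⟩ := hKj n
    exact hK0 (K n) (hKK0 n) j hj hμj
  choose k hkI hkμ hkE using hex2
  have hks : ∀ n, Sh.s9k0 ≤ k n := by
    intro n
    have := hKs n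
    rw [div_le_iff₀ (by norm_num)] at this
    linarith [(hkI n).1]
  have hK100 : ∀ n, (2 : ℝ) ≤ K n ^ ((1 : ℝ) / 100) := by
    intro n
    have : ((2 : ℝ) ^ 100) ^ ((1 : ℝ) / 100) ≤ K n ^ ((1 : ℝ) / 100) := Real.rpow_le_rpow (by positivity) (hKbig n) (by norm_num)
    have e : ((2 : ℝ) ^ 100) ^ ((1 : ℝ) / 100) = 2 := by
      rw [← Real.rpow_natCast, ← Real.rpow_mul (by norm_num)]; norm_num
    linarith
  have hμ1 : ∀ n, 1 ≤ Sh.μ (k n) := fun n => by linarith [hkμ n, hK100 n]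
  have hμpos : ∀ n, 0 < Sh.μ (k n) := fun n => by linarith [hμ1 n]
  have hex3 : ∀ n, ∃ x ∈ Icc (0 : ℝ) (2 * π), Sh.NN x (k n) ≤ ENNReal.ofReal Λ ∧
      ENNReal.ofReal (ε / (2 * π)) ≤ volume (Sh.lbad (K n ^ ((1 : ℝ) / 200)) x (k n) ∩ s11rect) := by
    intro n
    refine hsel (k n) _ (hks n) (hμpos n) (hkE n) ?_
    intro t ht
    have hmem : k n + t ∈ Icc (0.8 * K n) (2.2 * K n) := by
      constructor
      · linarith [(hkI n).1, ht.1, hK16 n]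
      · linarith [(hkI n).2, ht.2, hK16 n]
    have hb := hKbad n _ hmem
    have hne : volume (Sh.modRow (K n ^ ((1 : ℝ) / 200)) (k n + t)) ≠ ⊤ := by
      intro htop
      rw [htop] at hb
      simp at hb
      linarith
    exact ((ENNReal.ofReal_lt_iff_lt_toReal hε.le hne).2 hb).le
  choose x hxI hxN hxV using hex3
  have hktop : Tendsto k atTop atTop := by
    refine tendsto_atTop_mono (fun n => (hkI n).1) ?_
    exact hKtop.const_mul_atTop (by norm_num)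
  obtain ⟨φ, F, Q, hφ, hFd, hQd, hF, hQ⟩ := Sh.montel_prof h.fin k x Λ hktop hμpos hxN
  have hφt : Tendsto φ atTop atTop := hφ.tendsto_atTop
  have hk' : Tendsto (fun n => k (φ n)) atTop atTop := hktop.comp hφt
  have hKr : Tendsto (fun n => K n ^ ((1 : ℝ) / 100)) atTop atTop := (tendsto_rpow_atTop (by norm_num)).comp hKtop
  have hμtop : Tendsto (fun n => Sh.μ (k n)) atTop atTop := by
    refine tendsto_atTop_mono hkμ ?_
    exact hKr.atTop_div_const (by norm_num)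
  have hμ' : Tendsto (fun n => Sh.μ (k (φ n))) atTop atTop := hμtop.comp hφt
  -- no limit zero
  have hno : ¬ Tendsto (fun n => volume (Sh.lbad (K (φ n) ^ ((1 : ℝ) / 200)) (x (φ n)) (k (φ n)) ∩ s11rect)) atTop (𝓝 0) := by
    intro ht
    have hpos : (0 : ℝ≥0∞) < ENNReal.ofReal (ε / (2 * π)) := ENNReal.ofReal_pos.2 (by positivity)
    have := (ht.eventually (gt_mem_nhds hpos)).exists
    obtain ⟨n, hn⟩ := this
    exact absurd (hxV (φ n)) (not_le.2 hn)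
  by_cases hFne : ∃ Z ∈ s11LH, F Z ≠ 0
  · refine hno (Sh.crit_F h.fin (fun n => k (φ n)) (fun n => x (φ n)) (fun n => K (φ n) ^ ((1 : ℝ) / 200)) F hk'
      (fun n => hμ1 _) ?_ hFd hF hFne)
    intro n
    have := lm_aux_rpow (K (φ n)) (by linarith [hK16 (φ n)])
    linarith [(hkI (φ n)).1, hK16 (φ n)]
  push Not at hFne
  by_cases hQne : ∃ Z ∈ s11LH, Q Z ≠ 0
  · have hnc := Sh.Q_nonconst h.fin (fun n => k (φ n)) (fun n => x (φ n)) Q Λ hk' (fun n => hμpos _) (fun n => hxN _) hQ hQne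
    refine hno (Sh.crit_Q h.fin (fun n => k (φ n)) (fun n => x (φ n)) (fun n => K (φ n) ^ ((1 : ℝ) / 200)) Q hk' hμ'
      (fun n => by have := hK16 (φ n); positivity) ?_ hQd hQ hnc)
    -- (T+1)/μ → 0
    have hlim : Tendsto (fun n => (K n ^ ((1 : ℝ) / 200) + 1) / Sh.μ (k n)) atTop (𝓝 0) := by
      have hK200 : Tendsto (fun n => K n ^ ((1 : ℝ) / 200)) atTop atTop := (tendsto_rpow_atTop (by norm_num)).comp hKtop
      have hup : Tendsto (fun n => 4 / K n ^ ((1 : ℝ) / 200)) atTop (𝓝 0) := hK200.const_div_atTop 4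
      refine squeeze_zero (fun n => ?_) (fun n => ?_) hup
      · have := hK16 n
        have := hμpos n
        positivity
      · have hKp : 0 < K n := by linarith [hK16 n]
        have hp : 0 < K n ^ ((1 : ℝ) / 200) := Real.rpow_pos_of_pos hKp _
        have hsq : K n ^ ((1 : ℝ) / 200) * K n ^ ((1 : ℝ) / 200) = K n ^ ((1 : ℝ) / 100) := by
          rw [← Real.rpow_add hKp]; norm_num
        have h1 : 1 ≤ K n ^ ((1 : ℝ) / 200) := Real.one_le_rpow (by linarith [hK16 n]) (by norm_num)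
        rw [div_le_div_iff₀ (hμpos n) hp]
        have := hkμ n
        nlinarith [hμpos n]
    exact hlim.comp hφt
  push Not at hQne
  refine Sh.not_both h (fun n => k (φ n)) (fun n => x (φ n)) Λ hk' hμ' (fun n => hkE _) (fun n => hxN _) ?_ ?_
  · exact hF.congr_right (fun Z hZ => hFne Z hZ)
  · exact hQ.congr_right (fun Z hZ => hQne Z hZ)

end Shape

end Claimed.Agent.R269
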