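/-
Row 269, P1 Section 11.7, package LF-S11d-2 (helper196): proof of `Slice.last_det` (statement verbatim, name `last_det_pf`).
Uses `site_suppression_pf`, `deep_controls_pf` (S11/DerivPf.lean), `qs_bounds` (S10/Time.lean), `Fine.k`, `δ_pos`.
-/
import Claimed.Agent.R269.S11.LastDefs
import Claimed.Agent.R269.S11.DerivPf

set_option autoImplicit false

namespace Claimed.Agent.R269

open Complex Metric Set Filter Topology Chn MeasureTheory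
open scoped Real ENNReal

local notation "⟪" i "⟫" => ((Fin.val i : ℕ) : ℤ)

/-- all scales are powers of `s = K^{1/1600}` -/
theorem ldp_scales (S0 : ℝ) : ∃ K0 : ℝ, 1 ≤ K0 ∧ ∀ K, K0 ≤ K → ∃ s : ℝ, S0 ≤ s ∧ 1 ≤ s ∧
    Shape.u0 K = s ^ 2 ∧ Real.sqrt (Shape.u0 K) = s ∧ Shape.u0 K ^ ((3 : ℝ) / 2) = s ^ 3 ∧
    Shape.h2 K = s ^ 4 ∧ Real.sqrt (Shape.h2 K) = s ^ 2 ∧ Shape.h1 K = s ^ 8 / 2 := by
  have hm : (1 : ℝ) ≤ max 1 S0 := le_max_left _ _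
  refine ⟨(max 1 S0) ^ 1600, one_le_pow₀ hm, fun K hK => ?_⟩
  have hm0 : (0 : ℝ) ≤ max 1 S0 := by linarith
  have hK0 : 0 ≤ K := le_trans (by positivity) hK
  have hs0 : 0 ≤ K ^ ((1 : ℝ) / 1600) := Real.rpow_nonneg hK0 _
  have hsm : max 1 S0 ≤ K ^ ((1 : ℝ) / 1600) := by
    have h1 := Real.rpow_le_rpow (by positivity) hK (by norm_num : (0 : ℝ) ≤ 1 / 1600)
    have h2 : ((max 1 S0) ^ 1600 : ℝ) ^ ((1 : ℝ) / 1600) = max 1 S0 := by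
      rw [← Real.rpow_natCast, ← Real.rpow_mul hm0]
      norm_num
    rwa [h2] at h1
  have pw : ∀ n : ℕ, (K ^ ((1 : ℝ) / 1600)) ^ n = K ^ ((n : ℝ) / 1600) := by
    intro n
    rw [← Real.rpow_natCast, ← Real.rpow_mul hK0]
    congr 1
    ring
  have e2 : Shape.u0 K = (K ^ ((1 : ℝ) / 1600)) ^ 2 := by
    unfold Shape.u0; rw [pw]; norm_num
  have e4 : Shape.h2 K = (K ^ ((1 : ℝ) / 1600)) ^ 4 := by
    unfold Shape.h2; rw [pw]; norm_num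
  refine ⟨K ^ ((1 : ℝ) / 1600), (le_max_right _ _).trans hsm, hm.trans hsm, e2, ?_, ?_, e4, ?_, ?_⟩
  · rw [e2, Real.sqrt_sq hs0]
  · unfold Shape.u0
    rw [pw, ← Real.rpow_mul hK0]
    norm_num
  · rw [e4, show (K ^ ((1 : ℝ) / 1600)) ^ 4 = ((K ^ ((1 : ℝ) / 1600)) ^ 2) ^ 2 by ring,
      Real.sqrt_sq (by positivity)]
  · unfold Shape.h1; rw [pw]; norm_num

namespace Slice

open Shape

variable (Sl : Slice)

/-- after the last first hit the masked sums telescope -/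
theorem ldp_disp (W : Walk) (J : Finset (Fin Sl.N)) (t : ℝ) (i : Fin Sl.N) (ω : Om ℝ) (T : ℕ)
    (hT : ∀ m, (∀ j ∈ J, Sl.Hit W j t m ω) ↔ T ≤ m) (n : ℕ) (hn : T ≤ n) :
    Sl.Disp W J t i n ω = Sl.s ⟪i⟫ (W.y n ω) - Sl.s ⟪i⟫ (W.y T ω) ∧
    Sl.DispQ W J t i n ω = ∑ m ∈ Finset.Ico T n, Sl.qs W i m ω := by
  induction n, hn using Nat.le_induction with
  | base =>
    constructor
    · unfold Disp
      rw [sub_self]
      refine Finset.sum_eq_zero fun m hm => if_neg ?_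
      rw [hT m]
      exact not_le.mpr (Finset.mem_range.mp hm)
    · unfold DispQ
      rw [Finset.Ico_self, Finset.sum_empty]
      refine Finset.sum_eq_zero fun m hm => if_neg ?_
      rw [hT m]
      exact not_le.mpr (Finset.mem_range.mp hm)
  | succ n hn ih =>
    constructor
    · have h1 := ih.1
      unfold Disp at h1 ⊢
      rw [Finset.sum_range_succ, h1, if_pos ((hT n).mpr hn)]
      ring
    · have h1 := ih.2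
      unfold DispQ at h1 ⊢
      rw [Finset.sum_range_succ, h1, if_pos ((hT n).mpr hn), Finset.sum_Ico_succ_top hn]

theorem ldp_δ_eq (hS : Sl.Hyp) (j : ℤ) (y : ℂ) (hy : y ∈ Sl.strip) : Sl.δ j y = Real.exp (-Sl.k j y) := by
  unfold k
  rw [neg_neg, Real.exp_log (Sl.δ_pos hS j y hy)]

/-- pointwise: the derivative at a site of large `|a|` is dominated by the derivatives at the deep sites -/
theorem ldp_point {Cs Cd : ℝ}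
    (hsup : ∀ y ∈ Sl.reg, ∀ g wm : ℝ, 0 ≤ g → Sl.geo y ≤ g →
      (∀ j : Fin Sl.N, ‖Sl.w ⟪j⟫ y‖ ≤ wm) → ∀ i : Fin Sl.N,
      ‖Sl.s' ⟪i⟫ y‖ ≤ Real.exp (Cs * (1 + g) - |Sl.a ⟪i⟫ y|) * wm)
    (hdeep : ∀ y ∈ Sl.reg, ∀ (J : Finset (Fin Sl.N)) (g b t sm : ℝ), J.Nonempty → 0 ≤ g → 0 ≤ b →
      Cd * (1 + g + b) ≤ t → Sl.geo y ≤ g →
      (∀ F : Finset (Fin Sl.N), F ⊆ J → ∀ i k, ‖(Sl.Bmat Jᶜ F y)⁻¹ i k‖ ≤ Real.exp b) →
      (∀ j ∈ J, ‖Sl.s' ⟪j⟫ y‖ ≤ sm) → ∀ i : Fin Sl.N, ‖Sl.w ⟪i⟫ y‖ ≤ Real.exp (3 * t) * sm)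
    (y : ℂ) (hy : y ∈ Sl.reg) (J : Finset (Fin Sl.N)) (hJ : J.Nonempty) (g b t a : ℝ) (hg : 0 ≤ g)
    (hb : 0 ≤ b) (ht : Cd * (1 + g + b) ≤ t) (hgeo : Sl.geo y ≤ g)
    (hinv : ∀ F : Finset (Fin Sl.N), F ⊆ J → ∀ i k, ‖(Sl.Bmat Jᶜ F y)⁻¹ i k‖ ≤ Real.exp b)
    (i : Fin Sl.N) (ha : a ≤ |Sl.a ⟪i⟫ y|) :
    ‖Sl.s' ⟪i⟫ y‖ ^ 2 ≤ Real.exp (2 * (Cs * (1 + g) - a + 3 * t)) * ∑ j ∈ J, ‖Sl.s' ⟪j⟫ y‖ ^ 2 := by
  have hsum0 : 0 ≤ ∑ j ∈ J, ‖Sl.s' ⟪j⟫ y‖ ^ 2 := Finset.sum_nonneg fun j _ => by positivity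
  have h1 : ∀ j ∈ J, ‖Sl.s' ⟪j⟫ y‖ ≤ Real.sqrt (∑ j ∈ J, ‖Sl.s' ⟪j⟫ y‖ ^ 2) := by
    intro j hj
    apply Real.le_sqrt_of_sq_le
    exact Finset.single_le_sum (f := fun j => ‖Sl.s' ⟪j⟫ y‖ ^ 2) (fun j _ => by positivity) hj
  have hw := hdeep y hy J g b t _ hJ hg hb ht hgeo hinv h1
  have hs := hsup y hy g _ hg hgeo hw i
  have h2 : ‖Sl.s' ⟪i⟫ y‖ ≤ Real.exp (Cs * (1 + g) - a + 3 * t) * Real.sqrt (∑ j ∈ J, ‖Sl.s' ⟪j⟫ y‖ ^ 2) := by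
    refine hs.trans ?_
    rw [← mul_assoc, ← Real.exp_add]
    refine mul_le_mul_of_nonneg_right (Real.exp_le_exp.mpr (by linarith)) (Real.sqrt_nonneg _)
  calc ‖Sl.s' ⟪i⟫ y‖ ^ 2
      ≤ (Real.exp (Cs * (1 + g) - a + 3 * t) * Real.sqrt (∑ j ∈ J, ‖Sl.s' ⟪j⟫ y‖ ^ 2)) ^ 2 :=
        pow_le_pow_left₀ (norm_nonneg _) h2 2
    _ = Real.exp (2 * (Cs * (1 + g) - a + 3 * t)) * ∑ j ∈ J, ‖Sl.s' ⟪j⟫ y‖ ^ 2 := by
        rw [mul_pow, Real.sq_sqrt hsum0, ← Real.exp_nat_mul]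
        norm_num

set_option maxHeartbeats 1000000 in
theorem last_det_pf (hS : Sl.Hyp) (Ci : ℝ) (hCi : 0 < Ci) : ∃ Ce K0 : ℝ, 0 < Ce ∧ ∀ (K k ϰ L : ℝ), K0 ≤ K → 3 * K ≤ L → 0.8 * K ≤ k → k ≤ 2.2 * K → 0 < ϰ → ϰ ≤ 1 / 2 →
    ∀ (W : Walk), Sl.Fine W ϰ → ∀ (ω : Om ℝ) (n : ℕ), Sl.Term W L n ω →
      (∀ m, m ≤ n → Sl.geo (W.y m ω) ≤ Real.sqrt (u0 K)) →
      ω ∉ Sl.BadGap K L W → ω ∉ Sl.BadHit K k ϰ W → ω ∉ Sl.BadClock K k ϰ W → ω ∉ Sl.BadInv2 Ci K W →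
      ω ∉ Sl.BadEsc Ce K k ϰ W → False := by
  classical
  obtain ⟨Cs, hCs, hsup⟩ := Sl.site_suppression_pf hS
  obtain ⟨Cd, hCd, hdeep⟩ := Sl.deep_controls_pf hS
  obtain ⟨K1, hK1, hsc⟩ := ldp_scales (Cd * (2 + Ci))
  refine ⟨8 + Sl.N + 4 * Cs, max K1 (2 * (1 + |Real.log Sl.H|)), by positivity, ?_⟩
  intro K k ϰ L hK hL hk1 hk2 hϰ hϰ1 W hW ω n hT hgeo hGap hHit hClock hInv hEsc
  obtain ⟨s, hs0, hs1, e_u0, e_su0, e_u032, e_h2, e_sh2, e_h1⟩ := hsc K ((le_max_left _ _).trans hK)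
  have hK2 : 2 * (1 + |Real.log Sl.H|) ≤ K := (le_max_right _ _).trans hK
  have hlogH := abs_nonneg (Real.log Sl.H)
  have hKpos : 2 ≤ K := by linarith
  have hreg : ∀ m, W.y m ω ∈ Sl.reg := fun m => hW.dom ▸ W.y_mem m ω
  have hstrip : ∀ m, W.y m ω ∈ Sl.strip := fun m => Sl.wlk_reg_subset (hreg m)
  -- the terminal site
  obtain ⟨i0, hi0⟩ : ∃ i0 : Fin Sl.N, L ≤ Sl.k ⟪i0⟫ (W.y n ω) := by
    have h := hT.2
    unfold cutL at h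
    push Not at h
    exact h
  -- the deep sites
  set J : Finset (Fin Sl.N) := Finset.univ.filter (fun j => ∃ m, m ≤ n ∧ 3 * K ≤ Sl.k ⟪j⟫ (W.y m ω)) with hJdef
  have hJmem : ∀ j, j ∈ J ↔ ∃ m, m ≤ n ∧ 3 * K ≤ Sl.k ⟪j⟫ (W.y m ω) := by
    intro j; rw [hJdef, Finset.mem_filter]; simp
  have hJne : J.Nonempty := ⟨i0, (hJmem i0).mpr ⟨n, le_rfl, hL.trans hi0⟩⟩
  -- the other sites are shallow
  have hshallow : ∀ j, j ∉ J → ∀ m, m ≤ n → Sl.k ⟪j⟫ (W.y m ω) ≤ u0 K := by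
    intro j hj m hm
    by_contra hcon
    push Not at hcon
    refine hGap ⟨n, hT, j, ⟨m, hm, hcon⟩, fun m' hm' => ?_⟩
    by_contra h3
    push Not at h3
    exact hj ((hJmem j).mpr ⟨m', hm', h3⟩)
  -- first hits
  set Tf : Fin Sl.N → ℕ := fun j => sInf {m | k - ϰ ≤ Sl.k ⟪j⟫ (W.y m ω)} with hTf
  have hTne : ∀ j ∈ J, ∃ m, m ≤ n ∧ 3 * K ≤ Sl.k ⟪j⟫ (W.y m ω) ∧ m ∈ {m | k - ϰ ≤ Sl.k ⟪j⟫ (W.y m ω)} := by
    intro j hj
    obtain ⟨m, hm, h3⟩ := (hJmem j).mp hj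
    exact ⟨m, hm, h3, by show k - ϰ ≤ _; linarith⟩
  have hTf_mem : ∀ j ∈ J, k - ϰ ≤ Sl.k ⟪j⟫ (W.y (Tf j) ω) := by
    intro j hj
    obtain ⟨m, _, _, hm⟩ := hTne j hj
    exact Nat.sInf_mem (s := {m | k - ϰ ≤ Sl.k ⟪j⟫ (W.y m ω)}) ⟨m, hm⟩
  have hTf_lt : ∀ j m, m < Tf j → Sl.k ⟪j⟫ (W.y m ω) < k - ϰ := by
    intro j m hm
    have := Nat.notMem_of_lt_sInf hm
    exact not_le.mp this
  have hTf_le : ∀ j m, k - ϰ ≤ Sl.k ⟪j⟫ (W.y m ω) → Tf j ≤ m := fun j m hm => Nat.sInf_le hm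
  obtain ⟨i, hiJ, hTi⟩ := Finset.exists_mem_eq_sup J hJne Tf
  set T : ℕ := J.sup Tf with hTdef
  have hHitIff : ∀ m, (∀ j ∈ J, Sl.Hit W j (k - ϰ) m ω) ↔ T ≤ m := by
    intro m
    rw [hTdef, Finset.sup_le_iff]
    constructor
    · intro h j hj
      obtain ⟨m', hm', h1⟩ := h j hj
      exact (hTf_le j m' h1).trans hm'
    · intro h j hj
      exact ⟨Tf j, h j hj, hTf_mem j hj⟩
  -- robustness at the last first hit
  have hrob : Sl.Sh.Rob (h1 K) (rrob K k / 2) (Sl.s ⟪i⟫ (W.y T ω)) := by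
    by_contra hcon
    refine hHit ⟨T, i, fun m hm => hTf_lt i m (hTi ▸ hm), ?_, hcon⟩
    rw [hTi]; exact hTf_mem i hiJ
  -- the depth at the last first hit
  have hkT : Sl.k ⟪i⟫ (W.y T ω) < k := by
    rcases Nat.eq_zero_or_pos T with h0 | h0
    · exfalso
      have h1 : k - ϰ ≤ Sl.k ⟪i⟫ (W.y T ω) := by rw [hTi]; exact hTf_mem i hiJ
      rw [h0] at h1
      obtain ⟨x, -, hx⟩ := W.y_zero_mem ω
      rw [hx] at h1
      have h2 : (Sl.s ⟪i⟫ (x : ℂ)).im = 0 := (hS.nice.real x ⟪i⟫).1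
      have h3 : Sl.k ⟪i⟫ (x : ℂ) = -Real.log Sl.H := by
        unfold Slice.k δ
        rw [h2, abs_zero, sub_zero]
      rw [h3] at h1
      have h4 := neg_abs_le (Real.log Sl.H)
      linarith
    · obtain ⟨T', hT'⟩ : ∃ T', T = T' + 1 := ⟨T - 1, by omega⟩
      have h1 : Sl.k ⟪i⟫ (W.y T' ω) < k - ϰ := hTf_lt i T' (by rw [← hTi, hT']; omega)
      have h2 := hW.k _ (hreg T') _ (sphere_subset_closedBall (W.y_succ_mem T' ω)) i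
      have h3 := (abs_le.mp h2).2
      rw [hT']
      linarith
  -- the escape
  obtain ⟨ms, hms, h3K, hmsT⟩ := hTne i hiJ
  have hTms : T ≤ ms := by rw [hTi]; exact hTf_le i ms hmsT
  have hrr : rrob K k ≤ Real.exp (-k) := by
    unfold rrob
    apply Real.exp_le_exp.mpr
    have : 0 ≤ h1 K := by rw [e_h1]; positivity
    linarith
  have hesc : rrob K k / 2 ≤ ‖Sl.s ⟪i⟫ (W.y ms ω) - Sl.s ⟪i⟫ (W.y T ω)‖ := by
    have d1 := Sl.ldp_δ_eq hS ⟪i⟫ _ (hstrip ms)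
    have d2 := Sl.ldp_δ_eq hS ⟪i⟫ _ (hstrip T)
    have b1 : Sl.δ ⟪i⟫ (W.y ms ω) ≤ Real.exp (-(3 * K)) := by
      rw [d1]; exact Real.exp_le_exp.mpr (by linarith)
    have b2 : Real.exp (-k) ≤ Sl.δ ⟪i⟫ (W.y T ω) := by
      rw [d2]; exact Real.exp_le_exp.mpr (by linarith)
    have b3 : Real.exp (-(3 * K)) ≤ Real.exp (-k) / 2 := by
      have e : Real.exp (-k) = Real.exp (-(3 * K)) * Real.exp (3 * K - k) := by
        rw [← Real.exp_add]; congr 1; ring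
      have h5 : 2 ≤ Real.exp (3 * K - k) := by
        have := Real.add_one_le_exp (3 * K - k)
        linarith
      have h6 := Real.exp_pos (-(3 * K))
      rw [e]
      nlinarith
    have b4 := Complex.abs_im_le_norm (Sl.s ⟪i⟫ (W.y ms ω) - Sl.s ⟪i⟫ (W.y T ω))
    rw [Complex.sub_im] at b4
    have b5 := abs_abs_sub_abs_le_abs_sub (Sl.s ⟪i⟫ (W.y ms ω)).im (Sl.s ⟪i⟫ (W.y T ω)).im
    have b6 := le_abs_self (|(Sl.s ⟪i⟫ (W.y ms ω)).im| - |(Sl.s ⟪i⟫ (W.y T ω)).im|)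
    unfold δ at b1 b2
    linarith
  have hex : ∃ n', T ≤ n' ∧ rrob K k / 2 ≤ ‖Sl.s ⟪i⟫ (W.y n' ω) - Sl.s ⟪i⟫ (W.y T ω)‖ := ⟨ms, hTms, hesc⟩
  set ne : ℕ := Nat.find hex with hne
  have hne1 : T ≤ ne ∧ rrob K k / 2 ≤ ‖Sl.s ⟪i⟫ (W.y ne ω) - Sl.s ⟪i⟫ (W.y T ω)‖ := Nat.find_spec hex
  have hne2 : ne ≤ n := (Nat.find_min' hex ⟨hTms, hesc⟩).trans hms
  have hne3 : ∀ m, T ≤ m → m < ne → ‖Sl.s ⟪i⟫ (W.y m ω) - Sl.s ⟪i⟫ (W.y T ω)‖ < rrob K k / 2 := by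
    intro m hm1 hm2
    have := Nat.find_min hex hm2
    push Not at this
    exact this hm1
  obtain ⟨hD1, hD2⟩ := Sl.ldp_disp W J (k - ϰ) i ω T hHitIff ne hne1.1
  -- it remains to bound the clock
  refine hEsc ⟨J, i, ne, ?_, by rw [hD1]; exact hne1.2⟩
  rw [hD2]
  have hs2 : s ≤ s ^ 2 := by nlinarith
  have hs3 : s ^ 2 ≤ s ^ 3 := by nlinarith [sq_nonneg s]
  have hs4 : s ^ 3 ≤ s ^ 4 := by nlinarith [pow_pos (by linarith : 0 < s) 3]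
  have hqs0 : ∀ (j : Fin Sl.N) (m : ℕ), 0 ≤ Sl.qs W j m ω := by
    intro j m
    refine le_trans ?_ (Sl.qs_bounds hS W ϰ hW j m ω).1
    unfold qy
    positivity
  have ht : Cd * (1 + s + Ci * s ^ 3) ≤ h2 K := by
    rw [e_h2]
    have h5 : 1 + s + Ci * s ^ 3 ≤ (2 + Ci) * s ^ 3 := by
      have : (2 + Ci) * s ^ 3 = 2 * s ^ 3 + Ci * s ^ 3 := by ring
      rw [this]; linarith
    calc Cd * (1 + s + Ci * s ^ 3) ≤ Cd * ((2 + Ci) * s ^ 3) := mul_le_mul_of_nonneg_left h5 hCd.le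
      _ = (Cd * (2 + Ci)) * s ^ 3 := by ring
      _ ≤ s * s ^ 3 := mul_le_mul_of_nonneg_right hs0 (by positivity)
      _ = s ^ 4 := by ring
  -- pointwise domination
  have hpt : ∀ m ∈ Finset.Ico T ne, Sl.qs W i m ω
      ≤ (Real.exp (2 * ϰ) * Real.exp (2 * (Cs * (1 + s) - h1 K + 3 * h2 K))) * ∑ j ∈ J, Sl.qs W j m ω := by
    intro m hm
    obtain ⟨hm1, hm2⟩ := Finset.mem_Ico.mp hm
    have hmn : m ≤ n := hm2.le.trans hne2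
    have hg : Sl.geo (W.y m ω) ≤ s := e_su0 ▸ hgeo m hmn
    have ha : h1 K ≤ |Sl.a ⟪i⟫ (W.y m ω)| := by
      have := hrob (Sl.s ⟪i⟫ (W.y m ω)) (by
        rw [mem_closedBall, dist_eq_norm]; exact (hne3 m hm1 hm2).le)
      exact this
    have hinv : ∀ F : Finset (Fin Sl.N), F ⊆ J → ∀ a b, ‖(Sl.Bmat Jᶜ F (W.y m ω))⁻¹ a b‖ ≤ Real.exp (Ci * s ^ 3) := by
      intro F hF a b
      by_contra hcon
      push Not at hcon
      refine hInv ⟨Jᶜ, F, ⟨(Finset.compl_ne_univ_iff_nonempty J).mpr hJne, ?_⟩, m, ?_, a, b, ?_⟩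
      · rw [Finset.disjoint_left]
        intro c hc hcF
        exact (Finset.mem_compl.mp hc) (hF hcF)
      · intro m' hm'
        have hm'n : m' ≤ n := hm'.trans hmn
        refine ⟨?_, fun c hc => ?_⟩
        · have := hgeo m' hm'n
          rw [e_su0] at this
          rw [e_u0]
          linarith [hs2, sq_nonneg s]
        · have := hshallow c (Finset.mem_compl.mp hc) m' hm'n
          have h0 : 0 ≤ u0 K := by rw [e_u0]; positivity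
          linarith
      · rw [e_u032]; exact hcon
    have hp := Sl.ldp_point hsup hdeep (W.y m ω) (hreg m) J hJne s (Ci * s ^ 3) (h2 K) (h1 K) (by linarith)
      (by positivity) ht hg hinv i ha
    have hq0 : 0 ≤ Sl.qy W m ω := by unfold qy; positivity
    have hu := (Sl.qs_bounds hS W ϰ hW i m ω).2
    have hl : ∑ j ∈ J, ‖Sl.s' ⟪j⟫ (W.y m ω)‖ ^ 2 * Sl.qy W m ω ≤ ∑ j ∈ J, Sl.qs W j m ω :=
      Finset.sum_le_sum fun j _ => (Sl.qs_bounds hS W ϰ hW j m ω).1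
    calc Sl.qs W i m ω ≤ Real.exp (2 * ϰ) * (‖Sl.s' ⟪i⟫ (W.y m ω)‖ ^ 2 * Sl.qy W m ω) := hu
      _ ≤ Real.exp (2 * ϰ) * ((Real.exp (2 * (Cs * (1 + s) - h1 K + 3 * h2 K))
            * ∑ j ∈ J, ‖Sl.s' ⟪j⟫ (W.y m ω)‖ ^ 2) * Sl.qy W m ω) := by gcongr
      _ = (Real.exp (2 * ϰ) * Real.exp (2 * (Cs * (1 + s) - h1 K + 3 * h2 K)))
            * ∑ j ∈ J, ‖Sl.s' ⟪j⟫ (W.y m ω)‖ ^ 2 * Sl.qy W m ω := by
          rw [← Finset.sum_mul]; ring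
      _ ≤ _ := by gcongr
  -- the clocks of the deep sites
  have hcl : ∀ j ∈ J, ∑ m ∈ Finset.Ico T ne, Sl.qs W j m ω ≤ Real.exp (-(2 * k) + s ^ 2) := by
    intro j hj
    have hTj : Tf j ≤ T := Finset.le_sup (f := Tf) hj
    have h5 : ∑ m ∈ Finset.Ico T ne, Sl.qs W j m ω ≤ ∑ m ∈ Finset.Ico (Tf j) ne, Sl.qs W j m ω :=
      Finset.sum_le_sum_of_subset_of_nonneg (Finset.Ico_subset_Ico hTj le_rfl) (fun m _ _ => hqs0 j m)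
    refine h5.trans ?_
    by_contra hcon
    push Not at hcon
    refine hClock ⟨j, Tf j, ne, hTj.trans hne1.1, hTf_mem j hj, ?_⟩
    rw [e_sh2]; exact hcon
  have hcard : (J.card : ℝ) ≤ Sl.N := by
    have := Finset.card_le_univ J
    rw [Fintype.card_fin] at this
    exact_mod_cast this
  have hN : (Sl.N : ℝ) ≤ Real.exp Sl.N := by
    have := Real.add_one_le_exp (Sl.N : ℝ)
    linarith
  calc ∑ m ∈ Finset.Ico T ne, Sl.qs W i m ω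
      ≤ ∑ m ∈ Finset.Ico T ne, (Real.exp (2 * ϰ) * Real.exp (2 * (Cs * (1 + s) - h1 K + 3 * h2 K)))
          * ∑ j ∈ J, Sl.qs W j m ω := Finset.sum_le_sum hpt
    _ = (Real.exp (2 * ϰ) * Real.exp (2 * (Cs * (1 + s) - h1 K + 3 * h2 K)))
          * ∑ j ∈ J, ∑ m ∈ Finset.Ico T ne, Sl.qs W j m ω := by
        rw [← Finset.mul_sum, Finset.sum_comm]
    _ ≤ (Real.exp (2 * ϰ) * Real.exp (2 * (Cs * (1 + s) - h1 K + 3 * h2 K)))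
          * ∑ j ∈ J, Real.exp (-(2 * k) + s ^ 2) := by
        gcongr with j hj
        exact hcl j hj
    _ = (Real.exp (2 * ϰ) * Real.exp (2 * (Cs * (1 + s) - h1 K + 3 * h2 K)))
          * ((J.card : ℝ) * Real.exp (-(2 * k) + s ^ 2)) := by
        rw [Finset.sum_const, nsmul_eq_mul]
    _ ≤ (Real.exp (2 * ϰ) * Real.exp (2 * (Cs * (1 + s) - h1 K + 3 * h2 K)))
          * (Real.exp Sl.N * Real.exp (-(2 * k) + s ^ 2)) := by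
        gcongr
        exact hcard.trans hN
    _ = Real.exp (2 * ϰ + 2 * (Cs * (1 + s) - h1 K + 3 * h2 K) + (Sl.N + (-(2 * k) + s ^ 2))) := by
        rw [← Real.exp_add, ← Real.exp_add, ← Real.exp_add]
    _ ≤ Real.exp (-(2 * k) + (8 + Sl.N + 4 * Cs) * h2 K - 2 * h1 K) := by
        apply Real.exp_le_exp.mpr
        rw [e_h2]
        have hN0 : (0 : ℝ) ≤ Sl.N := Nat.cast_nonneg _
        have g1 : (1 : ℝ) ≤ s ^ 4 := by linarith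
        have g2 : Cs * (1 + s) ≤ Cs * (2 * s ^ 4) := mul_le_mul_of_nonneg_left (by linarith) hCs.le
        have g3 : (Sl.N : ℝ) * 1 ≤ Sl.N * s ^ 4 := mul_le_mul_of_nonneg_left g1 hN0
        have g4 : (8 + (Sl.N : ℝ) + 4 * Cs) * s ^ 4 = 8 * s ^ 4 + Sl.N * s ^ 4 + 2 * (Cs * (2 * s ^ 4)) := by ring
        rw [g4]
        linarith

end Slice

end Claimed.Agent.R269
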