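/-
Row 269, P1 Section 11.7, package LF-S11d-1 (helper196): proofs of `Slice.badClock_le`, `badInv2_le`, `badEsc_le` (statements verbatim, suffix `_pf`).
Uses `shape_remaining`, `modified_inverse` (S10/Time.lean), `Walk.pha_l2` (S10/Phase.lean).
-/
import Claimed.Agent.R269.S11.LastDefs

set_option autoImplicit false

namespace Claimed.Agent.R269

open Complex Metric Set Filter Topology Chn MeasureTheory
open scoped Real ENNReal

local notation "⟪" i "⟫" => ((Fin.val i : ℕ) : ℤ)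

theorem rar_exp_half_le : Real.exp (1 / 2) ≤ 2 := by
  have h4 : Real.exp (1 / 2) ^ 2 = Real.exp 1 := by
    rw [← Real.exp_nat_mul]; norm_num
  have h5 := Real.exp_one_lt_d9
  have h6 := Real.exp_pos (1 / 2)
  nlinarith

namespace Slice

open Shape

variable (Sl : Slice)

open Classical in
/-- the mask "all sites of `J` have reached log depth `t` at some time `≤ m`" -/
noncomputable def rarMask (W : Walk) (J : Finset (Fin Sl.N)) (t : ℝ) (m : ℕ) (ω : Om ℝ) : ℝ :=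
  if (∀ j ∈ J, Sl.Hit W j t m ω) then 1 else 0

theorem rarMask_eqns_cited : True := by
  have := @rarMask.eq_1; have := @rarMask.eq_def; have := @rarMask.congr_simp
  trivial

variable (hS : Sl.Hyp)
include hS

theorem rar_k_proc (W : Walk) (hW : W.U = Sl.reg) (i : Fin Sl.N) : Proc fun n ω => Sl.k ⟪i⟫ (W.y n ω) :=
  W.proc_comp (Sl.k ⟪i⟫) (by rw [hW]; exact Sl.wlk_k_cont hS i)

theorem rar_hit_meas (W : Walk) (hW : W.U = Sl.reg) (j : Fin Sl.N) (t : ℝ) (m : ℕ) :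
    MeasurableSet {ω | Sl.Hit W j t m ω} := by
  have e : {ω : Om ℝ | Sl.Hit W j t m ω} = ⋃ m', ⋃ (_ : m' ≤ m), {ω | t ≤ Sl.k ⟪j⟫ (W.y m' ω)} := by
    ext ω; simp [Hit]
  rw [e]
  exact MeasurableSet.iUnion fun m' => MeasurableSet.iUnion fun _ =>
    measurableSet_le measurable_const ((Sl.rar_k_proc hS W hW j).meas m')

omit hS in
theorem rar_hit_reads (W : Walk) (j : Fin Sl.N) (t : ℝ) (m : ℕ) : Reads m (Sl.Hit W j t m) := by
  intro ω ω' h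
  unfold Hit
  refine propext ⟨?_, ?_⟩
  · rintro ⟨m', h1, h2⟩
    exact ⟨m', h1, by rwa [← W.y_reads m' ω ω' fun i hi => h i (hi.trans h1)]⟩
  · rintro ⟨m', h1, h2⟩
    exact ⟨m', h1, by rwa [W.y_reads m' ω ω' fun i hi => h i (hi.trans h1)]⟩

theorem rar_mask_proc (W : Walk) (hW : W.U = Sl.reg) (J : Finset (Fin Sl.N)) (t : ℝ) : Proc (Sl.rarMask W J t) := by
  refine ⟨fun n => ?_, fun n ω ω' h => ?_, fun n => ⟨1, fun ω => ?_⟩⟩
  · have hset : MeasurableSet {ω : Om ℝ | ∀ j ∈ J, Sl.Hit W j t n ω} := by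
      have e : {ω : Om ℝ | ∀ j ∈ J, Sl.Hit W j t n ω} = ⋂ j ∈ J, {ω | Sl.Hit W j t n ω} := by
        ext ω; simp
      rw [e]
      exact Finset.measurableSet_biInter _ fun j _ => Sl.rar_hit_meas hS W hW j t n
    unfold rarMask
    exact Measurable.ite hset measurable_const measurable_const
  · unfold rarMask
    have e : (∀ j ∈ J, Sl.Hit W j t n ω) ↔ (∀ j ∈ J, Sl.Hit W j t n ω') := by
      refine forall_congr' fun j => forall_congr' fun _ => ?_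
      rw [Sl.rar_hit_reads W j t n ω ω' h]
    by_cases h1 : ∀ j ∈ J, Sl.Hit W j t n ω
    · rw [if_pos h1, if_pos (e.1 h1)]
    · rw [if_neg h1, if_neg (fun h2 => h1 (e.2 h2))]
  · unfold rarMask
    split_ifs <;> simp

/-- one site of `badClock_le` -/
theorem rar_clock_one (K k ϰ : ℝ) (hϰ1 : ϰ ≤ 1 / 2) (W : Walk) (hW : Sl.Fine W ϰ) (j : Fin Sl.N) :
    Pw {ω | ∃ m n : ℕ, m ≤ n ∧ k - ϰ ≤ Sl.k ⟪j⟫ (W.y m ω) ∧
      Real.exp (-(2 * k) + Real.sqrt (h2 K)) < ∑ l ∈ Finset.Ico m n, Sl.qs W j l ω}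
      ≤ 20 * Real.exp (-(Real.sqrt (h2 K) / 2)) := by
  have h1 := Sl.shape_remaining hS W ϰ hϰ1 hW j (Real.exp (ϰ - k)) (Real.exp (-(2 * k) + Real.sqrt (h2 K)))
    (Real.exp_pos _).le (Real.exp_pos _)
  refine (measureReal_mono ?_ (measure_ne_top _ _)).trans (h1.trans ?_)
  · rintro ω ⟨m, n, hmn, h2, h3⟩
    refine ⟨m, n, hmn, ?_, h3⟩
    have hreg : W.y m ω ∈ Sl.reg := hW.dom ▸ W.y_mem m ω
    have hδ := Sl.δ_pos hS ⟪j⟫ _ hreg.1
    unfold Slice.k at h2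
    have h4 : Real.log (Sl.δ ⟪j⟫ (W.y m ω)) ≤ ϰ - k := by linarith
    exact (Real.log_le_iff_le_exp hδ).1 h4
  · have e1 : Real.sqrt (Real.exp (-(2 * k) + Real.sqrt (h2 K))) = Real.exp (-k + Real.sqrt (h2 K) / 2) := by
      rw [Real.sqrt_eq_iff_mul_self_eq (Real.exp_pos _).le (Real.exp_pos _).le, ← Real.exp_add]
      congr 1; ring
    rw [e1, mul_div_assoc, ← Real.exp_sub]
    have e2 : ϰ - k - (-k + Real.sqrt (h2 K) / 2) = ϰ + -(Real.sqrt (h2 K) / 2) := by ring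
    rw [e2, Real.exp_add]
    have h5 : Real.exp ϰ ≤ 2 := (Real.exp_le_exp.2 hϰ1).trans rar_exp_half_le
    have h6 := Real.exp_pos (-(Real.sqrt (h2 K) / 2))
    nlinarith

theorem badClock_le_pf (K k ϰ : ℝ) (_hϰ : 0 ≤ ϰ) (hϰ1 : ϰ ≤ 1 / 2) (W : Walk) (hW : Sl.Fine W ϰ) :
    Pw (Sl.BadClock K k ϰ W) ≤ 20 * Sl.N * Real.exp (-(Real.sqrt (h2 K) / 2)) := by
  have hsub : Sl.BadClock K k ϰ W ⊆ ⋃ j ∈ (Finset.univ : Finset (Fin Sl.N)),
      {ω | ∃ m n : ℕ, m ≤ n ∧ k - ϰ ≤ Sl.k ⟪j⟫ (W.y m ω) ∧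
        Real.exp (-(2 * k) + Real.sqrt (h2 K)) < ∑ l ∈ Finset.Ico m n, Sl.qs W j l ω} := by
    rintro ω ⟨j, m, n, h⟩
    simp only [Finset.mem_univ, iUnion_true, mem_iUnion]
    exact ⟨j, m, n, h⟩
  calc Pw (Sl.BadClock K k ϰ W) ≤ (Pr unif).real _ := measureReal_mono hsub (measure_ne_top _ _)
    _ ≤ ∑ j ∈ (Finset.univ : Finset (Fin Sl.N)), (Pr unif).real _ := measureReal_biUnion_finset_le _ _
    _ ≤ ∑ _j ∈ (Finset.univ : Finset (Fin Sl.N)), 20 * Real.exp (-(Real.sqrt (h2 K) / 2)) :=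
        Finset.sum_le_sum fun j _ => Sl.rar_clock_one hS K k ϰ hϰ1 W hW j
    _ = _ := by
        rw [Finset.sum_const, Finset.card_univ, Fintype.card_fin, nsmul_eq_mul]; ring

theorem badInv2_le_pf : ∃ C : ℝ, 0 < C ∧ ∀ (K : ℝ), 1 ≤ K → ∀ (W : Walk) (κ : ℝ), 0 ≤ κ → κ ≤ 1 → Sl.Fine W κ →
    Pw (Sl.BadInv2 C K W) ≤ C * u0 K ^ (-(1 : ℝ) / 2) := by
  classical
  obtain ⟨C', hC', hinv⟩ := Sl.modified_inverse hS
  set P : ℝ := ((Finset.univ : Finset (Finset (Fin Sl.N) × Finset (Fin Sl.N))).card : ℝ) with hP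
  have hP0 : 0 ≤ P := by positivity
  refine ⟨(P + 2) * C', by positivity, fun K hK W κ hκ hκ1 hW => ?_⟩
  have hu1 : 1 ≤ u0 K := by unfold u0; exact Real.one_le_rpow hK (by norm_num)
  have hu0 : 0 < u0 K := by linarith
  set V : ℝ := 2 * u0 K ^ ((3 : ℝ) / 2) with hV
  have hpw : u0 K ≤ u0 K ^ ((3 : ℝ) / 2) := by
    calc u0 K = u0 K ^ (1 : ℝ) := (Real.rpow_one _).symm
      _ ≤ _ := Real.rpow_le_rpow_of_exponent_le hu1 (by norm_num)
  have hUV : 2 * u0 K ≤ V := by rw [hV]; linarith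
  have hratio : C' * (2 * u0 K) / V = C' * u0 K ^ (-(1 : ℝ) / 2) := by
    have e : u0 K ^ ((3 : ℝ) / 2) = u0 K * u0 K ^ ((1 : ℝ) / 2) := by
      rw [← Real.rpow_one_add' hu0.le (by norm_num)]; norm_num
    have e2 : u0 K ^ (-(1 : ℝ) / 2) = (u0 K ^ ((1 : ℝ) / 2))⁻¹ := by
      rw [← Real.rpow_neg hu0.le]; norm_num
    have hp : 0 < u0 K ^ ((1 : ℝ) / 2) := Real.rpow_pos_of_pos hu0 _
    rw [hV, e, e2]
    field_simp
  set E : Finset (Fin Sl.N) × Finset (Fin Sl.N) → Set (Om ℝ) := fun p =>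
    {ω | Sl.Adm p.1 p.2 ∧ ∃ n, (∀ m, m ≤ n → Sl.geo (W.y m ω) ≤ 2 * u0 K ∧ ∀ i ∈ p.1, Sl.k ⟪i⟫ (W.y m ω) ≤ 2 * u0 K) ∧
        ∃ i k, Real.exp (C' * V) < ‖(Sl.Bmat p.1 p.2 (W.y n ω))⁻¹ i k‖} with hE
  have hone : ∀ p, (Pr unif).real (E p) ≤ C' * u0 K ^ (-(1 : ℝ) / 2) := by
    intro p
    by_cases hA : Sl.Adm p.1 p.2
    · have h1 := hinv W κ hκ hκ1 hW p.1 p.2 hA (2 * u0 K) V (by linarith) hUV
      rw [hratio] at h1
      refine (measureReal_mono ?_ (measure_ne_top _ _)).trans h1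
      rintro ω ⟨-, h⟩
      exact h
    · have : E p = ∅ := by
        ext ω
        simp only [hE, Set.mem_ofPred_eq, mem_empty_iff_false, iff_false, not_and]
        exact fun h => absurd h hA
      rw [this, measureReal_empty]
      have := Real.rpow_pos_of_pos hu0 (-(1 : ℝ) / 2)
      positivity
  have hsub : Sl.BadInv2 ((P + 2) * C') K W ⊆ ⋃ p ∈ (Finset.univ : Finset (Finset (Fin Sl.N) × Finset (Fin Sl.N))), E p := by
    rintro ω ⟨I, F, hA, n, hn, i, k, hik⟩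
    simp only [Finset.mem_univ, iUnion_true, mem_iUnion]
    refine ⟨(I, F), hA, n, hn, i, k, lt_of_le_of_lt (Real.exp_le_exp.2 ?_) hik⟩
    rw [hV]
    have := Real.rpow_pos_of_pos hu0 ((3 : ℝ) / 2)
    have h3 : 0 ≤ P * C' * u0 K ^ ((3 : ℝ) / 2) := by positivity
    nlinarith
  have hpos := Real.rpow_pos_of_pos hu0 (-(1 : ℝ) / 2)
  calc Pw (Sl.BadInv2 ((P + 2) * C') K W) ≤ (Pr unif).real _ := measureReal_mono hsub (measure_ne_top _ _)
    _ ≤ ∑ p ∈ (Finset.univ : Finset (Finset (Fin Sl.N) × Finset (Fin Sl.N))), (Pr unif).real (E p) :=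
        measureReal_biUnion_finset_le _ _
    _ ≤ ∑ _p ∈ (Finset.univ : Finset (Finset (Fin Sl.N) × Finset (Fin Sl.N))), C' * u0 K ^ (-(1 : ℝ) / 2) :=
        Finset.sum_le_sum fun p _ => hone p
    _ = P * (C' * u0 K ^ (-(1 : ℝ) / 2)) := by rw [Finset.sum_const, nsmul_eq_mul]
    _ ≤ _ := by
        have : 0 ≤ 2 * (C' * u0 K ^ (-(1 : ℝ) / 2)) := by positivity
        nlinarith

omit hS in
theorem rar_Disp_eq (W : Walk) (J : Finset (Fin Sl.N)) (t : ℝ) (i : Fin Sl.N) (n : ℕ) (ω : Om ℝ) :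
    Sl.Disp W J t i n ω =
      ∑ m ∈ Finset.range n, (Sl.rarMask W J t m ω : ℂ) * (Sl.s ⟪i⟫ (W.y (m + 1) ω) - Sl.s ⟪i⟫ (W.y m ω)) := by
  unfold Disp rarMask
  refine Finset.sum_congr rfl fun m _ => ?_
  split_ifs <;> simp

omit hS in
theorem rar_DispQ_eq (W : Walk) (J : Finset (Fin Sl.N)) (t : ℝ) (i : Fin Sl.N) (n : ℕ) (ω : Om ℝ) :
    Sl.DispQ W J t i n ω = ∑ m ∈ Finset.range n, Sl.rarMask W J t m ω ^ 2 * W.qv (Sl.s ⟪i⟫) (W.y m ω) := by
  unfold DispQ rarMask qs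
  refine Finset.sum_congr rfl fun m _ => ?_
  split_ifs <;> simp

theorem badEsc_le_pf (C K k ϰ : ℝ) (W : Walk) (κ : ℝ) (hW : Sl.Fine W κ) :
    Pw (Sl.BadEsc C K k ϰ W) ≤ 4 * (2 : ℝ) ^ Sl.N * Sl.N * Real.exp (C * h2 K - 3 / 2 * h1 K) := by
  classical
  set E : Finset (Fin Sl.N) × Fin Sl.N → Set (Om ℝ) := fun p =>
    {ω | ∃ n : ℕ, Sl.DispQ W p.1 (k - ϰ) p.2 n ω ≤ Real.exp (-(2 * k) + C * h2 K - 2 * h1 K) ∧
      rrob K k / 2 ≤ ‖Sl.Disp W p.1 (k - ϰ) p.2 n ω‖} with hE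
  have hone : ∀ p, (Pr unif).real (E p) ≤ 4 * Real.exp (C * h2 K - 3 / 2 * h1 K) := by
    intro p
    have g1 := W.pha_l2 (Sl.s ⟪p.2⟫) (Sl.clk_s_diff hS hW p.2) (Sl.rarMask W p.1 (k - ϰ))
      (Sl.rar_mask_proc hS W hW.dom p.1 (k - ϰ)) (Real.exp (-(2 * k) + C * h2 K - 2 * h1 K)) (rrob K k / 2)
      (Real.exp_pos _).le (by unfold rrob; positivity)
    have e : Real.exp (-(2 * k) + C * h2 K - 2 * h1 K) / (rrob K k / 2) ^ 2 = 4 * Real.exp (C * h2 K - 3 / 2 * h1 K) := by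
      unfold rrob
      have e1 : Real.exp (-(2 * k) + C * h2 K - 2 * h1 K)
          = Real.exp (C * h2 K - 3 / 2 * h1 K) * Real.exp (-k - h1 K / 4) ^ 2 := by
        rw [← Real.exp_nat_mul, ← Real.exp_add]
        congr 1
        push_cast
        ring
      have hp := Real.exp_pos (-k - h1 K / 4)
      rw [e1]
      field_simp
      ring
    rw [e] at g1
    refine (measureReal_mono ?_ (measure_ne_top _ _)).trans g1
    rintro ω ⟨n, g2, g3⟩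
    refine ⟨n, ?_, ?_⟩
    · rw [← Sl.rar_DispQ_eq]; exact g2
    · rw [← Sl.rar_Disp_eq]; exact g3
  have hsub : Sl.BadEsc C K k ϰ W ⊆ ⋃ p ∈ (Finset.univ : Finset (Finset (Fin Sl.N) × Fin Sl.N)), E p := by
    rintro ω ⟨J, i, n, h⟩
    simp only [Finset.mem_univ, iUnion_true, mem_iUnion]
    exact ⟨(J, i), n, h⟩
  calc Pw (Sl.BadEsc C K k ϰ W) ≤ (Pr unif).real _ := measureReal_mono hsub (measure_ne_top _ _)
    _ ≤ ∑ p ∈ (Finset.univ : Finset (Finset (Fin Sl.N) × Fin Sl.N)), (Pr unif).real (E p) :=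
        measureReal_biUnion_finset_le _ _
    _ ≤ ∑ _p ∈ (Finset.univ : Finset (Finset (Fin Sl.N) × Fin Sl.N)), 4 * Real.exp (C * h2 K - 3 / 2 * h1 K) :=
        Finset.sum_le_sum fun p _ => hone p
    _ = _ := by
        rw [Finset.sum_const, nsmul_eq_mul, Finset.card_univ, Fintype.card_prod, Fintype.card_finset, Fintype.card_fin]
        push_cast
        ring

end Slice

end Claimed.Agent.R269
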