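/-
Row 269, P1 Sections 11.6-11.7: first-hit law at the tested row, history gap, two derivative bounds, THE LAST-SITE CONTRADICTION.
Owner: helper171.  DISCRETE VERSION (see S10/Walk.lean).  Scales of P1 for a level `K`:
   `α = 1/100`, `u₀ = K^{α/8}`, `h₂ = K^{α/4}`, `h₁ = K^{α/2}/2`, tested level `k = kf K ∈ [0.8K, 2.2K]`, `d = e^{-k}`, `r_rob = d e^{-h₁/4}`.
The deterministic input from 11.1-11.5 is `RowTest` (Theorem 11.7 + the deterministic half of Proposition 11.8); it is proved in S11/Row*.lean.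
"First hit of the tested depth" = first time with `k_j ≥ k - ϰ`, `ϰ = ϰf K` a margin not smaller than the fineness of the walk.
Black boxes: S10/*.lean, Lib/*.lean.
RULES: put the proofs of your package in the file named in its description; do not change a statement without telling helper171.
The DEFINITIONS (Hit, Term, Mn, gam, BadGap, BadHit, BadClock, BadInv2, Disp, DispQ, BadEsc) live in S11/LastDefs.lean: proof files (`*Pf.lean`) import THAT file, and this file imports them.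
-/
import Claimed.Agent.R269.S11.LastDefs
import Claimed.Agent.R269.S11.DerivPf
import Claimed.Agent.R269.S11.LastDetPf
import Claimed.Agent.R269.S11.GapPf
import Claimed.Agent.R269.S11.RarePf
import Claimed.Agent.R269.S11.HitPf

set_option autoImplicit false

namespace Claimed.Agent.R269

open Complex Metric Set Filter Topology Chn MeasureTheory
open scoped Real ENNReal

local notation "⟪" i "⟫" => ((Fin.val i : ℕ) : ℤ)

namespace Slice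

open Shape

variable (Sl : Slice)

theorem la_h2_top : Tendsto h2 atTop atTop := by
  unfold h2; exact tendsto_rpow_atTop (by norm_num)

theorem la_u0_top : Tendsto u0 atTop atTop := by
  unfold u0; exact tendsto_rpow_atTop (by norm_num)

theorem la_lim_b (c : ℝ) : Tendsto (fun K => c * Real.exp (-(Real.sqrt (h2 K) / 2))) atTop (𝓝 0) := by
  have h : Tendsto (fun K => Real.sqrt (h2 K) / 2) atTop atTop :=
    (Real.tendsto_sqrt_atTop.comp la_h2_top).atTop_div_const (by norm_num)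
  have := (Real.tendsto_exp_neg_atTop_nhds_zero.comp h).const_mul c
  rw [mul_zero] at this
  exact this

theorem la_lim_c (c : ℝ) : Tendsto (fun K => c * u0 K ^ (-(1 : ℝ) / 2)) atTop (𝓝 0) := by
  have h : Tendsto (fun x : ℝ => x ^ (-(1 / 2 : ℝ))) atTop (𝓝 0) := tendsto_rpow_neg_atTop (by norm_num)
  have := (h.comp la_u0_top).const_mul c
  rw [mul_zero] at this
  refine this.congr fun K => ?_
  simp only [Function.comp]
  congr 2
  ring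

theorem la_lim_d (c C : ℝ) (hc : 0 ≤ c) : Tendsto (fun K => c * Real.exp (C * h2 K - 3 / 2 * h1 K)) atTop (𝓝 0) := by
  have h := (Real.tendsto_exp_neg_atTop_nhds_zero.comp la_h2_top).const_mul c
  rw [mul_zero] at h
  refine squeeze_zero' (Eventually.of_forall fun K => by positivity) ?_ h
  filter_upwards [la_h2_top.eventually_ge_atTop ((C + 1) / (3 / 4)), eventually_gt_atTop 0, la_h2_top.eventually_ge_atTop 0] with K hK hKp hK0
  refine mul_le_mul_of_nonneg_left (Real.exp_le_exp.2 ?_) hc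
  have e : h1 K = h2 K * h2 K / 2 := by
    unfold h1 h2
    rw [← Real.rpow_add hKp]; norm_num
  rw [div_le_iff₀ (by norm_num)] at hK
  rw [e]
  nlinarith

theorem la_gam_pos (m : ℕ) : 0 < Sl.gam m := by unfold gam; positivity

theorem la_gam_ge (m : ℕ) : Sl.gam 0 ≤ Sl.gam m := by
  unfold gam
  exact pow_le_pow_of_le_one (by norm_num) (by norm_num) (by omega)

theorem la_gam_le (m : ℕ) (hm : m < Sl.Mn) : Sl.gam m ≤ 1 / 1600 := by
  unfold gam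
  calc ((1 : ℝ) / 1600) ^ (Sl.Mn - m) ≤ ((1 : ℝ) / 1600) ^ 1 := pow_le_pow_of_le_one (by norm_num) (by norm_num) (by omega)
    _ = _ := pow_one _

variable (hS : Sl.Hyp)
include hS

/-! ### LF-S11c-1: the first-hit law (Proposition 11.8, second half; replaces Lemma 10.4 (ii)) -/

/-- **First hits are robust.**  `b = H - e^{-k}`.  `B'_σ = {x' : [x'-r/4, x'+r/4] ⊆ Bad_σ}` (`r = r_rob`, `Bad_σ` = the `2π`-periodic set of non-robust points of the row),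
`χ_σ = max(0, 1 - 4 dist(x, B'_σ)/r)` (`0` if `B'_σ = ∅`): continuous, periodic, `= 1` on `B'_σ`, `{χ_σ > 0} ⊆ Bad_σ`; `V = dirichlet b χ₊ χ₋ ≥ 0`;
`ϰ` so small that `|V z - V w| < 1/2` for `|z-w| ≤ 2ϰ e^{-k}` (`cyl_unifCont`) and `2ϰ e^{-k} ≤ r/4`.  `V(s_j(y_n))` is a martingale under the cut `k_j < k - ϰ`
(`HMV.mean`, `Fine.k`); `ville_mean` with `lam = 1/2`; `integral_start`, `start_density`.  At a non-robust first hit `z = x' ± i(H-δ)`, `δ ∈ (d, d e^ϰ]`: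
`x' ∈ B'`, so `V(z) > 1/2`. -/
theorem first_hit (kf : ℝ → ℝ) (hk : Sl.Sh.RowTest kf) : ∃ ϰf : ℝ → ℝ, (∀ K, 0 < ϰf K ∧ ϰf K ≤ 1 / 2) ∧
    ∀ ε : ℝ, 0 < ε → ∃ K0 : ℝ, ∀ K, K0 ≤ K → ∀ W : Walk, Sl.Fine W (ϰf K) → Pw (Sl.BadHit K (kf K) (ϰf K) W) ≤ ε := by
  exact Sl.first_hit_pf hS kf hk

/-! ### LF-S11c-2: the history gap (Lemma 11.9) -/

/-- the bad events are measurable, and every path lies in at most `N` of them (the intervals `(L^{γ_m α/8}, 3 L^{γ_m})` are pairwise disjoint for large `L`;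
`n = τ_L` is unique), so one of the `M = 10N+1` has probability `≤ N/M < 1/10`. -/
theorem history_gap : ∃ L0 : ℝ, ∀ L, L0 ≤ L → ∀ (W : Walk) (κ : ℝ), Sl.Fine W κ →
    ∃ m, m < Sl.Mn ∧ Pw (Sl.BadGap (L ^ Sl.gam m) L W) ≤ 1 / 10 := by
  exact Sl.history_gap_pf hS

/-! ### LF-S11c-3: two derivative bounds (Lemma 11.10), pointwise -/

/-- (11.27) `|s_i'| ≤ e^{C(1+g) - |a_i|} w_max` under the geometry cap `𝒢 ≤ g` -/
theorem site_suppression : ∃ C : ℝ, 0 < C ∧ ∀ y ∈ Sl.reg, ∀ g wm : ℝ, 0 ≤ g → Sl.geo y ≤ g →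
    (∀ j : Fin Sl.N, ‖Sl.w ⟪j⟫ y‖ ≤ wm) → ∀ i : Fin Sl.N,
    ‖Sl.s' ⟪i⟫ y‖ ≤ Real.exp (C * (1 + g) - |Sl.a ⟪i⟫ y|) * wm := by
  exact Sl.site_suppression_pf hS

/-- (11.28) `w_max ≤ e^{C(g + b + t)} max_{j ∈ J} |s_j'|`: `F = {j ∈ J : a_j < -t}`, `D = J \ F`; `elim` with `I = Jᶜ`; `e^b` bounds the modified inverses;
smallness `C (1 + g + b) ≤ t`. -/
theorem deep_controls : ∃ C : ℝ, 0 < C ∧ ∀ y ∈ Sl.reg, ∀ (J : Finset (Fin Sl.N)) (g b t sm : ℝ), J.Nonempty → 0 ≤ g → 0 ≤ b →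
    C * (1 + g + b) ≤ t → Sl.geo y ≤ g →
    (∀ F : Finset (Fin Sl.N), F ⊆ J → ∀ i k, ‖(Sl.Bmat Jᶜ F y)⁻¹ i k‖ ≤ Real.exp b) →
    (∀ j ∈ J, ‖Sl.s' ⟪j⟫ y‖ ≤ sm) → ∀ i : Fin Sl.N, ‖Sl.w ⟪i⟫ y‖ ≤ Real.exp (3 * t) * sm := by
  exact Sl.deep_controls_pf hS

/-! ### LF-S11d-1: the rare events -/

theorem badClock_le (K k ϰ : ℝ) (hϰ : 0 ≤ ϰ) (hϰ1 : ϰ ≤ 1 / 2) (W : Walk) (hW : Sl.Fine W ϰ) :
    Pw (Sl.BadClock K k ϰ W) ≤ 20 * Sl.N * Real.exp (-(Real.sqrt (h2 K) / 2)) := by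
  exact Sl.badClock_le_pf hS K k ϰ hϰ hϰ1 W hW

theorem badInv2_le : ∃ C : ℝ, 0 < C ∧ ∀ (K : ℝ), 1 ≤ K → ∀ (W : Walk) (κ : ℝ), 0 ≤ κ → κ ≤ 1 → Sl.Fine W κ →
    Pw (Sl.BadInv2 C K W) ≤ C * u0 K ^ (-(1 : ℝ) / 2) := by
  exact Sl.badInv2_le_pf hS

theorem badEsc_le (C K k ϰ : ℝ) (W : Walk) (κ : ℝ) (hW : Sl.Fine W κ) :
    Pw (Sl.BadEsc C K k ϰ W) ≤ 4 * (2 : ℝ) ^ Sl.N * Sl.N * Real.exp (C * h2 K - 3 / 2 * h1 K) := by
  exact Sl.badEsc_le_pf hS C K k ϰ W κ hW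

/-! ### LF-S11d-2: the deterministic contradiction -/

/-- **No good path.**  (P1, proof of Theorem 11.11.)  `n` = `τ_L`; `J` = sites with terminal history `≥ 3K`, nonempty since `3K ≤ L`; `T` = last first hit of `k - ϰ` among `J`,
attained by `i`; `n_e` = first time after `T` with `|s_i(y_{n_e}) - s_i(y_T)| ≥ r_rob/2`: it exists before `n` because the depth of `i` falls from `≥ d` to `≤ e^{-3K}`; on `[T, n_e)`:
`|a_i| ≥ h₁`; `site_suppression`, `deep_controls` (with `g = u₀`... `t = h₂`), `qs_bounds`, `¬BadClock` give `DispQ ≤ q_K`; `¬BadEsc` gives the contradiction. -/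
theorem last_det (Ci : ℝ) (hCi : 0 < Ci) : ∃ Ce K0 : ℝ, 0 < Ce ∧ ∀ (K k ϰ L : ℝ), K0 ≤ K → 3 * K ≤ L → 0.8 * K ≤ k → k ≤ 2.2 * K → 0 < ϰ → ϰ ≤ 1 / 2 →
    ∀ (W : Walk), Sl.Fine W ϰ → ∀ (ω : Om ℝ) (n : ℕ), Sl.Term W L n ω →
      (∀ m, m ≤ n → Sl.geo (W.y m ω) ≤ Real.sqrt (u0 K)) →
      ω ∉ Sl.BadGap K L W → ω ∉ Sl.BadHit K k ϰ W → ω ∉ Sl.BadClock K k ϰ W → ω ∉ Sl.BadInv2 Ci K W →
      ω ∉ Sl.BadEsc Ce K k ϰ W → False := by
  exact Sl.last_det_pf hS Ci hCi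

/-! ### LF-S11d-3: assembly -/

/-- **Theorem 11.11 (the last-site contradiction)**, given the row test.
Choose `L` large, then `κ = min_m ϰf (L^{γ_m})` and smaller than the `κ₀` of `stopped_geometry` (exponent `σ₀ = γ_0/1600`), a fine walk (`exists_fine`), `m` by `history_gap`;
the bad events have total probability `< 1` (`exists_good`, `term`). -/
theorem last_site_of_rowTest (kf : ℝ → ℝ) (hk : Sl.Sh.RowTest kf) : False := by
  obtain ⟨ϰf, hϰ, hhit⟩ := Sl.first_hit hS kf hk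
  obtain ⟨Lg, hgap⟩ := Sl.history_gap hS
  obtain ⟨Ci, hCi, hinv⟩ := Sl.badInv2_le hS
  obtain ⟨Ce, Kd, hCe, hdet⟩ := Sl.last_det hS Ci hCi
  obtain ⟨Kh, hKh⟩ := hhit (1 / 10) (by norm_num)
  set σ₀ : ℝ := Sl.gam 0 / 1600 with hσ₀
  have hσ₀p : 0 < σ₀ := by have := Sl.la_gam_pos 0; positivity
  obtain ⟨Ls, hLs⟩ := Sl.stopped_geometry hS σ₀ hσ₀p (1 / 10) (by norm_num)
  -- thresholds in K
  have b1 : ∀ᶠ K in atTop, 20 * (Sl.N : ℝ) * Real.exp (-(Real.sqrt (h2 K) / 2)) < 1 / 10 :=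
    (la_lim_b _).eventually (gt_mem_nhds (by norm_num))
  have b2 : ∀ᶠ K in atTop, Ci * u0 K ^ (-(1 : ℝ) / 2) < 1 / 10 :=
    (la_lim_c _).eventually (gt_mem_nhds (by norm_num))
  have b3 : ∀ᶠ K in atTop, 4 * (2 : ℝ) ^ Sl.N * Sl.N * Real.exp (Ce * h2 K - 3 / 2 * h1 K) < 1 / 10 :=
    (la_lim_d _ _ (by positivity)).eventually (gt_mem_nhds (by norm_num))
  obtain ⟨Ks, hKs⟩ := eventually_atTop.1 (b1.and (b2.and (b3.and (hk.1.and ((eventually_ge_atTop Kh).and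
    ((eventually_ge_atTop Kd).and (eventually_ge_atTop (1 : ℝ))))))))
  -- the level L
  have c1 : ∀ᶠ L : ℝ in atTop, Ks ≤ L ^ Sl.gam 0 := (tendsto_rpow_atTop (Sl.la_gam_pos 0)).eventually_ge_atTop _
  obtain ⟨L, hL1, hL2, hL3, hL4⟩ := (c1.and ((eventually_ge_atTop Lg).and ((eventually_ge_atTop Ls).and
    (eventually_ge_atTop (9 : ℝ))))).exists
  have hLp : 0 < L := by linarith
  have hL1' : 1 ≤ L := by linarith
  obtain ⟨κ0, hκ0, hgeo⟩ := hLs L hL3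
  -- the fineness
  have hne : (Finset.range Sl.Mn).Nonempty := ⟨0, by simp [Mn]⟩
  set κ1 : ℝ := (Finset.range Sl.Mn).inf' hne (fun m => ϰf (L ^ Sl.gam m)) with hκ1
  have hκ1p : 0 < κ1 := (Finset.lt_inf'_iff hne).2 fun m _ => (hϰ _).1
  have hκ1le : ∀ m, m < Sl.Mn → κ1 ≤ ϰf (L ^ Sl.gam m) := fun m hm => Finset.inf'_le _ (Finset.mem_range.2 hm)
  obtain ⟨W, hW⟩ := Sl.exists_fine hS (min κ0 κ1) (lt_min hκ0 hκ1p)
  obtain ⟨m, hm, hG⟩ := hgap L hL2 W _ hW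
  set K : ℝ := L ^ Sl.gam m with hK
  have hKge : Ks ≤ K := le_trans hL1 (Real.rpow_le_rpow_of_exponent_le hL1' (Sl.la_gam_ge m))
  obtain ⟨p1, p2, p3, p4, p5, p6, p7⟩ := hKs K hKge
  have hWϰ : Sl.Fine W (ϰf K) := Fine.mono Sl hW (le_trans (min_le_right _ _) (hκ1le m hm))
  have hWκ0 : Sl.Fine W κ0 := Fine.mono Sl hW (min_le_left _ _)
  have h3K : 3 * K ≤ L := by
    have a1 : K ≤ L ^ ((1 : ℝ) / 2) :=
      Real.rpow_le_rpow_of_exponent_le hL1' (le_trans (Sl.la_gam_le m hm) (by norm_num))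
    have a2 : L ^ ((1 : ℝ) / 2) * L ^ ((1 : ℝ) / 2) = L := by
      rw [← Real.rpow_add hLp]; norm_num
    have a3 : (3 : ℝ) ≤ L ^ ((1 : ℝ) / 2) := by
      have : (9 : ℝ) ^ ((1 : ℝ) / 2) ≤ L ^ ((1 : ℝ) / 2) := Real.rpow_le_rpow (by norm_num) hL4 (by norm_num)
      have e : (9 : ℝ) ^ ((1 : ℝ) / 2) = 3 := by
        rw [show (9 : ℝ) = 3 ^ (2 : ℝ) by norm_num, ← Real.rpow_mul (by norm_num)]; norm_num
      linarith
    nlinarith
  -- the bad events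
  have q1 : Pw {ω | ∀ n, Sl.cutL W L n ω} ≤ 0 := (Sl.term hS W _ hW L).le
  have q2 : Pw {ω | ∃ n, Sl.Upto W L n ω ∧ L ^ σ₀ < Sl.geo (W.y n ω)} ≤ 1 / 10 := hgeo W hWκ0
  have q3 : Pw (Sl.BadGap K L W) ≤ 1 / 10 := hG
  have q4 : Pw (Sl.BadHit K (kf K) (ϰf K) W) ≤ 1 / 10 := hKh K p5 W hWϰ
  have q5 : Pw (Sl.BadClock K (kf K) (ϰf K) W) ≤ 1 / 10 :=
    le_trans (Sl.badClock_le hS K (kf K) (ϰf K) (hϰ K).1.le (hϰ K).2 W hWϰ) p1.le
  have q6 : Pw (Sl.BadInv2 Ci K W) ≤ 1 / 10 :=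
    le_trans (hinv K p7 W (ϰf K) (hϰ K).1.le (le_trans (hϰ K).2 (by norm_num)) hWϰ) p2.le
  have q7 : Pw (Sl.BadEsc Ce K (kf K) (ϰf K) W) ≤ 1 / 10 :=
    le_trans (Sl.badEsc_le hS Ce K (kf K) (ϰf K) W _ hWϰ) p3.le
  obtain ⟨ω, hω⟩ := exists_good unif (Finset.univ : Finset (Fin 7))
    ![{ω | ∀ n, Sl.cutL W L n ω}, {ω | ∃ n, Sl.Upto W L n ω ∧ L ^ σ₀ < Sl.geo (W.y n ω)}, Sl.BadGap K L W,
      Sl.BadHit K (kf K) (ϰf K) W, Sl.BadClock K (kf K) (ϰf K) W, Sl.BadInv2 Ci K W, Sl.BadEsc Ce K (kf K) (ϰf K) W]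
    ![0, 1 / 10, 1 / 10, 1 / 10, 1 / 10, 1 / 10, 1 / 10]
    (by intro i _; fin_cases i; exacts [q1, q2, q3, q4, q5, q6, q7])
    (by simp [Fin.sum_univ_succ]; norm_num)
  have w1 : ω ∉ {ω | ∀ n, Sl.cutL W L n ω} := hω 0 (Finset.mem_univ _)
  have w2 : ω ∉ {ω | ∃ n, Sl.Upto W L n ω ∧ L ^ σ₀ < Sl.geo (W.y n ω)} := hω 1 (Finset.mem_univ _)
  have w3 : ω ∉ Sl.BadGap K L W := hω 2 (Finset.mem_univ _)
  have w4 : ω ∉ Sl.BadHit K (kf K) (ϰf K) W := hω 3 (Finset.mem_univ _)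
  have w5 : ω ∉ Sl.BadClock K (kf K) (ϰf K) W := hω 4 (Finset.mem_univ _)
  have w6 : ω ∉ Sl.BadInv2 Ci K W := hω 5 (Finset.mem_univ _)
  have w7 : ω ∉ Sl.BadEsc Ce K (kf K) (ϰf K) W := hω 6 (Finset.mem_univ _)
  classical
  have hex : ∃ n, ¬ Sl.cutL W L n ω := by
    by_contra hcon
    push Not at hcon
    exact w1 hcon
  set n := Nat.find hex with hn
  have hterm : Sl.Term W L n ω := ⟨fun i hi => not_not.1 (Nat.find_min hex hi), Nat.find_spec hex⟩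
  refine hdet K (kf K) (ϰf K) L p6 h3K p4.1 p4.2 (hϰ K).1 (hϰ K).2 W hWϰ ω n hterm ?_ w3 w4 w5 w6 w7
  intro m' hm'
  have hup : Sl.Upto W L m' ω := Upto.of_le Sl hterm.1 hm'
  have hle : Sl.geo (W.y m' ω) ≤ L ^ σ₀ := by
    by_contra hcon
    exact w2 ⟨m', hup, not_le.1 hcon⟩
  refine le_trans hle ?_
  have e : Real.sqrt (u0 K) = L ^ (Sl.gam m / 1600) := by
    rw [Real.sqrt_eq_rpow, u0, hK, ← Real.rpow_mul hLp.le, ← Real.rpow_mul hLp.le]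
    congr 1; ring
  rw [e]
  refine Real.rpow_le_rpow_of_exponent_le hL1' ?_
  have := Sl.la_gam_ge m
  rw [hσ₀]
  linarith

end Slice

end Claimed.Agent.R269
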