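/-
Row 269, P1 Section 11.6: Proposition 11.8, first half (a robust sign disc).  Owner: helper171.
Paper: 11-sign-test.tex l.644-715.  Differences: the zeros are COUNTED by Jensen's inequality on tiles (`LS.zero_shadow`; no separation/packing argument), and the
logarithmic derivative bound is `LS.log_lip` (contraction instead of Rouché).
  `h₁ = K^{α/2}/2`,  `r_exc = e^{-k - h₁/10}`,  `r_rob = e^{-k - h₁/4}`.
-/
import Claimed.Agent.R269.S11.Amp
import Claimed.Agent.R269.ShapeBasic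

set_option autoImplicit false

namespace Claimed.Agent.R269

open Complex Metric Set Filter Topology MeasureTheory
open scoped Real ENNReal

namespace Shape

variable (Sh : Shape)

/-! ### LF-S11g-1: shadows of the zeros on a row -/

/-- `H_b ≤ C (1+k)²` from the polynomial bound (`M_le`; the disc `B(z₀, δ₀/2)` has depths in `[δ₀/2, 3δ₀/2]`) -/
theorem Hb_le_poly (h : Sh.CritPoly) : ∃ C k₀ : ℝ, 0 < C ∧ 1 ≤ k₀ ∧ ∀ z₀ : ℂ, Sh.Col z₀ → k₀ ≤ -Real.log (Sh.dep z₀) →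
    Sh.Hb z₀ ≤ C * (1 - Real.log (Sh.dep z₀)) ^ 2 := by
  obtain ⟨C, k₀, hC, hk₀, hM⟩ := Sh.M_le h
  refine ⟨1 + 4 * C, k₀ + 1, by positivity, by linarith, fun z₀ hcol hk => ?_⟩
  have hδ := hcol.2.1
  obtain ⟨δ, hδdef⟩ : ∃ δ, δ = Sh.dep z₀ := ⟨_, rfl⟩
  rw [← hδdef] at hδ hk ⊢
  obtain ⟨ℓ, hℓ⟩ : ∃ ℓ, ℓ = -Real.log δ := ⟨_, rfl⟩
  have hℓ' : Real.log δ = -ℓ := by rw [hℓ]; ring
  rw [← hℓ] at hk
  rw [hℓ', sub_neg_eq_add]
  have hbound : ∀ z ∈ closedBall z₀ (δ / 2), Sh.dep z * Real.sqrt ‖Sh.q z‖ ≤ 4 * C * (1 + ℓ) ^ 2 := by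
    intro z hz
    have h1 : δ - δ / 2 ≤ Sh.dep z := by rw [hδdef] at hz ⊢; exact Sh.s11b_dep_ge hz
    have h2 : Sh.dep z ≤ δ + δ / 2 := by rw [hδdef] at hz ⊢; exact Sh.s11b_dep_le hz
    have hd : 0 < Sh.dep z := by linarith
    have him0 : z₀.im = Sh.Hr - δ := by
      rw [hδdef]; simp only [dep]; rw [abs_of_pos hcol.1]; ring
    have him : 0 < z.im := by
      have h3 : |(z - z₀).im| ≤ δ / 2 := by
        refine (Complex.abs_im_le_norm _).trans ?_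
        rwa [mem_closedBall, dist_eq_norm] at hz
      rw [Complex.sub_im] at h3
      have h4 := (abs_le.1 h3).1
      have h5 := hcol.2.2
      rw [← hδdef] at h5
      linarith
    have hl1 : Real.log (Sh.dep z) ≤ -ℓ + 1 := by
      have : Real.log (Sh.dep z) ≤ Real.log (δ * (3 / 2)) := Real.log_le_log hd (by linarith)
      rw [Real.log_mul hδ.ne' (by norm_num), hℓ'] at this
      have h6 : Real.log (3 / 2) ≤ 3 / 2 - 1 := Real.log_le_sub_one_of_pos (by norm_num)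
      linarith
    have hl2 : -ℓ - 1 ≤ Real.log (Sh.dep z) := by
      have : Real.log (δ * (1 / 2)) ≤ Real.log (Sh.dep z) := Real.log_le_log (by positivity) (by linarith)
      rw [Real.log_mul hδ.ne' (by norm_num), hℓ'] at this
      have h6 : Real.log 2 ≤ 2 - 1 := Real.log_le_sub_one_of_pos (by norm_num)
      have h7 : Real.log (1 / 2) = -Real.log 2 := by rw [one_div, Real.log_inv]
      linarith
    have h8 := hM z him hd (by linarith)
    have h9 : Real.sqrt ‖Sh.q z‖ ≤ Sh.M z := le_max_right _ _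
    calc Sh.dep z * Real.sqrt ‖Sh.q z‖ ≤ Sh.dep z * Sh.M z := by gcongr
      _ ≤ C * (1 - Real.log (Sh.dep z)) ^ 2 := h8
      _ ≤ C * (2 * (1 + ℓ)) ^ 2 := by
          gcongr
          · linarith
          · linarith
      _ = 4 * C * (1 + ℓ) ^ 2 := by ring
  have hsup : sSup ((fun z => Sh.dep z * Real.sqrt ‖Sh.q z‖) '' closedBall z₀ (Sh.dep z₀ / 2))
      ≤ 4 * C * (1 + ℓ) ^ 2 := by
    apply csSup_le
    · exact (nonempty_closedBall.2 (by rw [← hδdef]; positivity)).image _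
    · rintro _ ⟨z, hz, rfl⟩
      rw [← hδdef] at hz
      exact hbound z hz
  unfold Hb
  have h10 : 1 ≤ (1 + ℓ) ^ 2 := by nlinarith
  nlinarith

/-- one tile (`tile_norm` + `LS.zero_shadow`, scaling by `δ₀/8`) -/
theorem shadow_tile (hH : Sh.H ≠ ⊤) : ∃ C : ℝ, 0 < C ∧ ∀ z₀ : ℂ, Sh.Col z₀ → ∀ r : ℝ, 0 < r → r ≤ Sh.dep z₀ / 8 →
    volume {t : ℝ | t ∈ Icc (-(Sh.dep z₀ / 8)) (Sh.dep z₀ / 8) ∧ ∃ z ∈ ball (z₀ + (t : ℂ)) r, Sh.f z = 0}
      ≤ ENNReal.ofReal (C * Sh.Hb z₀ * r) := by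
  obtain ⟨C, hC, htile⟩ := Sh.tile_norm hH
  refine ⟨12 * C, by positivity, fun z₀ hcol r hr hr8 => ?_⟩
  obtain ⟨han, hbd, hs⟩ := htile z₀ hcol
  have hδ := hcol.2.1
  have hHb := Sh.one_le_Hb hH z₀ hcol
  obtain ⟨lam, hlam⟩ : ∃ lam, lam = Sh.dep z₀ / 8 := ⟨_, rfl⟩
  rw [← hlam] at han hbd hs hr8 ⊢
  have hl0 : 0 < lam := by rw [hlam]; positivity
  have hM1 : 1 ≤ C * Sh.Hb z₀ := by nlinarith
  have key := LS.zero_shadow _ (C * Sh.Hb z₀) (r / lam) hM1 (by positivity) ((div_le_one hl0).2 hr8) han hbd hs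
  have hpre : (lam * ·) ⁻¹' {t : ℝ | t ∈ Icc (-lam) lam ∧ ∃ z ∈ ball (z₀ + (t : ℂ)) r, Sh.f z = 0}
      ⊆ {t : ℝ | t ∈ Icc (-1 : ℝ) 1 ∧ ∃ z ∈ ball (t : ℂ) (r / lam),
          (Real.exp (-Sh.AA z₀) : ℂ) * Sh.f (z₀ + (lam : ℂ) * z) = 0} := by
    rintro τ ⟨⟨h1, h2⟩, z, hz, hfz⟩
    refine ⟨⟨by nlinarith, by nlinarith⟩, (z - z₀) / lam, ?_, ?_⟩
    · rw [mem_ball, dist_eq_norm] at hz ⊢
      have hlc : (lam : ℂ) ≠ 0 := by exact_mod_cast hl0.ne'
      have e : (z - z₀) / (lam : ℂ) - (τ : ℂ) = (z - (z₀ + ((lam * τ : ℝ) : ℂ))) / (lam : ℂ) := by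
        push_cast
        field_simp
        ring
      rw [e, norm_div, Complex.norm_real, Real.norm_of_nonneg hl0.le]
      exact div_lt_div_of_pos_right hz hl0
    · have hlc : (lam : ℂ) ≠ 0 := by exact_mod_cast hl0.ne'
      rw [mul_div_cancel₀ _ hlc, add_sub_cancel, hfz, mul_zero]
  have hvol := Real.volume_preimage_mul_left hl0.ne'
    {t : ℝ | t ∈ Icc (-lam) lam ∧ ∃ z ∈ ball (z₀ + (t : ℂ)) r, Sh.f z = 0}
  have h3 : ENNReal.ofReal |lam⁻¹| * volume {t : ℝ | t ∈ Icc (-lam) lam ∧ ∃ z ∈ ball (z₀ + (t : ℂ)) r, Sh.f z = 0}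
      ≤ ENNReal.ofReal (12 * (C * Sh.Hb z₀) * (r / lam)) := by
    rw [← hvol]
    exact (measure_mono hpre).trans key
  rw [abs_of_pos (inv_pos.2 hl0)] at h3
  have e : ENNReal.ofReal (12 * (C * Sh.Hb z₀) * (r / lam))
      = ENNReal.ofReal lam⁻¹ * ENNReal.ofReal (12 * C * Sh.Hb z₀ * r) := by
    rw [← ENNReal.ofReal_mul (by positivity)]
    congr 1
    field_simp
  rw [e] at h3
  exact (ENNReal.mul_le_mul_iff_right (ENNReal.ofReal_pos.2 (inv_pos.2 hl0)).ne' ENNReal.ofReal_ne_top).1 h3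

/-- the whole row: `≤ 8π e^k + 1` tiles -/
theorem shadow_row (h : Sh.CritPoly) : ∃ C K0 : ℝ, 0 < C ∧ ∀ K, K0 ≤ K → ∀ k ∈ Icc (0.8 * K) (2.2 * K), ∀ r : ℝ, 0 < r →
    r ≤ Real.exp (-k) / 8 →
    volume {x : ℝ | x ∈ Icc (0 : ℝ) (2 * π) ∧ ∃ z ∈ ball (Sh.up x (Real.exp (-k))) r, Sh.f z = 0}
      ≤ ENNReal.ofReal (C * K ^ 2 * (r * Real.exp k)) := by
  have hH := h.fin
  obtain ⟨C₁, k₀, hC₁, hk₀, hpoly⟩ := Sh.Hb_le_poly h
  obtain ⟨C₂, hC₂, htile⟩ := Sh.shadow_tile hH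
  obtain ⟨K1, hK30, hK1⟩ := Sh.s11b_K0 hH
  have hpi := Real.pi_pos
  refine ⟨11 * (8 * π + 2) * C₁ * C₂, max (2 * K1) (2 * k₀), by positivity, ?_⟩
  intro K hK k hk r hr hr8
  have hKK1 : 2 * K1 ≤ K := (le_max_left _ _).trans hK
  have hKk0 : 2 * k₀ ≤ K := (le_max_right _ _).trans hK
  have hK1' : 1 ≤ K := by linarith
  obtain ⟨d, hd⟩ : ∃ d, d = Real.exp (-k) := ⟨_, rfl⟩
  rw [← hd] at hr8 ⊢
  have hd0 : 0 < d := by rw [hd]; exact Real.exp_pos _
  have hd4 : d < Sh.Hr / 4 := by rw [hd]; exact hK1 k (by linarith [hk.1])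
  have hdH : d ≤ Sh.Hr := by linarith
  have hdk : d * Real.exp k = 1 := by rw [hd, ← Real.exp_add]; simp
  have hek : 1 ≤ Real.exp k := Real.one_le_exp (by linarith [hk.1])
  have hlogd : Real.log d = -k := by rw [hd, Real.log_exp]
  obtain ⟨lam, hlam⟩ : ∃ lam, lam = d / 8 := ⟨_, rfl⟩
  have hl0 : 0 < lam := by rw [hlam]; positivity
  obtain ⟨N, hN⟩ : ∃ N : ℕ, N = ⌈π / lam⌉₊ := ⟨_, rfl⟩
  -- one tile
  have hone : ∀ j : ℕ, volume ((fun x : ℝ => x + (-((2 * j + 1) * lam))) ⁻¹'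
      {t : ℝ | t ∈ Icc (-lam) lam ∧ ∃ z ∈ ball (Sh.up ((2 * j + 1) * lam) d + (t : ℂ)) r, Sh.f z = 0})
      ≤ ENNReal.ofReal (C₂ * (C₁ * (11 * K ^ 2)) * r) := by
    intro j
    rw [measure_preimage_add_right]
    have hcol := Sh.s11b_col hd0 hd4 ((2 * j + 1) * lam)
    have hdep : Sh.dep (Sh.up ((2 * j + 1) * lam) d) = d := Sh.dep_up _ d hdH
    have h1 := htile _ hcol r hr (by rw [hdep]; exact hr8)
    rw [hdep, ← hlam] at h1
    refine h1.trans (ENNReal.ofReal_le_ofReal ?_)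
    have h2 := hpoly _ hcol (by rw [hdep, hlogd]; linarith [hk.1])
    rw [hdep, hlogd] at h2
    have h3 : (1 - -k) ^ 2 ≤ 11 * K ^ 2 := by
      have : 0 ≤ 1 - -k := by linarith [hk.1]
      have : 1 - -k ≤ 3.2 * K := by linarith [hk.2]
      nlinarith
    have h4 : Sh.Hb (Sh.up ((2 * j + 1) * lam) d) ≤ C₁ * (11 * K ^ 2) := h2.trans (by gcongr)
    gcongr
  -- the cover
  have hcover : {x : ℝ | x ∈ Icc (0 : ℝ) (2 * π) ∧ ∃ z ∈ ball (Sh.up x d) r, Sh.f z = 0}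
      ⊆ ⋃ j ∈ Finset.range (N + 1), (fun x : ℝ => x + (-((2 * j + 1) * lam))) ⁻¹'
        {t : ℝ | t ∈ Icc (-lam) lam ∧ ∃ z ∈ ball (Sh.up ((2 * j + 1) * lam) d + (t : ℂ)) r, Sh.f z = 0} := by
    rintro x ⟨⟨hx0, hx1⟩, z, hz, hfz⟩
    have h2l : 0 < 2 * lam := by positivity
    have hq0 : 0 ≤ x / (2 * lam) := by positivity
    have hf1 : (⌊x / (2 * lam)⌋₊ : ℝ) ≤ x / (2 * lam) := Nat.floor_le hq0
    have hf2 : x / (2 * lam) < ⌊x / (2 * lam)⌋₊ + 1 := Nat.lt_floor_add_one _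
    rw [le_div_iff₀ h2l] at hf1
    rw [div_lt_iff₀ h2l] at hf2
    simp only [mem_iUnion, Finset.mem_range, exists_prop]
    refine ⟨⌊x / (2 * lam)⌋₊, ?_, ?_⟩
    · have h5 : (⌊x / (2 * lam)⌋₊ : ℝ) ≤ N := by
        have h6 : π / lam ≤ N := by rw [hN]; exact Nat.le_ceil _
        have h7 : x / (2 * lam) ≤ π / lam := by
          rw [div_le_div_iff₀ h2l hl0]
          nlinarith
        exact (Nat.floor_le hq0).trans (h7.trans h6)
      have : ⌊x / (2 * lam)⌋₊ ≤ N := by exact_mod_cast h5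
      omega
    · refine ⟨⟨by linarith, by linarith⟩, z, ?_, hfz⟩
      rw [← Sh.s11b_up_add]
      have e : (2 * (⌊x / (2 * lam)⌋₊ : ℝ) + 1) * lam + (x + -((2 * (⌊x / (2 * lam)⌋₊ : ℝ) + 1) * lam)) = x := by ring
      rw [e]
      exact hz
  refine (measure_mono hcover).trans ((measure_biUnion_finset_le _ _).trans ?_)
  refine (Finset.sum_le_sum fun j _ => hone j).trans ?_
  rw [Finset.sum_const, Finset.card_range, nsmul_eq_mul, ← ENNReal.ofReal_natCast,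
    ← ENNReal.ofReal_mul (by positivity)]
  apply ENNReal.ofReal_le_ofReal
  have hNle : ((N + 1 : ℕ) : ℝ) ≤ (8 * π + 2) * Real.exp k := by
    have h8 : (N : ℝ) < π / lam + 1 := by rw [hN]; exact Nat.ceil_lt_add_one (by positivity)
    have h9 : π / lam = 8 * π * Real.exp k := by
      rw [hlam, div_eq_iff (by positivity)]
      calc π = 8 * π * (d * Real.exp k) / 8 := by rw [hdk]; ring
        _ = 8 * π * Real.exp k * (d / 8) := by ring
    push_cast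
    rw [h9] at h8
    nlinarith
  calc ((N + 1 : ℕ) : ℝ) * (C₂ * (C₁ * (11 * K ^ 2)) * r)
      ≤ ((8 * π + 2) * Real.exp k) * (C₂ * (C₁ * (11 * K ^ 2)) * r) := by gcongr
    _ = 11 * (8 * π + 2) * C₁ * C₂ * K ^ 2 * (r * Real.exp k) := by ring

/-! ### LF-S11g-2: robustness away from the zeros, and the assembly -/

theorem rb_exp_lim (C : ℝ) : Tendsto (fun K : ℝ => C * K ^ 4 * Real.exp (-(h1 K / 10))) atTop (𝓝 0) := by
  have h0 := Real.tendsto_pow_mul_exp_neg_atTop_nhds_zero 800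
  have hu : Tendsto (fun K : ℝ => K ^ ((1 : ℝ) / 200) / 20) atTop atTop :=
    (tendsto_rpow_atTop (by norm_num)).atTop_div_const (by norm_num)
  have h1' := (h0.comp hu).const_mul (C * 20 ^ 800)
  rw [mul_zero] at h1'
  refine h1'.congr' ?_
  filter_upwards [eventually_gt_atTop 0] with K hK
  have e : K ^ 4 = (K ^ ((1 : ℝ) / 200)) ^ 800 := by
    rw [← Real.rpow_natCast (K ^ ((1 : ℝ) / 200)), ← Real.rpow_mul hK.le]
    norm_num
  simp only [Function.comp, h1]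
  rw [e, div_pow]
  have : -(K ^ ((1 : ℝ) / 200) / 2 / 10) = -(K ^ ((1 : ℝ) / 200) / 20) := by ring
  rw [this]
  field_simp

theorem rb_h1_top : Tendsto h1 atTop atTop := by
  unfold h1
  exact (tendsto_rpow_atTop (by norm_num)).atTop_div_const (by norm_num)

/-- geometry of a small disc about a point of the upper row -/
theorem rb_disc (x d r : ℝ) (hd : 0 < d) (hr : r ≤ d / 2) (hdH : 2 * d < Sh.Hr) (z : ℂ) (hz : z ∈ closedBall (Sh.up x d) r) :
    0 < z.im ∧ d / 2 ≤ Sh.dep z ∧ Sh.dep z ≤ 3 / 2 * d := by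
  have h1 : |z.im - (Sh.Hr - d)| ≤ r := by
    have := Complex.abs_im_le_norm (z - Sh.up x d)
    rw [mem_closedBall, dist_eq_norm] at hz
    simpa [up] using this.trans hz
  rw [abs_le] at h1
  have hpos : 0 < z.im := by linarith [h1.1]
  refine ⟨hpos, ?_, ?_⟩ <;> (unfold dep; rw [abs_of_pos hpos]; linarith [h1.1, h1.2])

theorem rob_of_far (h : Sh.CritPoly) : ∃ K0 : ℝ, ∀ K, K0 ≤ K → ∀ k ∈ Icc (0.8 * K) (2.2 * K), ∀ x : ℝ,
    (∀ z ∈ ball (Sh.up x (Real.exp (-k))) (Real.exp (-k - h1 K / 10)), Sh.f z ≠ 0) →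
    K ^ ((1 : ℝ) / 200) < |Sh.aa (Sh.up x (Real.exp (-k)))| →
    Sh.Rob (h1 K) (rrob K k) (Sh.up x (Real.exp (-k))) := by
  have hH := h.fin
  have hHr := Sh.sb_Hr_pos hH
  obtain ⟨C, k₀, hC, hk₀, hM⟩ := Sh.M_le h
  have e1 : ∀ᶠ K : ℝ in atTop, 2 * Real.exp (-(0.8 * K)) < Sh.Hr := by
    have : Tendsto (fun K : ℝ => 2 * Real.exp (-(0.8 * K))) atTop (𝓝 (2 * 0)) :=
      (Real.tendsto_exp_neg_atTop_nhds_zero.comp (tendsto_id.const_mul_atTop (by norm_num))).const_mul 2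
    rw [mul_zero] at this
    exact this.eventually (gt_mem_nhds hHr)
  have e2 : ∀ᶠ K : ℝ in atTop, (k₀ + 1) / 0.8 ≤ K := eventually_ge_atTop _
  have e3 : ∀ᶠ K : ℝ in atTop, (14 * C * 9) * K ^ 4 * Real.exp (-(h1 K / 10)) < 4 :=
    (rb_exp_lim (14 * C * 9)).eventually (gt_mem_nhds (by norm_num))
  have e4 : ∀ᶠ K : ℝ in atTop, 20 ≤ h1 K := rb_h1_top.eventually_ge_atTop _
  obtain ⟨K0, hK0⟩ := eventually_atTop.1 (e1.and (e2.and (e3.and (e4.and (eventually_ge_atTop (5 : ℝ))))))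
  refine ⟨K0, fun K hK k hk x hz0 haa => ?_⟩
  obtain ⟨h1', h2', h3', h4', h5'⟩ := hK0 K hK
  rw [div_le_iff₀ (by norm_num)] at h2'
  set d : ℝ := Real.exp (-k) with hd
  set r : ℝ := Real.exp (-k - h1 K / 10) with hr
  set z₀ : ℂ := Sh.up x d with hz₀
  have hdpos : 0 < d := Real.exp_pos _
  have hrpos : 0 < r := Real.exp_pos _
  have hdle : d ≤ Real.exp (-(0.8 * K)) := Real.exp_le_exp.2 (by linarith [hk.1])
  have hdH : 2 * d < Sh.Hr := by linarith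
  have hexp1 : Real.exp (-1 : ℝ) < 1 / 2 := by
    have := Real.exp_one_gt_d9
    rw [Real.exp_neg, inv_eq_one_div]
    exact div_lt_div_of_pos_left one_pos (by norm_num) (by linarith)
  have hrd : r = d * Real.exp (-(h1 K / 10)) := by
    rw [hr, hd, ← Real.exp_add]; congr 1
  have hr2 : r ≤ d / 2 := by
    rw [hrd]
    have : Real.exp (-(h1 K / 10)) ≤ Real.exp (-1) := Real.exp_le_exp.2 (by linarith)
    nlinarith
  -- the bound of q
  set M : ℝ := 2 * C * (2 + k) ^ 2 * Real.exp k with hMdef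
  have hkpos : 0 < k := by linarith [hk.1]
  have hMpos : 0 < M := by positivity
  have hball : ∀ z ∈ ball z₀ r, z ∈ Sh.D ∧ ‖Sh.q z‖ ≤ M ^ 2 := by
    intro z hz
    obtain ⟨hi, hd1, hd2⟩ := Sh.rb_disc x d r hdpos hr2 hdH z (ball_subset_closedBall hz)
    have hdz : 0 < Sh.dep z := by linarith
    refine ⟨(Sh.mem_D_iff hH z).2 hdz, ?_⟩
    have hl1 : -Real.log (Sh.dep z) ≤ k + 1 := by
      have : Real.log (d / 2) ≤ Real.log (Sh.dep z) := Real.log_le_log (by positivity) hd1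
      rw [Real.log_div hdpos.ne' (by norm_num), hd, Real.log_exp] at this
      have l2 : Real.log 2 ≤ 1 := by
        have := Real.log_two_lt_d9; linarith
      linarith
    have hl2 : k - 1 ≤ -Real.log (Sh.dep z) := by
      have : Real.log (Sh.dep z) ≤ Real.log (3 / 2 * d) := Real.log_le_log hdz hd2
      rw [Real.log_mul (by norm_num) hdpos.ne', hd, Real.log_exp] at this
      have l2 : Real.log (3 / 2) ≤ 1 := by
        have := Real.log_le_sub_one_of_pos (show (0 : ℝ) < 3 / 2 by norm_num); linarith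
      linarith
    have hm := hM z hi hdz (by linarith [hk.1])
    have hsq : Real.sqrt ‖Sh.q z‖ ≤ Sh.M z := le_max_right _ _
    have hb : (1 - Real.log (Sh.dep z)) ^ 2 ≤ (2 + k) ^ 2 := by
      apply pow_le_pow_left₀ (by linarith) (by linarith)
    have hs : Real.sqrt ‖Sh.q z‖ ≤ M := by
      have a1 : d / 2 * Real.sqrt ‖Sh.q z‖ ≤ C * (2 + k) ^ 2 := by
        calc d / 2 * Real.sqrt ‖Sh.q z‖ ≤ Sh.dep z * Sh.M z :=
              mul_le_mul hd1 hsq (Real.sqrt_nonneg _) hdz.le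
          _ ≤ C * (1 - Real.log (Sh.dep z)) ^ 2 := hm
          _ ≤ C * (2 + k) ^ 2 := mul_le_mul_of_nonneg_left hb hC.le
      have a2 : d * Real.exp k = 1 := by rw [hd, ← Real.exp_add]; simp
      have a3 : Real.sqrt ‖Sh.q z‖ = (d / 2 * Real.sqrt ‖Sh.q z‖) * (2 * Real.exp k) := by
        calc Real.sqrt ‖Sh.q z‖ = (d * Real.exp k) * Real.sqrt ‖Sh.q z‖ := by rw [a2, one_mul]
          _ = _ := by ring
      rw [a3, hMdef]
      calc (d / 2 * Real.sqrt ‖Sh.q z‖) * (2 * Real.exp k) ≤ (C * (2 + k) ^ 2) * (2 * Real.exp k) :=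
            mul_le_mul_of_nonneg_right a1 (by positivity)
        _ = _ := by ring
    calc ‖Sh.q z‖ = Real.sqrt ‖Sh.q z‖ ^ 2 := (Real.sq_sqrt (norm_nonneg _)).symm
      _ ≤ M ^ 2 := pow_le_pow_left₀ (Real.sqrt_nonneg _) hs 2
  have hrM : 7 * M * r ≤ 4 := by
    have a2 : Real.exp k * d = 1 := by rw [hd, ← Real.exp_add]; simp
    have : 7 * M * r = 14 * C * (2 + k) ^ 2 * Real.exp (-(h1 K / 10)) := by
      rw [hMdef, hrd]
      calc 7 * (2 * C * (2 + k) ^ 2 * Real.exp k) * (d * Real.exp (-(h1 K / 10)))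
          = 14 * C * (2 + k) ^ 2 * Real.exp (-(h1 K / 10)) * (Real.exp k * d) := by ring
        _ = _ := by rw [a2, mul_one]
    rw [this]
    have hk2 : (2 + k) ^ 2 ≤ 9 * K ^ 4 := by
      have : 2 + k ≤ 3 * K := by linarith [hk.2]
      have h9 : (2 + k) ^ 2 ≤ (3 * K) ^ 2 := pow_le_pow_left₀ (by linarith) this 2
      have hK2 : K ^ 2 ≤ K ^ 4 := pow_le_pow_right₀ (by linarith) (by norm_num)
      nlinarith
    have hE : 0 < Real.exp (-(h1 K / 10)) := Real.exp_pos _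
    calc 14 * C * (2 + k) ^ 2 * Real.exp (-(h1 K / 10)) ≤ 14 * C * (9 * K ^ 4) * Real.exp (-(h1 K / 10)) := by
          gcongr
      _ = (14 * C * 9) * K ^ 4 * Real.exp (-(h1 K / 10)) := by ring
      _ ≤ 4 := h3'.le
  have hrr : rrob K k ≤ r / 4 := by
    have : rrob K k = r * Real.exp (-(h1 K * (3 / 20))) := by
      rw [rrob, hr, ← Real.exp_add]; congr 1; ring
    rw [this]
    have h3 : Real.exp (-(h1 K * (3 / 20))) ≤ Real.exp (-1) * Real.exp (-1) := by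
      rw [← Real.exp_add]; exact Real.exp_le_exp.2 (by linarith)
    have h4 : Real.exp (-1) * Real.exp (-1) ≤ 1 / 4 := by
      have := Real.exp_pos (-1); nlinarith
    nlinarith
  intro ζ hζ
  have hζn : ‖ζ - z₀‖ ≤ r / 4 := by
    rw [mem_closedBall, dist_eq_norm] at hζ; linarith
  have hζb : ζ ∈ ball z₀ (r / 2) := by
    rw [mem_ball, dist_eq_norm]; linarith
  have hlip := LS.log_lip Sh.f Sh.q z₀ r M hMpos hrpos hrM
    (Sh.f_diff.mono fun z hz => (hball z hz).1) (fun z hz => Sh.f_ode z (hball z hz).1) (fun z hz => (hball z hz).2) hz0 ζ hζb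
  have hle1 : 4 / r * ‖ζ - z₀‖ ≤ 1 := by
    calc 4 / r * ‖ζ - z₀‖ ≤ 4 / r * (r / 4) := mul_le_mul_of_nonneg_left hζn (by positivity)
      _ = 1 := by field_simp
  have hh : h1 K = K ^ ((1 : ℝ) / 200) / 2 := rfl
  have haa' : K ^ ((1 : ℝ) / 200) < |Real.log ‖Sh.f z₀‖| := haa
  have t1 : |Real.log ‖Sh.f z₀‖| ≤ |Real.log ‖Sh.f ζ‖| + |Real.log ‖Sh.f ζ‖ - Real.log ‖Sh.f z₀‖| := by
    have := abs_sub_abs_le_abs_sub (Real.log ‖Sh.f z₀‖) (Real.log ‖Sh.f ζ‖)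
    rw [abs_sub_comm] at this
    linarith
  linarith

/-- conjugation symmetry of robustness -/
theorem rb_rob_conj (t r : ℝ) (z : ℂ) (hD : closedBall z r ⊆ Sh.D) (hR : Sh.Rob t r z) : Sh.Rob t r ((starRingEnd ℂ) z) := by
  intro ζ hζ
  have hζ' : (starRingEnd ℂ) ζ ∈ closedBall z r := by
    rw [mem_closedBall, dist_eq_norm] at hζ ⊢
    have : (starRingEnd ℂ) ζ - z = (starRingEnd ℂ) (ζ - (starRingEnd ℂ) z) := by simp
    rw [this, RCLike.norm_conj]; exact hζ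
  have := hR _ hζ'
  have e := Sh.f_conj _ (hD hζ')
  rw [Complex.conj_conj] at e
  rw [e, RCLike.norm_conj]
  exact this

theorem robust' (h : Sh.CritPoly) : ∃ C K0 : ℝ, 0 < C ∧ ∀ K, K0 ≤ K → ∀ k ∈ Icc (0.8 * K) (2.2 * K), ∀ σ : ℝ, (σ = 1 ∨ σ = -1) →
    (volume (Sh.badRow K k σ)).toReal ≤ (volume (Sh.modRow (K ^ ((1 : ℝ) / 200)) k)).toReal
      + C * K ^ 4 * Real.exp (-(h1 K / 10)) := by
  have hH := h.fin
  have hHr := Sh.sb_Hr_pos hH
  obtain ⟨C, K1, hC, hsh⟩ := Sh.shadow_row h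
  obtain ⟨K2, hfar⟩ := Sh.rob_of_far h
  have e1 : ∀ᶠ K : ℝ in atTop, 2 * Real.exp (-(0.8 * K)) < Sh.Hr := by
    have : Tendsto (fun K : ℝ => 2 * Real.exp (-(0.8 * K))) atTop (𝓝 (2 * 0)) :=
      (Real.tendsto_exp_neg_atTop_nhds_zero.comp (tendsto_id.const_mul_atTop (by norm_num))).const_mul 2
    rw [mul_zero] at this
    exact this.eventually (gt_mem_nhds hHr)
  have e4 : ∀ᶠ K : ℝ in atTop, 30 ≤ h1 K := rb_h1_top.eventually_ge_atTop _
  obtain ⟨K3, hK3⟩ := eventually_atTop.1 (e1.and (e4.and (eventually_ge_atTop (1 : ℝ))))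
  refine ⟨C, max (max K1 K2) K3, hC, fun K hK k hk σ hσ => ?_⟩
  have hKK1 : K1 ≤ K := le_trans (le_trans (le_max_left _ _) (le_max_left _ _)) hK
  have hKK2 : K2 ≤ K := le_trans (le_trans (le_max_right _ _) (le_max_left _ _)) hK
  obtain ⟨h1', h4', h5'⟩ := hK3 K (le_trans (le_max_right _ _) hK)
  set d : ℝ := Real.exp (-k) with hd
  set r : ℝ := Real.exp (-k - h1 K / 10) with hr
  have hdpos : 0 < d := Real.exp_pos _
  have hrpos : 0 < r := Real.exp_pos _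
  have hdle : d ≤ Real.exp (-(0.8 * K)) := Real.exp_le_exp.2 (by linarith [hk.1])
  have hdH : 2 * d < Sh.Hr := by linarith
  have hexp1 : Real.exp (-1 : ℝ) < 1 / 2 := by
    have := Real.exp_one_gt_d9
    rw [Real.exp_neg, inv_eq_one_div]
    exact div_lt_div_of_pos_left one_pos (by norm_num) (by linarith)
  have hrd : r = d * Real.exp (-(h1 K / 10)) := by
    rw [hr, hd, ← Real.exp_add]; congr 1
  have hr8 : r ≤ d / 8 := by
    rw [hrd]
    have h3 : Real.exp (-(h1 K / 10)) ≤ Real.exp (-1) * Real.exp (-1) * Real.exp (-1) := by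
      rw [← Real.exp_add, ← Real.exp_add]; exact Real.exp_le_exp.2 (by linarith)
    have h4 : Real.exp (-1) * Real.exp (-1) * Real.exp (-1) ≤ 1 / 8 := by
      have hp := Real.exp_pos (-1)
      have : Real.exp (-1) * Real.exp (-1) ≤ 1 / 4 := by nlinarith
      nlinarith
    nlinarith
  have hrrob : rrob K k ≤ d / 2 := by
    have : rrob K k = d * Real.exp (-(h1 K / 4)) := by
      rw [rrob, hd, ← Real.exp_add]; congr 1
    rw [this]
    have : Real.exp (-(h1 K / 4)) ≤ Real.exp (-1) := Real.exp_le_exp.2 (by linarith)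
    nlinarith
  -- covering
  set Z : Set ℝ := {x : ℝ | x ∈ Icc (0 : ℝ) (2 * π) ∧ ∃ z ∈ ball (Sh.up x d) r, Sh.f z = 0} with hZ
  have hcover : Sh.badRow K k σ ⊆ Sh.modRow (K ^ ((1 : ℝ) / 200)) k ∪ Z := by
    intro x hx
    by_contra hcon
    rw [mem_union, not_or] at hcon
    obtain ⟨hc1, hc2⟩ := hcon
    have hx1 : K ^ ((1 : ℝ) / 200) < |Sh.aa (Sh.up x d)| := by
      by_contra hle
      exact hc1 ⟨hx.1, not_lt.1 hle⟩
    have hx2 : ∀ z ∈ ball (Sh.up x d) r, Sh.f z ≠ 0 := by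
      intro z hz h0
      exact hc2 ⟨hx.1, z, hz, h0⟩
    have hrob := hfar K hKK2 k hk x hx2 hx1
    apply hx.2
    rcases hσ with rfl | rfl
    · have : (⟨x, 1 * (Sh.Hr - Real.exp (-k))⟩ : ℂ) = Sh.up x d := by simp [up, hd]
      rw [this]; exact hrob
    · have : (⟨x, -1 * (Sh.Hr - Real.exp (-k))⟩ : ℂ) = (starRingEnd ℂ) (Sh.up x d) := by
        apply Complex.ext <;> simp [up, hd]
      rw [this]
      refine Sh.rb_rob_conj _ _ _ ?_ hrob
      intro z hz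
      obtain ⟨_, hd1, _⟩ := Sh.rb_disc x d _ hdpos hrrob hdH z hz
      exact (Sh.mem_D_iff hH z).2 (by linarith)
  have hZvol : volume Z ≤ ENNReal.ofReal (C * K ^ 2 * (r * Real.exp k)) := hsh K hKK1 k hk r hrpos hr8
  have hre : r * Real.exp k = Real.exp (-(h1 K / 10)) := by
    rw [hr, ← Real.exp_add]; congr 1; ring
  have hmod : volume (Sh.modRow (K ^ ((1 : ℝ) / 200)) k) ≠ ⊤ :=
    ne_top_of_le_ne_top (b := volume (Icc (0 : ℝ) (2 * π))) (by rw [Real.volume_Icc]; exact ENNReal.ofReal_ne_top)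
      (measure_mono fun x hx => hx.1)
  have hle : volume (Sh.badRow K k σ) ≤ volume (Sh.modRow (K ^ ((1 : ℝ) / 200)) k) + ENNReal.ofReal (C * K ^ 2 * (r * Real.exp k)) :=
    le_trans (measure_mono hcover) (le_trans (measure_union_le _ _) (add_le_add le_rfl hZvol))
  have h2 := ENNReal.toReal_mono (ENNReal.add_ne_top.2 ⟨hmod, ENNReal.ofReal_ne_top⟩) hle
  rw [ENNReal.toReal_add hmod ENNReal.ofReal_ne_top, ENNReal.toReal_ofReal (by positivity), hre] at h2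
  have hK2 : K ^ 2 ≤ K ^ 4 := pow_le_pow_right₀ h5' (by norm_num)
  have hE : 0 < Real.exp (-(h1 K / 10)) := Real.exp_pos _
  have : C * K ^ 2 * Real.exp (-(h1 K / 10)) ≤ C * K ^ 4 * Real.exp (-(h1 K / 10)) := by gcongr
  linarith

end Shape

end Claimed.Agent.R269
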