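/-
Row 269, P1 Section 11.5: Lemma 11.6 (witnesses force logarithmic oscillation), DETERMINISTIC VERSION.  Owner: helper171.
Paper: 11-sign-test.tex l.440-625, with three simplifications:
 * the transition is the uniform law on `B(z, δ(z)/4)` (`S11/Cost.lean`), so ONE disc `D₁ = B̄(z₁, δ₁/16)` about the witness serves as source and as target
   (`D₁ ⊆ B(z, δ(z)/4)` for every `z ∈ D₁`);
 * "typical target" is defined by ONE scalar functional `EW(x,k) = ∫_{window} |q| dA` (scale invariant), whose mean is `O(K^{2α} log K)`;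
 * the logarithmic oscillation lemma is quantitative (`LS.log_osc`), no normal families.
Parameters: `L₀ C₁ C₂ cs k₁` = constants of the witness proposition; window `L = 4L₀+3`, `a = C₁ log(2K) + 2`, `b = C₂ + 2`;  `h₀ = K^{6α}`, `α = 1/100`.
-/
import Claimed.Agent.R269.S11.Cost
import Claimed.Agent.R269.ShapeBasic

set_option autoImplicit false

namespace Claimed.Agent.R269

open Complex Metric Set Filter Topology MeasureTheory
open scoped Real ENNReal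

namespace Shape

variable (Sh : Shape)

/-- the constants of the witness proposition -/
def WitC (L₀ C₁ C₂ cs k₁ : ℝ) : Prop := 0 < L₀ ∧ 0 < C₁ ∧ 0 < C₂ ∧ 0 < cs ∧ 1 ≤ k₁ ∧
    ∀ k : ℝ, k₁ ≤ k → ∀ x₀ : ℝ, ∃ s : ℂ, 0 < s.im ∧ 0 < Sh.dep s ∧ |s.re - x₀| ≤ L₀ * Sh.dep s ∧
      k - C₁ * Real.log k ≤ -Real.log (Sh.dep s) ∧ -Real.log (Sh.dep s) ≤ k + C₂ ∧ cs ≤ Sh.dep s * Sh.M s

theorem exists_WitC (h : Sh.CritPoly) : ∃ L₀ C₁ C₂ cs k₁ : ℝ, Sh.WitC L₀ C₁ C₂ cs k₁ := by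
  obtain ⟨L₀, C₁, C₂, cs, k₁, h1, h2, h3, h4, h5, h6⟩ := Sh.witness h
  exact ⟨L₀, C₁, C₂, cs, k₁, h1, h2, h3, h4, h5, h6⟩

/-- the cone window of the target `(x,k)` -/
def Win (L a b x k : ℝ) : Set ℂ :=
  {z | 0 < z.im ∧ 0 < Sh.dep z ∧ |z.re - x| ≤ L * Sh.dep z ∧ k - a ≤ -Real.log (Sh.dep z) ∧ -Real.log (Sh.dep z) ≤ k + b}

/-- the window functional -/
noncomputable def EW (L a b x k : ℝ) : ℝ≥0∞ := ∫⁻ z in Sh.Win L a b x k, ENNReal.ofReal ‖Sh.q z‖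

/-- the target point -/
noncomputable def tg (x k : ℝ) : ℂ := Sh.up x (Real.exp (-k))

/-- typical targets -/
def Typ (K L a b x k : ℝ) : Prop :=
  |Sh.AA (Sh.tg x k) - Sh.aa (Sh.tg x k)| ≤ K ^ ((2 : ℝ) / 100) ∧ Sh.EW L a b x k ≤ ENNReal.ofReal (K ^ ((3 : ℝ) / 100))

/-! ### LF-S11f-1: change of variables and Fubini over the windows -/

theorem wc_measurable_dep : Measurable Sh.dep := by
  unfold dep
  fun_prop

theorem wc_measurableSet_Win (L a b x k : ℝ) : MeasurableSet (Sh.Win L a b x k) := by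
  have hd := Sh.wc_measurable_dep
  have h1 : MeasurableSet {z : ℂ | 0 < z.im} := measurableSet_lt measurable_const Complex.measurable_im
  have h2 : MeasurableSet {z : ℂ | 0 < Sh.dep z} := measurableSet_lt measurable_const hd
  have h3 : MeasurableSet {z : ℂ | |z.re - x| ≤ L * Sh.dep z} :=
    measurableSet_le (by fun_prop) (hd.const_mul L)
  have h4 : MeasurableSet {z : ℂ | k - a ≤ -Real.log (Sh.dep z)} :=
    measurableSet_le measurable_const (Real.measurable_log.comp hd).neg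
  have h5 : MeasurableSet {z : ℂ | -Real.log (Sh.dep z) ≤ k + b} :=
    measurableSet_le (Real.measurable_log.comp hd).neg measurable_const
  exact h1.inter (h2.inter (h3.inter (h4.inter h5)))

/-- `∫_{y < H} Φ(y) dy = ∫ Φ(H - e^{-v}) e^{-v} dv`. -/
theorem s11f_cov (H : ℝ) (Φ : ℝ → ℝ≥0∞) :
    ∫⁻ y in Iio H, Φ y = ∫⁻ v : ℝ, ENNReal.ofReal (Real.exp (-v)) * Φ (H - Real.exp (-v)) := by
  have himg : (fun v : ℝ => H - Real.exp (-v)) '' univ = Iio H := by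
    ext y
    simp only [image_univ, mem_range, mem_Iio]
    constructor
    · rintro ⟨v, rfl⟩
      linarith [Real.exp_pos (-v)]
    · intro hy
      refine ⟨-Real.log (H - y), ?_⟩
      rw [neg_neg, Real.exp_log (by linarith)]
      ring
  have hd : ∀ v ∈ (univ : Set ℝ), HasDerivWithinAt (fun v : ℝ => H - Real.exp (-v)) (Real.exp (-v)) univ v := by
    intro v _
    have h1 : HasDerivAt (fun v : ℝ => Real.exp (-v)) (Real.exp (-v) * (-1)) v :=
      (Real.hasDerivAt_exp (-v)).comp v (hasDerivAt_neg v)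
    have h2 := h1.const_sub H
    exact (h2.congr_deriv (by ring)).hasDerivWithinAt
  have hinj : InjOn (fun v : ℝ => H - Real.exp (-v)) univ := by
    intro v _ w _ hvw
    simp only at hvw
    have : Real.exp (-v) = Real.exp (-w) := by linarith
    have := Real.exp_injective this
    linarith
  have := lintegral_image_eq_lintegral_abs_deriv_mul MeasurableSet.univ hd hinj Φ
  rw [himg, Measure.restrict_univ] at this
  rw [this]
  congr 1
  funext v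
  rw [abs_of_pos (Real.exp_pos _)]

theorem s11f_translate (h : ℝ → ℝ≥0∞) (x p q : ℝ) :
    ∫⁻ ξ in Icc (x + p) (x + q), h ξ = ∫⁻ u in Icc p q, h (x + u) := by
  rw [Shape.s11b_lintegral_affine volume h x one_pos (Icc (x + p) (x + q))]
  have e : (fun y : ℝ => x + (1 : ℝ) • y) ⁻¹' Icc (x + p) (x + q) = Icc p q := by
    ext y
    simp only [mem_preimage, mem_Icc, one_smul, add_le_add_iff_left]
  rw [e]
  simp

theorem s11f_scale (h : ℝ → ℝ≥0∞) (x r : ℝ) (hr : 0 ≤ r) :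
    ∫⁻ ξ in Icc (x - r) (x + r), h ξ = ENNReal.ofReal r * ∫⁻ w in Icc (-1 : ℝ) 1, h (x + r * w) := by
  rcases hr.eq_or_lt with h0 | h0
  · rw [← h0]
    simp
  rw [Shape.s11b_lintegral_affine volume h x h0 (Icc (x - r) (x + r))]
  have e : (fun y : ℝ => x + r • y) ⁻¹' Icc (x - r) (x + r) = Icc (-1 : ℝ) 1 := by
    ext y
    simp only [mem_preimage, mem_Icc, smul_eq_mul]
    constructor
    · rintro ⟨h1, h2⟩
      constructor
      · by_contra hc
        rw [not_le] at hc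
        nlinarith
      · by_contra hc
        rw [not_le] at hc
        nlinarith
    · rintro ⟨h1, h2⟩
      constructor <;> nlinarith
  rw [e]
  simp

/-- `dA = e^{-v} dx dv` (`Complex.volume_preserving_equiv_real_prod`, then `im = H - e^{-v}`) -/
theorem lintegral_up (g : ℂ → ℝ≥0∞) (hg : Measurable g) :
    ∫⁻ z in {z : ℂ | z.im < Sh.Hr}, g z = ∫⁻ v : ℝ, ∫⁻ x : ℝ, g (Sh.up x (Real.exp (-v))) * ENNReal.ofReal (Real.exp (-v)) := by
  have hS : MeasurableSet {z : ℂ | z.im < Sh.Hr} := measurableSet_lt Complex.measurable_im measurable_const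
  have hmk : Measurable (fun p : ℝ × ℝ => (⟨p.1, p.2⟩ : ℂ)) := Complex.measurableEquivRealProd.symm.measurable
  set F : ℝ × ℝ → ℝ≥0∞ := {p : ℝ × ℝ | p.2 < Sh.Hr}.indicator (fun p => g ⟨p.1, p.2⟩) with hFdef
  have hF : Measurable F := (hg.comp hmk).indicator (measurableSet_lt measurable_snd measurable_const)
  have e1 : ∫⁻ z in {z : ℂ | z.im < Sh.Hr}, g z = ∫⁻ p : ℝ × ℝ, F p := by
    rw [← lintegral_indicator hS, ← Complex.volume_preserving_equiv_real_prod.lintegral_comp hF]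
    congr 1
  rw [e1, Measure.volume_eq_prod, lintegral_prod_symm' _ hF]
  have e2 : ∀ y : ℝ, ∫⁻ x : ℝ, F (x, y) = (Iio Sh.Hr).indicator (fun y => ∫⁻ x : ℝ, g ⟨x, y⟩) y := by
    intro y
    by_cases hy : y < Sh.Hr
    · rw [indicator_of_mem (show y ∈ Iio Sh.Hr from hy)]
      congr 1
      funext x
      exact indicator_of_mem (show ((x, y) : ℝ × ℝ) ∈ {p : ℝ × ℝ | p.2 < Sh.Hr} from hy) _
    · rw [indicator_of_notMem (show y ∉ Iio Sh.Hr from hy)]
      have : ∀ x : ℝ, F (x, y) = 0 := fun x =>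
        indicator_of_notMem (show ((x, y) : ℝ × ℝ) ∉ {p : ℝ × ℝ | p.2 < Sh.Hr} from hy) _
      simp [this]
  simp only [e2]
  rw [lintegral_indicator measurableSet_Iio, s11f_cov]
  congr 1
  funext v
  have hm : Measurable fun x : ℝ => g (Sh.up x (Real.exp (-v))) :=
    hg.comp (Sh.s11b_continuous_up _).measurable
  rw [lintegral_mul_const _ hm, mul_comm]
  rfl

theorem s11f_mem_Win {L a b x k ξ v : ℝ} (h : Sh.up ξ (Real.exp (-v)) ∈ Sh.Win L a b x k) :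
    v ∈ Icc (k - a) (k + b) ∧ ξ ∈ Icc (x - L * Real.exp (-v)) (x + L * Real.exp (-v)) := by
  obtain ⟨h1, h2, h3, h4, h5⟩ := h
  have him : (Sh.up ξ (Real.exp (-v))).im = Sh.Hr - Real.exp (-v) := rfl
  have hre : (Sh.up ξ (Real.exp (-v))).re = ξ := rfl
  rw [him] at h1
  rw [Sh.dep_up _ _ (by linarith)] at h3 h4 h5
  rw [Real.log_exp, neg_neg] at h4 h5
  rw [hre] at h3
  have := abs_le.1 h3
  exact ⟨⟨h4, h5⟩, ⟨by linarith [this.1], by linarith [this.2]⟩⟩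

/-- Step A: one window. -/
theorem s11f_win_le (g : ℂ → ℝ≥0∞) (hg : Measurable g) (L a b x k : ℝ) (hL : 0 ≤ L) :
    ∫⁻ z in Sh.Win L a b x k, g z ≤ ∫⁻ s in Icc (-a) b, ∫⁻ w in Icc (-1 : ℝ) 1,
      ENNReal.ofReal (L * Real.exp (-(2 * (k + s)))) *
        g (Sh.up (x + L * Real.exp (-(k + s)) * w) (Real.exp (-(k + s)))) := by
  have hW := Sh.wc_measurableSet_Win L a b x k
  have hsub : Sh.Win L a b x k ⊆ {z : ℂ | z.im < Sh.Hr} := by
    intro z hz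
    obtain ⟨h1, h2, -⟩ := hz
    unfold dep at h2
    rw [abs_of_pos h1] at h2
    show z.im < Sh.Hr
    linarith
  have e1 : ∫⁻ z in Sh.Win L a b x k, g z
      = ∫⁻ z in {z : ℂ | z.im < Sh.Hr}, (Sh.Win L a b x k).indicator g z := by
    rw [setLIntegral_indicator hW, inter_eq_left.2 hsub]
  rw [e1, Sh.lintegral_up _ (hg.indicator hW)]
  have e2 : ∀ v : ℝ, ∫⁻ ξ : ℝ, (Sh.Win L a b x k).indicator g (Sh.up ξ (Real.exp (-v)))
        * ENNReal.ofReal (Real.exp (-v))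
      ≤ (Icc (k + -a) (k + b)).indicator (fun v => ∫⁻ w in Icc (-1 : ℝ) 1,
          ENNReal.ofReal (L * Real.exp (-(2 * v))) *
            g (Sh.up (x + L * Real.exp (-v) * w) (Real.exp (-v)))) v := by
    intro v
    have hm : Measurable fun ξ : ℝ => g (Sh.up ξ (Real.exp (-v))) :=
      hg.comp (Sh.s11b_continuous_up _).measurable
    by_cases hv : v ∈ Icc (k + -a) (k + b)
    · rw [indicator_of_mem hv]
      have h1 : ∀ ξ : ℝ, (Sh.Win L a b x k).indicator g (Sh.up ξ (Real.exp (-v)))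
          * ENNReal.ofReal (Real.exp (-v))
          ≤ (Icc (x - L * Real.exp (-v)) (x + L * Real.exp (-v))).indicator
              (fun ξ => g (Sh.up ξ (Real.exp (-v))) * ENNReal.ofReal (Real.exp (-v))) ξ := by
        intro ξ
        by_cases hξ : Sh.up ξ (Real.exp (-v)) ∈ Sh.Win L a b x k
        · rw [indicator_of_mem hξ, indicator_of_mem (Sh.s11f_mem_Win hξ).2]
        · rw [indicator_of_notMem hξ, zero_mul]; exact zero_le
      refine (lintegral_mono h1).trans (le_of_eq ?_)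
      rw [lintegral_indicator measurableSet_Icc,
        s11f_scale _ x (L * Real.exp (-v)) (by positivity),
        ← lintegral_const_mul' _ _ ENNReal.ofReal_ne_top]
      congr 1
      funext w
      have e3 : ENNReal.ofReal (L * Real.exp (-(2 * v)))
          = ENNReal.ofReal (L * Real.exp (-v)) * ENNReal.ofReal (Real.exp (-v)) := by
        rw [← ENNReal.ofReal_mul (by positivity), mul_assoc, ← Real.exp_add]
        congr 3; ring
      rw [e3]; ring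
    · rw [indicator_of_notMem hv]
      have h1 : ∀ ξ : ℝ, (Sh.Win L a b x k).indicator g (Sh.up ξ (Real.exp (-v)))
          * ENNReal.ofReal (Real.exp (-v)) = 0 := by
        intro ξ
        have hξ : Sh.up ξ (Real.exp (-v)) ∉ Sh.Win L a b x k := by
          intro h
          apply hv
          have := (Sh.s11f_mem_Win h).1
          rwa [sub_eq_add_neg] at this
        rw [indicator_of_notMem hξ, zero_mul]
      simp [h1]
  refine (lintegral_mono e2).trans (le_of_eq ?_)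
  rw [lintegral_indicator measurableSet_Icc, s11f_translate]

theorem s11f_per (g : ℂ → ℝ≥0∞) (hper : ∀ z, g (z + 2 * π) = g z) (d : ℝ) :
    Function.Periodic (fun x : ℝ => g (Sh.up x d)) (2 * π) := by
  intro x
  simp only
  have e : ((2 * π : ℝ) : ℂ) = 2 * (π : ℂ) := by push_cast; ring
  rw [Sh.s11b_up_add, e, hper]

theorem s11f_meas4 (g : ℂ → ℝ≥0∞) (hg : Measurable g) (L : ℝ) :
    Measurable fun q : ℝ × ℝ × ℝ × ℝ => ENNReal.ofReal (L * Real.exp (-(2 * (q.1 + q.2.2.1)))) *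
      g (Sh.up (q.2.1 + L * Real.exp (-(q.1 + q.2.2.1)) * q.2.2.2) (Real.exp (-(q.1 + q.2.2.1)))) := by
  have hc : Continuous fun q : ℝ × ℝ × ℝ × ℝ =>
      Sh.up (q.2.1 + L * Real.exp (-(q.1 + q.2.2.1)) * q.2.2.2) (Real.exp (-(q.1 + q.2.2.1))) :=
    Sh.s11e_continuous_up2.comp (Continuous.prodMk (by fun_prop) (by fun_prop))
  have h1 : Measurable fun q : ℝ × ℝ × ℝ × ℝ => ENNReal.ofReal (L * Real.exp (-(2 * (q.1 + q.2.2.1)))) :=
    ENNReal.measurable_ofReal.comp (Continuous.measurable (by fun_prop))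
  exact h1.mul (hg.comp hc.measurable)

/-- Step B: integration over one period of targets. -/
theorem s11f_inner (g : ℂ → ℝ≥0∞) (hg : Measurable g) (hper : ∀ z, g (z + 2 * π) = g z)
    (L a b k : ℝ) :
    ∫⁻ x in Icc (0 : ℝ) (2 * π), ∫⁻ s in Icc (-a) b, ∫⁻ w in Icc (-1 : ℝ) 1,
      ENNReal.ofReal (L * Real.exp (-(2 * (k + s)))) *
        g (Sh.up (x + L * Real.exp (-(k + s)) * w) (Real.exp (-(k + s))))
    = ∫⁻ s in Icc (-a) b, ENNReal.ofReal (L * Real.exp (-(2 * (k + s)))) *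
        (∫⁻ x in Icc (0 : ℝ) (2 * π), g (Sh.up x (Real.exp (-(k + s))))) * 2 := by
  have M4 := Sh.s11f_meas4 g hg L
  have m1 : Measurable fun q : (ℝ × ℝ) × ℝ => ENNReal.ofReal (L * Real.exp (-(2 * (k + q.1.2)))) *
      g (Sh.up (q.1.1 + L * Real.exp (-(k + q.1.2)) * q.2) (Real.exp (-(k + q.1.2)))) :=
    M4.comp (f := fun q : (ℝ × ℝ) × ℝ => ((k, q.1.1, q.1.2, q.2) : ℝ × ℝ × ℝ × ℝ)) (by fun_prop)
  have hm1 : AEMeasurable (Function.uncurry fun (x : ℝ) (s : ℝ) => ∫⁻ w in Icc (-1 : ℝ) 1,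
      ENNReal.ofReal (L * Real.exp (-(2 * (k + s)))) *
        g (Sh.up (x + L * Real.exp (-(k + s)) * w) (Real.exp (-(k + s)))))
      ((volume.restrict (Icc (0 : ℝ) (2 * π))).prod (volume.restrict (Icc (-a) b))) :=
    (m1.lintegral_prod_right' (ν := volume.restrict (Icc (-1 : ℝ) 1))).aemeasurable
  rw [lintegral_lintegral_swap hm1]
  congr 1
  funext s
  have hm2 : AEMeasurable (Function.uncurry fun (x : ℝ) (w : ℝ) =>
      ENNReal.ofReal (L * Real.exp (-(2 * (k + s)))) *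
        g (Sh.up (x + L * Real.exp (-(k + s)) * w) (Real.exp (-(k + s)))))
      ((volume.restrict (Icc (0 : ℝ) (2 * π))).prod (volume.restrict (Icc (-1 : ℝ) 1))) :=
    (M4.comp (f := fun q : ℝ × ℝ => ((k, q.1, s, q.2) : ℝ × ℝ × ℝ × ℝ)) (by fun_prop)).aemeasurable
  rw [lintegral_lintegral_swap hm2]
  have e1 : ∀ w : ℝ, ∫⁻ x in Icc (0 : ℝ) (2 * π), ENNReal.ofReal (L * Real.exp (-(2 * (k + s)))) *
        g (Sh.up (x + L * Real.exp (-(k + s)) * w) (Real.exp (-(k + s))))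
      = ENNReal.ofReal (L * Real.exp (-(2 * (k + s)))) *
        ∫⁻ x in Icc (0 : ℝ) (2 * π), g (Sh.up x (Real.exp (-(k + s)))) := by
    intro w
    rw [lintegral_const_mul' _ _ ENNReal.ofReal_ne_top]
    congr 1
    exact s11b_lintegral_shift Real.two_pi_pos (Sh.s11f_per g hper _) _
  simp only [e1]
  rw [setLIntegral_const, Real.volume_Icc]
  norm_num

/-- a source `z` of log depth `v` lies in the windows of the targets `x ∈ [Re z - L e^{-v}, Re z + L e^{-v}]`, `k ∈ [v - b, v + a]` -/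
theorem win_fubini (g : ℂ → ℝ≥0∞) (hg : Measurable g) (hper : ∀ z, g (z + 2 * π) = g z) (L a b k₁ k₂ : ℝ) (hL : 0 ≤ L)
    (hab : 0 ≤ a + b) :
    ∫⁻ k in Icc k₁ k₂, ∫⁻ x in Icc (0 : ℝ) (2 * π), ∫⁻ z in Sh.Win L a b x k, g z
      ≤ ENNReal.ofReal (2 * L * (a + b)) * ∫⁻ v in Icc (k₁ - a) (k₂ + b), ENNReal.ofReal (Real.exp (-(2 * v))) *
          ∫⁻ x in Icc (0 : ℝ) (2 * π), g (Sh.up x (Real.exp (-v))) := by
  set R : ℝ → ℝ≥0∞ := fun v => ENNReal.ofReal (L * Real.exp (-(2 * v))) *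
    (∫⁻ x in Icc (0 : ℝ) (2 * π), g (Sh.up x (Real.exp (-v)))) * 2 with hR
  have hRm : Measurable R := by
    have h1 : Measurable fun v : ℝ => ENNReal.ofReal (L * Real.exp (-(2 * v))) :=
      ENNReal.measurable_ofReal.comp (Continuous.measurable (by fun_prop))
    exact (h1.mul (Sh.s11e_measurable_row hg)).mul_const 2
  calc ∫⁻ k in Icc k₁ k₂, ∫⁻ x in Icc (0 : ℝ) (2 * π), ∫⁻ z in Sh.Win L a b x k, g z
      ≤ ∫⁻ k in Icc k₁ k₂, ∫⁻ x in Icc (0 : ℝ) (2 * π), ∫⁻ s in Icc (-a) b, ∫⁻ w in Icc (-1 : ℝ) 1,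
          ENNReal.ofReal (L * Real.exp (-(2 * (k + s)))) *
            g (Sh.up (x + L * Real.exp (-(k + s)) * w) (Real.exp (-(k + s)))) :=
        lintegral_mono fun k => lintegral_mono fun x => Sh.s11f_win_le g hg L a b x k hL
    _ = ∫⁻ k in Icc k₁ k₂, ∫⁻ s in Icc (-a) b, R (k + s) := by
        congr 1
        funext k
        exact Sh.s11f_inner g hg hper L a b k
    _ = ∫⁻ s in Icc (-a) b, ∫⁻ k in Icc k₁ k₂, R (k + s) := by
        apply lintegral_lintegral_swap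
        exact (hRm.comp (f := fun q : ℝ × ℝ => q.1 + q.2) (by fun_prop)).aemeasurable
    _ ≤ ∫⁻ s in Icc (-a) b, ∫⁻ v in Icc (k₁ - a) (k₂ + b), R v := by
        apply setLIntegral_mono' measurableSet_Icc
        intro s hs
        have e : ∫⁻ k in Icc k₁ k₂, R (k + s) = ∫⁻ v in Icc (s + k₁) (s + k₂), R v := by
          rw [s11f_translate]
          simp only [add_comm]
        rw [e]
        exact lintegral_mono_set (Icc_subset_Icc (by linarith [hs.1]) (by linarith [hs.2]))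
    _ = ENNReal.ofReal (2 * L * (a + b)) * ∫⁻ v in Icc (k₁ - a) (k₂ + b), ENNReal.ofReal (Real.exp (-(2 * v))) *
          ∫⁻ x in Icc (0 : ℝ) (2 * π), g (Sh.up x (Real.exp (-v))) := by
        rw [setLIntegral_const, Real.volume_Icc]
        have e1 : ∀ v : ℝ, R v = ENNReal.ofReal (2 * L) * (ENNReal.ofReal (Real.exp (-(2 * v))) *
            ∫⁻ x in Icc (0 : ℝ) (2 * π), g (Sh.up x (Real.exp (-v)))) := by
          intro v
          simp only [hR]
          rw [ENNReal.ofReal_mul hL, ENNReal.ofReal_mul (by norm_num : (0 : ℝ) ≤ 2)]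
          have : ENNReal.ofReal 2 = 2 := by simp
          rw [this]
          ring
        simp only [e1]
        rw [lintegral_const_mul' _ _ ENNReal.ofReal_ne_top]
        have e2 : b - -a = a + b := by ring
        rw [e2, ENNReal.ofReal_mul (by positivity : (0 : ℝ) ≤ 2 * L)]
        ring

/-- joint measurability of window integrals -/
theorem measurable_win (g : ℂ → ℝ≥0∞) (hg : Measurable g) (L a b : ℝ) :
    Measurable fun p : ℝ × ℝ => ∫⁻ z in Sh.Win L a b p.1 p.2, g z := by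
  have hd : Measurable fun q : (ℝ × ℝ) × ℂ => Sh.dep q.2 := Sh.wc_measurable_dep.comp measurable_snd
  have hre : Measurable fun q : (ℝ × ℝ) × ℂ => q.2.re := Complex.measurable_re.comp measurable_snd
  have him : Measurable fun q : (ℝ × ℝ) × ℂ => q.2.im := Complex.measurable_im.comp measurable_snd
  have hx : Measurable fun q : (ℝ × ℝ) × ℂ => q.1.1 := measurable_fst.comp measurable_fst
  have hk : Measurable fun q : (ℝ × ℝ) × ℂ => q.1.2 := measurable_snd.comp measurable_fst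
  set S : Set ((ℝ × ℝ) × ℂ) := {q | q.2 ∈ Sh.Win L a b q.1.1 q.1.2} with hS
  have hSm : MeasurableSet S := by
    have h1 : MeasurableSet {q : (ℝ × ℝ) × ℂ | 0 < q.2.im} := measurableSet_lt measurable_const him
    have h2 : MeasurableSet {q : (ℝ × ℝ) × ℂ | 0 < Sh.dep q.2} := measurableSet_lt measurable_const hd
    have h3 : MeasurableSet {q : (ℝ × ℝ) × ℂ | |q.2.re - q.1.1| ≤ L * Sh.dep q.2} :=
      measurableSet_le (continuous_abs.measurable.comp (hre.sub hx)) (hd.const_mul L)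
    have h4 : MeasurableSet {q : (ℝ × ℝ) × ℂ | q.1.2 - a ≤ -Real.log (Sh.dep q.2)} :=
      measurableSet_le (hk.sub_const a) (Real.measurable_log.comp hd).neg
    have h5 : MeasurableSet {q : (ℝ × ℝ) × ℂ | -Real.log (Sh.dep q.2) ≤ q.1.2 + b} :=
      measurableSet_le (Real.measurable_log.comp hd).neg (hk.add_const b)
    exact h1.inter (h2.inter (h3.inter (h4.inter h5)))
  have hF : Measurable (S.indicator fun q : (ℝ × ℝ) × ℂ => g q.2) :=
    (hg.comp measurable_snd).indicator hSm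
  have := hF.lintegral_prod_right' (ν := (volume : Measure ℂ))
  have e : (fun p : ℝ × ℝ => ∫⁻ z in Sh.Win L a b p.1 p.2, g z)
      = fun p : ℝ × ℝ => ∫⁻ z : ℂ, S.indicator (fun q : (ℝ × ℝ) × ℂ => g q.2) (p, z) := by
    funext p
    rw [← lintegral_indicator (Sh.wc_measurableSet_Win L a b p.1 p.2)]
    rfl
  rw [e]
  exact this

/-! ### LF-S11f-2: almost every target is typical -/

-- (proved below, after `wc_asym2`)

/-! ### LF-S11f-3: tile chains in the cone window (deterministic geometry + `amp_osc`, `Hb_sq_le`) -/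

/-- the enlarged tile of a point of the small window lies in the large window -/
theorem tile_subset_Win (hH : Sh.H ≠ ⊤) (L₀ a₀ b₀ x k : ℝ) (hL : 0 ≤ L₀) (z₁ : ℂ) (hz : z₁ ∈ Sh.Win L₀ a₀ b₀ x k) (hc : Sh.Col z₁) :
    closedBall z₁ (3 * Sh.dep z₁ / 4) ⊆ Sh.Win (4 * L₀ + 3) (a₀ + 2) (b₀ + 2) x k := by
  intro z hzz
  obtain ⟨h1, h2, h3, h4, h5⟩ := hz
  have d1 := Sh.s11b_dep_ge hzz
  have d2 := Sh.s11b_dep_le hzz
  obtain ⟨δ, hδ⟩ : ∃ δ, δ = Sh.dep z₁ := ⟨_, rfl⟩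
  rw [← hδ] at h2 h3 h4 h5 d1 d2 hzz
  have hd : 0 < Sh.dep z := by linarith
  have hn : ‖z - z₁‖ ≤ 3 * δ / 4 := by rwa [mem_closedBall, dist_eq_norm] at hzz
  have him0 : z₁.im = Sh.Hr - δ := by
    rw [hδ]; simp only [dep]; rw [abs_of_pos h1]; ring
  have hH4 := hc.2.2
  rw [← hδ] at hH4
  have l2 : Real.log 2 ≤ 1 := by
    have := Real.log_le_sub_one_of_pos (show (0 : ℝ) < 2 by norm_num)
    linarith
  refine ⟨?_, hd, ?_, ?_, ?_⟩
  · have h6 : |(z - z₁).im| ≤ 3 * δ / 4 := (Complex.abs_im_le_norm _).trans hn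
    rw [Complex.sub_im] at h6
    have := (abs_le.1 h6).1
    linarith
  · have h6 : |(z - z₁).re| ≤ 3 * δ / 4 := (Complex.abs_re_le_norm _).trans hn
    rw [Complex.sub_re] at h6
    have h7 : |z.re - x| ≤ |z.re - z₁.re| + |z₁.re - x| := by
      have := abs_add_le (z.re - z₁.re) (z₁.re - x)
      rwa [sub_add_sub_cancel] at this
    nlinarith
  · have : Real.log (Sh.dep z) ≤ Real.log (δ * 2) := Real.log_le_log hd (by linarith)
    rw [Real.log_mul h2.ne' (by norm_num)] at this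
    linarith
  · have : Real.log (δ * (1 / 4)) ≤ Real.log (Sh.dep z) := Real.log_le_log (by positivity) (by linarith)
    rw [Real.log_mul h2.ne' (by norm_num)] at this
    have e : Real.log (1 / 4) = -(2 * Real.log 2) := by
      rw [one_div, Real.log_inv, show (4 : ℝ) = 2 ^ 2 by norm_num, Real.log_pow]
      push_cast; ring
    linarith

theorem Hb_le_of_EW (hH : Sh.H ≠ ⊤) (L₀ a₀ b₀ x k E : ℝ) (hL : 0 ≤ L₀) (hE : 0 ≤ E) (z₁ : ℂ) (hz : z₁ ∈ Sh.Win L₀ a₀ b₀ x k)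
    (hc : Sh.Col z₁) (hEW : Sh.EW (4 * L₀ + 3) (a₀ + 2) (b₀ + 2) x k ≤ ENNReal.ofReal E) :
    Sh.Hb z₁ ^ 2 ≤ 2 + 24 * E := by
  have h1 := Sh.Hb_sq_le hH z₁ hc
  have h2 : Sh.Eq z₁ ≤ ENNReal.ofReal E :=
    (lintegral_mono_set (Sh.tile_subset_Win hH L₀ a₀ b₀ x k hL z₁ hz hc)).trans hEW
  have h3 : ENNReal.ofReal (Sh.Hb z₁ ^ 2) ≤ ENNReal.ofReal (2 + 24 * E) := by
    refine h1.trans ?_
    rw [ENNReal.ofReal_add (by norm_num) (by positivity), ENNReal.ofReal_mul (by norm_num)]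
    have e2 : ENNReal.ofReal 2 = 2 := by simp
    have e24 : ENNReal.ofReal 24 = 24 := by simp
    rw [e2, e24]
    gcongr
  exact (ENNReal.ofReal_le_ofReal_iff (by positivity)).1 h3

/-- chaining: a function with oscillation `≤ κ` at scale `s` on an interval. -/
theorem s11f_chain (g : ℝ → ℝ) (α β κ s : ℝ) (hs : 0 < s) (hκ : 0 ≤ κ)
    (h : ∀ u ∈ Icc α β, ∀ u' ∈ Icc α β, |u - u'| ≤ s → |g u - g u'| ≤ κ) :
    ∀ u ∈ Icc α β, ∀ u' ∈ Icc α β, |g u - g u'| ≤ κ * (|u - u'| / s + 1) := by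
  have key : ∀ n : ℕ, ∀ u ∈ Icc α β, ∀ u' ∈ Icc α β, |u - u'| ≤ n * s → |g u - g u'| ≤ κ * n := by
    intro n
    induction n with
    | zero =>
      intro u _ u' _ hd
      simp only [Nat.cast_zero, zero_mul] at hd
      have : u = u' := by
        have := abs_nonpos_iff.1 hd
        linarith
      rw [this]; simp
    | succ n ih =>
      intro u hu u' hu' hd
      push_cast at hd ⊢
      have hn : (0 : ℝ) < n + 1 := by positivity
      obtain ⟨w, hw⟩ : ∃ w, w = u + (u' - u) / (n + 1) := ⟨_, rfl⟩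
      have hwI : w ∈ Icc α β := by
        have hconv := (convex_Icc α β).add_smul_sub_mem hu hu' (t := 1 / ((n : ℝ) + 1))
          ⟨by positivity, by rw [div_le_one hn]; linarith [(Nat.cast_nonneg n : (0 : ℝ) ≤ n)]⟩
        have e : u + (1 / ((n : ℝ) + 1)) • (u' - u) = w := by rw [hw, smul_eq_mul]; ring
        rwa [e] at hconv
      have h1 : |u - w| ≤ s := by
        have e : u - w = (u - u') / (n + 1) := by rw [hw]; field_simp; ring
        rw [e, abs_div, abs_of_pos hn, div_le_iff₀ hn]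
        linarith
      have h2 : |w - u'| ≤ n * s := by
        have e : w - u' = (u - u') * (n / (n + 1)) := by rw [hw]; field_simp; ring
        rw [e, abs_mul, abs_of_nonneg (show (0 : ℝ) ≤ n / (n + 1) by positivity)]
        calc |u - u'| * (n / (n + 1)) ≤ ((n + 1) * s) * (n / (n + 1)) := by gcongr
          _ = n * s := by field_simp
      have h3 := h u hu w hwI h1
      have h4 := ih w hwI u' hu' h2
      have h5 : |g u - g u'| ≤ |g u - g w| + |g w - g u'| := by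
        have := abs_add_le (g u - g w) (g w - g u')
        rwa [sub_add_sub_cancel] at this
      linarith
  intro u hu u' hu'
  have h1 : |u - u'| ≤ (⌈|u - u'| / s⌉₊ : ℝ) * s := by
    rw [← div_le_iff₀ hs]; exact Nat.le_ceil _
  have h2 := key _ u hu u' hu' h1
  have h3 : (⌈|u - u'| / s⌉₊ : ℝ) ≤ |u - u'| / s + 1 := (Nat.ceil_lt_add_one (by positivity)).le
  exact h2.trans (by gcongr)

/-- chain: vertically from the target to the depth of `z₁` (ratio of consecutive depths in `[5/8, 11/8]`, `≤ 4(a₀+b₀)+1` steps), then horizontally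
(`≤ 3L₀+1` steps of length `≤ 3δ₁/8`); all centres lie in `Win L₀ a₀ b₀ x k`. -/
theorem chain_amp (hH : Sh.H ≠ ⊤) : ∃ C : ℝ, 0 < C ∧ ∀ (L₀ a₀ b₀ x k E : ℝ), 0 ≤ L₀ → 0 ≤ a₀ → 0 ≤ b₀ → 0 ≤ E →
    Real.exp (-(k - a₀)) < Sh.Hr / 4 → ∀ z₁ ∈ Sh.Win L₀ a₀ b₀ x k,
    Sh.EW (4 * L₀ + 3) (a₀ + 2) (b₀ + 2) x k ≤ ENNReal.ofReal E →
    ∀ z ∈ closedBall z₁ (3 * Sh.dep z₁ / 8),
      |Sh.AA z - Sh.AA (Sh.tg x k)| ≤ C * (L₀ + a₀ + b₀ + 1) * Real.sqrt (1 + E) := by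
  obtain ⟨C₀, hC₀, hosc⟩ := Sh.amp_osc hH
  refine ⟨20 * C₀, by positivity, ?_⟩
  intro L₀ a₀ b₀ x k E hL ha hb hE hk4 z₁ hz₁ hEW z hz
  obtain ⟨κ, hκ⟩ : ∃ κ, κ = 5 * C₀ * Real.sqrt (1 + E) := ⟨_, rfl⟩
  have hκ0 : 0 ≤ κ := by rw [hκ]; positivity
  -- every point of the small window is in the collar and has small oscillation
  have hcolW : ∀ w ∈ Sh.Win L₀ a₀ b₀ x k, Sh.Col w := by
    intro w hw
    refine ⟨hw.1, hw.2.1, lt_of_le_of_lt ?_ hk4⟩
    rw [← Real.log_le_iff_le_exp hw.2.1]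
    linarith [hw.2.2.2.1]
  have hstep : ∀ w ∈ Sh.Win L₀ a₀ b₀ x k, ∀ w' ∈ closedBall w (3 * Sh.dep w / 8),
      |Sh.AA w' - Sh.AA w| ≤ κ := by
    intro w hw w' hw'
    have hc := hcolW w hw
    have h1 := hosc w hc w' hw'
    have h2 := Sh.Hb_le_of_EW hH L₀ a₀ b₀ x k E hL hE w hw hc hEW
    have h3 : Sh.Hb w ≤ 5 * Real.sqrt (1 + E) := by
      have : Sh.Hb w ≤ Real.sqrt (25 * (1 + E)) := Real.le_sqrt_of_sq_le (by linarith)
      rwa [Real.sqrt_mul (by norm_num), show (25 : ℝ) = 5 ^ 2 by norm_num,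
        Real.sqrt_sq (by norm_num)] at this
    calc |Sh.AA w' - Sh.AA w| ≤ C₀ * Sh.Hb w := h1
      _ ≤ C₀ * (5 * Real.sqrt (1 + E)) := by gcongr
      _ = κ := by rw [hκ]; ring
  obtain ⟨m1, m2, m3, m4, m5⟩ := hz₁
  obtain ⟨δ, hδ⟩ : ∃ δ, δ = Sh.dep z₁ := ⟨_, rfl⟩
  rw [← hδ] at m2 m3 m4 m5
  obtain ⟨v₁, hv₁⟩ : ∃ v₁, v₁ = -Real.log δ := ⟨_, rfl⟩
  rw [← hv₁] at m4 m5
  have hδe : δ = Real.exp (-v₁) := by rw [hv₁, neg_neg, Real.exp_log m2]
  have hHr : ∀ v, k - a₀ ≤ v → Real.exp (-v) ≤ Sh.Hr := by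
    intro v hv
    have : Real.exp (-v) ≤ Real.exp (-(k - a₀)) := Real.exp_le_exp.2 (by linarith)
    have h0 : 0 < Real.exp (-(k - a₀)) := Real.exp_pos _
    linarith
  have hz₁e : z₁ = Sh.up z₁.re δ := by
    apply Complex.ext
    · simp [up]
    · simp only [up]
      rw [hδ]; simp only [dep]; rw [abs_of_pos m1]; ring
  -- membership in the window
  have hWv : ∀ v ∈ Icc (k - a₀) (k + b₀), Sh.up x (Real.exp (-v)) ∈ Sh.Win L₀ a₀ b₀ x k := by
    intro v hv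
    have hd := Sh.dep_up x _ (hHr v hv.1)
    have hpos := Real.exp_pos (-v)
    refine ⟨?_, by rw [hd]; exact hpos, ?_, ?_, ?_⟩
    · simp only [up]
      have : Real.exp (-v) ≤ Real.exp (-(k - a₀)) := Real.exp_le_exp.2 (by linarith [hv.1])
      linarith
    · rw [hd]; simp only [up, sub_self, abs_zero]; positivity
    · rw [hd, Real.log_exp]; linarith [hv.1]
    · rw [hd, Real.log_exp]; linarith [hv.2]
  have hδH : δ ≤ Sh.Hr := by rw [hδe]; exact hHr v₁ m4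
  have hWx : ∀ x' ∈ Icc (x - L₀ * δ) (x + L₀ * δ), Sh.up x' δ ∈ Sh.Win L₀ a₀ b₀ x k := by
    intro x' hx'
    have hd := Sh.dep_up x' δ hδH
    refine ⟨?_, by rw [hd]; exact m2, ?_, ?_, ?_⟩
    · have := m1
      rw [hz₁e] at this
      simpa [up] using this
    · rw [hd]; simp only [up]; rw [abs_le]; constructor <;> linarith [hx'.1, hx'.2]
    · rw [hd, ← hv₁]; exact m4
    · rw [hd, ← hv₁]; exact m5
  -- vertical chain
  have hvert := s11f_chain (fun v => Sh.AA (Sh.up x (Real.exp (-v)))) (k - a₀) (k + b₀) κ (1 / 4) (by norm_num) hκ0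
    (by
      intro u hu u' hu' huu
      refine hstep _ (hWv u' hu') _ ?_
      rw [Sh.dep_up x _ (hHr u' hu'.1), mem_closedBall, dist_eq_norm]
      have e : ∀ d d' : ℝ, Sh.up x d - Sh.up x d' = ((d' - d : ℝ) : ℂ) * I := by
        intro d d'
        apply Complex.ext <;> simp [up]
      rw [e, norm_mul, Complex.norm_I, mul_one, Complex.norm_real, Real.norm_eq_abs]
      have e2 : Real.exp (-u') - Real.exp (-u) = Real.exp (-u') * (1 - Real.exp (u' - u)) := by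
        rw [mul_sub, mul_one, ← Real.exp_add]; congr 2; ring
      rw [e2, abs_mul, abs_of_pos (Real.exp_pos _)]
      have h6 : |1 - Real.exp (u' - u)| ≤ 3 / 8 := by
        have hb1 := abs_le.1 huu
        have hx : |u' - u| ≤ 1 := by rw [abs_sub_comm]; linarith
        have := Real.abs_exp_sub_one_sub_id_le hx
        have h7 : |u' - u| ≤ 1 / 4 := by rw [abs_sub_comm]; exact huu
        have h8 : (u' - u) ^ 2 ≤ 1 / 16 := by
          have := abs_le.1 h7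
          nlinarith
        rw [abs_sub_comm]
        have h9 := abs_le.1 this
        have h10 := abs_le.1 h7
        rw [abs_le]
        constructor <;> linarith [h9.1, h9.2, h10.1, h10.2]
      calc Real.exp (-u') * |1 - Real.exp (u' - u)| ≤ Real.exp (-u') * (3 / 8) := by gcongr
        _ = 3 * Real.exp (-u') / 8 := by ring)
    v₁ ⟨m4, m5⟩ k ⟨by linarith, by linarith⟩
  -- horizontal chain
  have hhor := s11f_chain (fun x' => Sh.AA (Sh.up x' δ)) (x - L₀ * δ) (x + L₀ * δ) κ (3 * δ / 8) (by positivity) hκ0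
    (by
      intro u hu u' hu' huu
      refine hstep _ (hWx u' hu') _ ?_
      rw [Sh.dep_up u' δ hδH, mem_closedBall, dist_eq_norm]
      have e : Sh.up u δ - Sh.up u' δ = ((u - u' : ℝ) : ℂ) := by
        apply Complex.ext <;> simp [up]
      rw [e, Complex.norm_real, Real.norm_eq_abs]
      exact huu)
    z₁.re (by have := abs_le.1 m3; constructor <;> linarith [this.1, this.2])
    x ⟨by nlinarith, by nlinarith⟩
  rw [← hδe] at hvert
  rw [← hz₁e] at hhor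
  have hlast := hstep z₁ ⟨m1, by rw [← hδ]; exact m2, by rw [← hδ]; exact m3, by rw [← hδ, ← hv₁]; exact m4,
    by rw [← hδ, ← hv₁]; exact m5⟩ z hz
  have hv' : |v₁ - k| / (1 / 4) + 1 ≤ 4 * (a₀ + b₀) + 1 := by
    have : |v₁ - k| ≤ a₀ + b₀ := by rw [abs_le]; constructor <;> linarith
    linarith
  have hx' : |z₁.re - x| / (3 * δ / 8) + 1 ≤ 3 * L₀ + 1 := by
    have : |z₁.re - x| / (3 * δ / 8) ≤ 3 * L₀ := by
      rw [div_le_iff₀ (by positivity)]
      nlinarith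
    linarith
  have t1 : |Sh.AA z - Sh.AA (Sh.tg x k)| ≤ |Sh.AA z - Sh.AA z₁| + |Sh.AA z₁ - Sh.AA (Sh.up x δ)|
      + |Sh.AA (Sh.up x δ) - Sh.AA (Sh.tg x k)| := by
    have a1 := abs_add_le (Sh.AA z - Sh.AA z₁) (Sh.AA z₁ - Sh.AA (Sh.up x δ))
    have a2 := abs_add_le (Sh.AA z - Sh.AA z₁ + (Sh.AA z₁ - Sh.AA (Sh.up x δ)))
      (Sh.AA (Sh.up x δ) - Sh.AA (Sh.tg x k))
    have e : Sh.AA z - Sh.AA z₁ + (Sh.AA z₁ - Sh.AA (Sh.up x δ)) + (Sh.AA (Sh.up x δ) - Sh.AA (Sh.tg x k))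
        = Sh.AA z - Sh.AA (Sh.tg x k) := by ring
    rw [e] at a2
    linarith
  have t2 : |Sh.AA z₁ - Sh.AA (Sh.up x δ)| ≤ κ * (3 * L₀ + 1) := hhor.trans (by gcongr)
  have t3 : |Sh.AA (Sh.up x δ) - Sh.AA (Sh.tg x k)| ≤ κ * (4 * (a₀ + b₀) + 1) := by
    unfold tg
    exact hvert.trans (by gcongr)
  calc |Sh.AA z - Sh.AA (Sh.tg x k)| ≤ κ + κ * (3 * L₀ + 1) + κ * (4 * (a₀ + b₀) + 1) := by linarith
    _ ≤ 4 * κ * (L₀ + a₀ + b₀ + 1) := by nlinarith
    _ = 20 * C₀ * (L₀ + a₀ + b₀ + 1) * Real.sqrt (1 + E) := by rw [hκ]; ring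

/-! ### LF-S11f-4: the cost of one witness disc (local; `LS.log_osc`, `LS.dbl`, `amp_area`, `aa_le_AA`).
`D₁ = B̄(z₁, δ₁/16)`, `μ` = normalised area on `D₁`.  For `z ∈ D₁`: `(15/16)δ₁ ≤ δ(z) ≤ (17/16)δ₁`, `D₁ ⊆ B(z, δ(z)/4)`, so (linear change of variables in `Jl`)
`cost h z ≥ (16/δ(z)²) 1_{|a z| ≤ h} ∫_{D₁} min((a z' - a z)², h²) dA(z')`. -/

/-- the jump integral dominates the integral over the witness disc. -/
theorem s11f_Jl_ge (g : ℂ → ℝ≥0∞) {z₁ z : ℂ} (h0 : 0 < Sh.dep z₁) (hz : z ∈ closedBall z₁ (Sh.dep z₁ / 16)) :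
    ∫⁻ y in closedBall z₁ (Sh.dep z₁ / 16), g y
      ≤ ENNReal.ofReal (289 * Sh.dep z₁ ^ 2 / 4096) * Sh.Jl g z := by
  have h1 := Sh.s11b_dep_ge hz
  have h2 := Sh.s11b_dep_le hz
  have hd : 0 < Sh.dep z := by linarith
  obtain ⟨ρ, hρ⟩ : ∃ ρ, ρ = Sh.dep z / 4 := ⟨_, rfl⟩
  have hρ0 : 0 < ρ := by rw [hρ]; positivity
  obtain ⟨R, hR⟩ : ∃ R, R = Sh.dep z₁ / 8 / ρ := ⟨_, rfl⟩
  have hρR : ρ * R = Sh.dep z₁ / 8 := by rw [hR]; field_simp
  have hR1 : R < 1 := by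
    rw [hR, div_lt_one hρ0, hρ]; linarith
  have hsub : closedBall z₁ (Sh.dep z₁ / 16) ⊆ closedBall z (ρ * R) := by
    rw [hρR]
    intro y hy
    rw [mem_closedBall] at hy hz ⊢
    calc dist y z ≤ dist y z₁ + dist z₁ z := dist_triangle _ _ _
      _ ≤ Sh.dep z₁ / 16 + Sh.dep z₁ / 16 := by rw [dist_comm z₁ z]; linarith
      _ = Sh.dep z₁ / 8 := by ring
  calc ∫⁻ y in closedBall z₁ (Sh.dep z₁ / 16), g y
      ≤ ∫⁻ y in closedBall z (ρ * R), g y := lintegral_mono_set hsub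
    _ = ENNReal.ofReal (ρ ^ 2) * ∫⁻ ζ in closedBall (0 : ℂ) R, g (z + (ρ : ℂ) * ζ) :=
        s11b_lintegral_ball g z hρ0 R
    _ ≤ ENNReal.ofReal (289 * Sh.dep z₁ ^ 2 / 4096) * Sh.Jl g z := by
        unfold Jl
        rw [← hρ]
        gcongr
        · rw [hρ]
          nlinarith
        · exact closedBall_subset_ball hR1

theorem disc_cost (hH : Sh.H ≠ ⊤) (cs : ℝ) (hcs : 0 < cs) : ∃ c η : ℝ, 0 < c ∧ 0 < η ∧ ∀ (z₁ : ℂ) (h : ℝ), Sh.Col z₁ → 1 ≤ h →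
    (∀ z ∈ closedBall z₁ (Sh.dep z₁ / 16), |Sh.AA z| ≤ h / 3) → cs ^ 2 ≤ Sh.dep z₁ ^ 2 * ‖Sh.q z₁‖ → Sh.Hb z₁ ^ 2 ≤ η * h →
    ENNReal.ofReal (c * Sh.dep z₁ ^ 2) ≤ ∫⁻ z in closedBall z₁ (Sh.dep z₁ / 16), Sh.cost h z := by
  obtain ⟨Ca, hCa, harea⟩ := Sh.amp_area hH
  obtain ⟨c₂, hc₂, hosc⟩ := LS.log_osc (cs ^ 2 / 256) (by positivity)
  have hpi := Real.pi_pos
  have hpi1 : 1 ≤ π := by linarith [Real.pi_gt_three]
  refine ⟨c₂ ^ 2 / 36992, min (c₂ / (4096 * Ca)) (1 / (18432 * Ca)), by positivity,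
    lt_min (by positivity) (by positivity), ?_⟩
  intro z₁ h hcol hh hA hq hHb
  obtain ⟨η, hη⟩ : ∃ η, η = min (c₂ / (4096 * Ca)) (1 / (18432 * Ca)) := ⟨_, rfl⟩
  rw [← hη] at hHb
  have hη1 : η * (4096 * Ca) ≤ c₂ := by
    have : η ≤ c₂ / (4096 * Ca) := by rw [hη]; exact min_le_left _ _
    rwa [le_div_iff₀ (by positivity)] at this
  have hη2 : η * (18432 * Ca) ≤ 1 := by
    have : η ≤ 1 / (18432 * Ca) := by rw [hη]; exact min_le_right _ _
    rwa [le_div_iff₀ (by positivity)] at this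
  have hδ := hcol.2.1
  obtain ⟨δ, hδdef⟩ : ∃ δ, δ = Sh.dep z₁ := ⟨_, rfl⟩
  rw [← hδdef] at hδ hA hq ⊢
  have hr : 0 < δ / 16 := by positivity
  have hDsub : closedBall z₁ (δ / 16) ⊆ Sh.D := by
    rw [hδdef]; exact Sh.s11b_ball_subset hH (by rw [← hδdef]; linarith)
  have hz₁D : z₁ ∈ Sh.D := hDsub (mem_closedBall_self hr.le)
  -- the normalised area
  obtain ⟨V, hV⟩ : ∃ V, V = volume (closedBall z₁ (δ / 16)) := ⟨_, rfl⟩
  have hVe : V = ENNReal.ofReal (π * δ ^ 2 / 256) := by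
    rw [hV, Complex.volume_closedBall, ← ENNReal.ofReal_pow hr.le, ← ENNReal.ofReal_coe_nnreal (p := NNReal.pi),
      NNReal.coe_real_pi, ← ENNReal.ofReal_mul (by positivity)]
    congr 1
    ring
  have hV0 : V ≠ 0 := by
    rw [hVe]; exact (ENNReal.ofReal_pos.2 (by positivity)).ne'
  have hVt : V ≠ ⊤ := by rw [hVe]; exact ENNReal.ofReal_ne_top
  have hVi : V⁻¹ = ENNReal.ofReal (256 / (π * δ ^ 2)) := by
    rw [hVe, ← ENNReal.ofReal_inv_of_pos (by positivity)]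
    congr 1
    rw [inv_div]
  obtain ⟨μ, hμ⟩ : ∃ μ : Measure ℂ, μ = V⁻¹ • volume.restrict (closedBall z₁ (δ / 16)) := ⟨_, rfl⟩
  have hprob : IsProbabilityMeasure μ := by
    constructor
    rw [hμ, Measure.smul_apply, Measure.restrict_apply MeasurableSet.univ, univ_inter, ← hV, smul_eq_mul,
      ENNReal.inv_mul_cancel hV0 hVt]
  have hint : ∀ F : ℂ → ℝ≥0∞, ∫⁻ x, F x ∂μ = V⁻¹ * ∫⁻ x in closedBall z₁ (δ / 16), F x := by
    intro F
    rw [hμ, lintegral_smul_measure, smul_eq_mul]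
  have hae : ∀ {p : ℂ → Prop}, (∀ᵐ x ∂(volume.restrict (closedBall z₁ (δ / 16))), p x) → ∀ᵐ x ∂μ, p x := by
    intro p hp
    rw [hμ]
    exact Measure.ae_smul_measure hp _
  have hmem : ∀ᵐ x ∂(volume.restrict (closedBall z₁ (δ / 16))), x ∈ closedBall z₁ (δ / 16) :=
    ae_restrict_mem measurableSet_closedBall
  obtain ⟨E, hE⟩ : ∃ E, E = 256 * Ca * Sh.Hb z₁ ^ 2 / π := ⟨_, rfl⟩
  have hEle : E * π ≤ 256 * Ca * (η * h) := by
    rw [hE, div_mul_cancel₀ _ hpi.ne']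
    gcongr
  have key := LS.dbl μ Sh.aa Sh.AA Sh.measurable_aa Sh.measurable_AA h (c₂ / π) E (by linarith)
    (by positivity)
    (hae (hmem.mono fun x hx => hA x hx))
    (hae (by
      have h1 := Sh.s11b_ae_ne (volume : Measure ℂ) (g := id) Function.injective_id
      filter_upwards [hmem, ae_restrict_of_ae h1] with x hx h2
      exact Sh.aa_le_AA hH x ((Sh.mem_D_iff hH x).1 (hDsub hx)) (h2 (hDsub hx))))
    (by
      rw [hint, hVi]
      have h1 := harea z₁ hcol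
      rw [← hδdef] at h1
      have h2 : ∫⁻ x in closedBall z₁ (δ / 16), ENNReal.ofReal ((Sh.AA x - Sh.aa x) ^ 2)
          ≤ ENNReal.ofReal (Ca * Sh.Hb z₁ ^ 2 * δ ^ 2) :=
        (lintegral_mono_set (closedBall_subset_closedBall (by linarith))).trans h1
      calc ENNReal.ofReal (256 / (π * δ ^ 2)) * ∫⁻ x in closedBall z₁ (δ / 16), ENNReal.ofReal ((Sh.AA x - Sh.aa x) ^ 2)
          ≤ ENNReal.ofReal (256 / (π * δ ^ 2)) * ENNReal.ofReal (Ca * Sh.Hb z₁ ^ 2 * δ ^ 2) := by gcongr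
        _ = ENNReal.ofReal E := by
            rw [← ENNReal.ofReal_mul (by positivity), hE]
            congr 1
            field_simp)
    (by
      intro ζ
      rw [hint, hVi]
      have h1 := hosc Sh.f (Sh.q z₁) z₁ (δ / 16) hr ((Sh.f_diff.analyticOnNhd Sh.isOpen_D).mono hDsub)
        (Sh.f_f'_ne z₁ hz₁D) (Sh.f_ode z₁ hz₁D) (by nlinarith) ζ
      calc ENNReal.ofReal (c₂ / π)
          = ENNReal.ofReal (256 / (π * δ ^ 2)) * ENNReal.ofReal (c₂ * (δ / 16) ^ 2) := by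
            rw [← ENNReal.ofReal_mul (by positivity)]
            congr 1
            field_simp
            ring
        _ ≤ _ := by
            gcongr
            exact h1)
    (by
      rw [div_mul_eq_mul_div, le_div_iff₀ hpi]
      have : η * (4096 * Ca) * h ≤ c₂ * h := by gcongr
      nlinarith)
    (by
      have h1 : η * (18432 * Ca) * h ≤ 1 * h := by gcongr
      have h2 : h ≤ h ^ 2 := by nlinarith
      have h3 : h ^ 2 ≤ h ^ 2 * π := by nlinarith [sq_nonneg h]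
      have h4 : 72 * E * π ≤ h ^ 2 * π := by nlinarith
      exact le_of_mul_le_mul_right h4 hpi)
  -- unfold the double integral
  have hVit : V⁻¹ ≠ ⊤ := ENNReal.inv_ne_top.2 hV0
  rw [hint] at key
  simp only [hint] at key
  rw [lintegral_const_mul' _ _ hVit] at key
  -- compare with the cost
  have hcmp : ∀ z ∈ closedBall z₁ (δ / 16),
      ∫⁻ y in closedBall z₁ (δ / 16),
        ENNReal.ofReal (if |Sh.aa z| ≤ h then min ((Sh.aa y - Sh.aa z) ^ 2) (h ^ 2) else 0)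
      ≤ ENNReal.ofReal (289 * δ ^ 2 / 4096) * Sh.cost h z := by
    intro z hz
    by_cases hc : |Sh.aa z| ≤ h
    · simp only [hc, if_true, cost]
      have := Sh.s11f_Jl_ge (fun z' => ENNReal.ofReal (min ((Sh.aa z' - Sh.aa z) ^ 2) (h ^ 2)))
        (z₁ := z₁) (z := z) (by rw [← hδdef]; exact hδ) (by rw [← hδdef]; exact hz)
      rw [← hδdef] at this
      exact this
    · simp only [hc, if_false, ENNReal.ofReal_zero, lintegral_zero]
      exact zero_le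
  have h5 : ∫⁻ z in closedBall z₁ (δ / 16), ∫⁻ y in closedBall z₁ (δ / 16),
        ENNReal.ofReal (if |Sh.aa z| ≤ h then min ((Sh.aa y - Sh.aa z) ^ 2) (h ^ 2) else 0)
      ≤ ENNReal.ofReal (289 * δ ^ 2 / 4096) * ∫⁻ z in closedBall z₁ (δ / 16), Sh.cost h z := by
    rw [← lintegral_const_mul' _ _ ENNReal.ofReal_ne_top]
    exact setLIntegral_mono' measurableSet_closedBall hcmp
  have h6 : ENNReal.ofReal ((c₂ / π) ^ 2 / 8) ≤ V⁻¹ * (V⁻¹ * (ENNReal.ofReal (289 * δ ^ 2 / 4096)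
      * ∫⁻ z in closedBall z₁ (δ / 16), Sh.cost h z)) := by
    refine key.trans ?_
    gcongr
  rw [← mul_assoc, ← mul_assoc, hVi, ← ENNReal.ofReal_mul (by positivity),
    ← ENNReal.ofReal_mul (by positivity)] at h6
  have hk : 0 < 256 / (π * δ ^ 2) * (256 / (π * δ ^ 2)) * (289 * δ ^ 2 / 4096) := by positivity
  have e : ENNReal.ofReal ((c₂ / π) ^ 2 / 8)
      = ENNReal.ofReal (256 / (π * δ ^ 2) * (256 / (π * δ ^ 2)) * (289 * δ ^ 2 / 4096))
        * ENNReal.ofReal (c₂ ^ 2 / 36992 * δ ^ 2) := by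
    rw [← ENNReal.ofReal_mul hk.le]
    congr 1
    field_simp
    ring
  rw [e] at h6
  exact (ENNReal.mul_le_mul_iff_right (ENNReal.ofReal_pos.2 hk).ne' ENNReal.ofReal_ne_top).1 h6

/-! ### LF-S11f-5: every typical moderate target pays (P1 (11.21)) -/

/- (11.16), (11.17): at a typical moderate target the amplitude is `≤ h₀/3` near the witness, so `δ|f| ≤ e^{h₀/3 - k + a} < cs` there and the witness is a
`q`-witness; then `disc_cost`, `D₁ ⊆` window, `δ(z) ≤ (17/16) δ₁` on `D₁`. -/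
/-! ### LF-S11f-6: assembly = Lemma 11.6.
`modBand ⊆ atypical ∪ (typical ∧ moderate)`; Markov for the measurable function `(x,k) ↦ ∫_{Win} cost δ^{-2}` (`measurable_win`, `measurable_cost`), `win_fubini` (for
`cost δ^{-2}` times the indicator of `Sh.D`): `c · vol(typ ∧ mod) ≤ 2L(a+b) · bint cost (1.1K) (1.9K) ≤ C log K · K^{1/2+7α} = o(K)`. -/

theorem wc_dep_add (z : ℂ) : Sh.dep (z + 2 * π) = Sh.dep z := by
  simp [dep]

/-- the disc of the jump stays in the strip -/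
theorem wc_jump_mem (hH : Sh.H ≠ ⊤) (z : ℂ) (hz : z ∈ Sh.D) (w : ℂ) (hw : w ∈ ball (0 : ℂ) 1) :
    z + ((Sh.dep z / 4 : ℝ) : ℂ) * w ∈ Sh.D := by
  rw [Sh.mem_D_iff hH] at hz ⊢
  have hw1 : |w.im| < 1 := lt_of_le_of_lt (Complex.abs_im_le_norm w) (by simpa using hw)
  have him : (z + ((Sh.dep z / 4 : ℝ) : ℂ) * w).im = z.im + Sh.dep z / 4 * w.im := by
    simp
  unfold dep at hz him ⊢
  rw [him]
  have h1 : |z.im + (Sh.Hr - |z.im|) / 4 * w.im| ≤ |z.im| + (Sh.Hr - |z.im|) / 4 * |w.im| := by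
    refine le_trans (abs_add_le _ _) ?_
    rw [abs_mul, abs_of_pos (by linarith : 0 < (Sh.Hr - |z.im|) / 4)]
  nlinarith

theorem wc_aa_per (z : ℂ) (hz : z ∈ Sh.D) : Sh.aa (z + 2 * π) = Sh.aa z := by
  unfold aa
  rw [Sh.f_per z hz]

theorem wc_cost_per (hH : Sh.H ≠ ⊤) (h : ℝ) (z : ℂ) (hz : z ∈ Sh.D) : Sh.cost h (z + 2 * π) = Sh.cost h z := by
  unfold cost Jl
  rw [Sh.wc_aa_per z hz, Sh.wc_dep_add]
  congr 1
  refine setLIntegral_congr_fun measurableSet_ball fun w hw => ?_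
  have := Sh.wc_aa_per _ (Sh.wc_jump_mem hH z hz w hw)
  have e : z + 2 * π + ((Sh.dep z / 4 : ℝ) : ℂ) * w = z + ((Sh.dep z / 4 : ℝ) : ℂ) * w + 2 * π := by ring
  simp only [e, this]

/-- the integrand of the window integrals -/
noncomputable def wcg (h : ℝ) (z : ℂ) : ℝ≥0∞ :=
  Sh.D.indicator (fun z => Sh.cost h z * ENNReal.ofReal ((Sh.dep z ^ 2)⁻¹)) z

theorem wc_measurable_wcg (h : ℝ) : Measurable (Sh.wcg h) := by
  unfold wcg
  refine Measurable.indicator ?_ Sh.isOpen_D.measurableSet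
  exact (Sh.measurable_cost h).mul (ENNReal.measurable_ofReal.comp ((Sh.wc_measurable_dep.pow_const 2).inv))

theorem wc_wcg_per (hH : Sh.H ≠ ⊤) (h : ℝ) (z : ℂ) : Sh.wcg h (z + 2 * π) = Sh.wcg h z := by
  unfold wcg
  by_cases hz : z ∈ Sh.D
  · have hz' : z + 2 * π ∈ Sh.D := by
      rw [Sh.mem_D_iff hH] at hz ⊢; rwa [Sh.wc_dep_add]
    rw [indicator_of_mem hz, indicator_of_mem hz', Sh.wc_cost_per hH h z hz, Sh.wc_dep_add]
  · have hz' : z + 2 * π ∉ Sh.D := by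
      rw [Sh.mem_D_iff hH] at hz ⊢; rwa [Sh.wc_dep_add]
    rw [indicator_of_notMem hz, indicator_of_notMem hz']

theorem wc_wcg_up (h v x : ℝ) (hv : Real.exp (-v) ≤ Sh.Hr) :
    ENNReal.ofReal (Real.exp (-(2 * v))) * Sh.wcg h (Sh.up x (Real.exp (-v))) ≤ Sh.cost h (Sh.up x (Real.exp (-v))) := by
  unfold wcg
  by_cases hz : Sh.up x (Real.exp (-v)) ∈ Sh.D
  · rw [indicator_of_mem hz, Sh.dep_up x _ hv]
    have e : ENNReal.ofReal (Real.exp (-(2 * v))) * ENNReal.ofReal ((Real.exp (-v) ^ 2)⁻¹) = 1 := by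
      rw [← ENNReal.ofReal_mul (Real.exp_pos _).le, ← Real.exp_nat_mul, ← Real.exp_neg, ← Real.exp_add]
      simp
    calc ENNReal.ofReal (Real.exp (-(2 * v))) * (Sh.cost h (Sh.up x (Real.exp (-v))) * ENNReal.ofReal ((Real.exp (-v) ^ 2)⁻¹))
        = Sh.cost h (Sh.up x (Real.exp (-v))) * (ENNReal.ofReal (Real.exp (-(2 * v))) * ENNReal.ofReal ((Real.exp (-v) ^ 2)⁻¹)) := by ring
      _ = Sh.cost h (Sh.up x (Real.exp (-v))) := by rw [e, mul_one]
      _ ≤ _ := le_rfl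
  · rw [indicator_of_notMem hz, mul_zero]; exact zero_le

theorem wc_bint_mono (g : ℂ → ℝ≥0∞) (v₁ v₂ w₁ w₂ : ℝ) (h1 : w₁ ≤ v₁) (h2 : v₂ ≤ w₂) : Sh.bint g v₁ v₂ ≤ Sh.bint g w₁ w₂ := by
  unfold bint
  exact lintegral_mono_set (Icc_subset_Icc h1 h2)

/-- asymptotics -/
theorem wc_asym (A B c : ℝ) (hc : 0 < c) : ∀ᶠ K : ℝ in atTop, (A * Real.log (2 * K) + B) * K ^ ((1 : ℝ) / 2 + 7 / 100) ≤ c * K := by
  have h1 : ∀ᶠ K : ℝ in atTop, (20 * |A| + |B|) / c ≤ K ^ ((33 : ℝ) / 100) :=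
    (tendsto_rpow_atTop (by norm_num)).eventually_ge_atTop _
  filter_upwards [h1, eventually_ge_atTop 1] with K hK hK1
  have hKp : 0 < K := by linarith
  have hlog : Real.log (2 * K) ≤ 20 * K ^ ((1 : ℝ) / 10) := by
    have := Real.log_le_rpow_div (x := 2 * K) (by linarith) (ε := 1 / 10) (by norm_num)
    have h2 : (2 * K) ^ ((1 : ℝ) / 10) ≤ 2 * K ^ ((1 : ℝ) / 10) := by
      rw [Real.mul_rpow (by norm_num) hKp.le]
      have : (2 : ℝ) ^ ((1 : ℝ) / 10) ≤ 2 ^ (1 : ℝ) := Real.rpow_le_rpow_of_exponent_le (by norm_num) (by norm_num)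
      rw [Real.rpow_one] at this
      exact mul_le_mul_of_nonneg_right this (Real.rpow_nonneg hKp.le _)
    linarith
  have hlog0 : 0 ≤ Real.log (2 * K) := Real.log_nonneg (by linarith)
  have hp1 : 1 ≤ K ^ ((1 : ℝ) / 10) := Real.one_le_rpow hK1 (by norm_num)
  have hb : A * Real.log (2 * K) + B ≤ (20 * |A| + |B|) * K ^ ((1 : ℝ) / 10) := by
    have a1 : A * Real.log (2 * K) ≤ |A| * (20 * K ^ ((1 : ℝ) / 10)) :=
      le_trans (mul_le_mul_of_nonneg_right (le_abs_self A) hlog0) (mul_le_mul_of_nonneg_left hlog (abs_nonneg A))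
    have a2 : B ≤ |B| * K ^ ((1 : ℝ) / 10) := le_trans (le_abs_self B) (le_mul_of_one_le_right (abs_nonneg B) hp1)
    linarith
  have hK57 : 0 < K ^ ((1 : ℝ) / 2 + 7 / 100) := Real.rpow_pos_of_pos hKp _
  have e : K = K ^ ((1 : ℝ) / 10) * K ^ ((1 : ℝ) / 2 + 7 / 100) * K ^ ((33 : ℝ) / 100) := by
    rw [← Real.rpow_add hKp, ← Real.rpow_add hKp]; norm_num
  rw [div_le_iff₀ hc] at hK
  calc (A * Real.log (2 * K) + B) * K ^ ((1 : ℝ) / 2 + 7 / 100)
      ≤ (20 * |A| + |B|) * K ^ ((1 : ℝ) / 10) * K ^ ((1 : ℝ) / 2 + 7 / 100) := mul_le_mul_of_nonneg_right hb hK57.le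
    _ = (20 * |A| + |B|) * (K ^ ((1 : ℝ) / 10) * K ^ ((1 : ℝ) / 2 + 7 / 100)) := by ring
    _ ≤ (K ^ ((33 : ℝ) / 100) * c) * (K ^ ((1 : ℝ) / 10) * K ^ ((1 : ℝ) / 2 + 7 / 100)) :=
        mul_le_mul_of_nonneg_right hK (by positivity)
    _ = c * (K ^ ((1 : ℝ) / 10) * K ^ ((1 : ℝ) / 2 + 7 / 100) * K ^ ((33 : ℝ) / 100)) := by ring
    _ = c * K := by rw [← e]

theorem wc_asym2 (A B c : ℝ) (hc : 0 < c) : ∀ᶠ K : ℝ in atTop, A * Real.log (2 * K) + B ≤ c * K := by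
  filter_upwards [wc_asym |A| |B| c hc, eventually_ge_atTop 1] with K hK hK1
  have hp1 : 1 ≤ K ^ ((1 : ℝ) / 2 + 7 / 100) := Real.one_le_rpow hK1 (by norm_num)
  have hlog0 : 0 ≤ Real.log (2 * K) := Real.log_nonneg (by linarith)
  have h0 : 0 ≤ |A| * Real.log (2 * K) + |B| := by positivity
  have h1 : A * Real.log (2 * K) + B ≤ |A| * Real.log (2 * K) + |B| :=
    add_le_add (mul_le_mul_of_nonneg_right (le_abs_self A) hlog0) (le_abs_self B)
  nlinarith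

/-! ### LF-S11f-2 (proofs) -/

/-- measurable, everywhere periodic version of `|q|` -/
noncomputable def ewg (z : ℂ) : ℝ≥0∞ := ENNReal.ofReal ‖Sh.D.indicator Sh.q z‖

theorem ew_measurable : Measurable Sh.ewg := by
  classical
  have h2 : Measurable (Sh.D.indicator Sh.q) := by
    have := ContinuousOn.measurable_piecewise (f := Sh.q) (g := fun _ => (0 : ℂ)) (s := Sh.D) Sh.q_diff.continuousOn
      continuousOn_const Sh.isOpen_D.measurableSet
    have e : Sh.D.piecewise Sh.q (fun _ => (0 : ℂ)) = Sh.D.indicator Sh.q := Set.piecewise_eq_indicator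
    rwa [e] at this
  exact ENNReal.measurable_ofReal.comp h2.norm

theorem ew_of_mem (z : ℂ) (hz : z ∈ Sh.D) : Sh.ewg z = ENNReal.ofReal ‖Sh.q z‖ := by
  unfold ewg; rw [indicator_of_mem hz]

theorem ew_per (z : ℂ) : Sh.ewg (z + 2 * π) = Sh.ewg z := by
  by_cases hz : z ∈ Sh.D
  · rw [Sh.ew_of_mem z hz, Sh.ew_of_mem _ (Sh.sb_add_two_pi_mem_D hz), Sh.q_per z hz]
  · have hz' : z + 2 * π ∉ Sh.D := by
      intro h
      apply hz
      have := Sh.sb_sub_two_pi_mem_D h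
      simpa using this
    unfold ewg
    rw [indicator_of_notMem hz, indicator_of_notMem hz']

theorem ew_EW (hH : Sh.H ≠ ⊤) (L a b x k : ℝ) : Sh.EW L a b x k = ∫⁻ z in Sh.Win L a b x k, Sh.ewg z := by
  unfold EW
  refine setLIntegral_congr_fun (Sh.wc_measurableSet_Win L a b x k) fun z hz => ?_
  exact (Sh.ew_of_mem z ((Sh.mem_D_iff hH z).2 hz.2.1)).symm

theorem ew_mu_nonneg (l : ℝ) : 0 ≤ Sh.μ l := by unfold μ; positivity

theorem EW_mean (h : Sh.CritPoly) (L b : ℝ) (hL : 0 ≤ L) (hb : 0 ≤ b) : ∃ C K0 : ℝ, 0 < C ∧ ∀ K, K0 ≤ K → Sh.LowMom K →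
    ∀ a : ℝ, 0 ≤ a → a ≤ 0.1 * K →
    ∫⁻ k in Icc (1.2 * K) (1.8 * K), ∫⁻ x in Icc (0 : ℝ) (2 * π), Sh.EW L a b x k
      ≤ ENNReal.ofReal (C * (a + b) * K ^ (1 + (2 : ℝ) / 100)) := by
  have hH := h.fin
  have hHr := Sh.sb_Hr_pos hH
  have e4 : ∀ᶠ K : ℝ in atTop, Real.exp (-(1.1 * K)) < Sh.Hr := by
    have : Tendsto (fun K : ℝ => Real.exp (-(1.1 * K))) atTop (𝓝 0) :=
      Real.tendsto_exp_neg_atTop_nhds_zero.comp (tendsto_id.const_mul_atTop (by norm_num))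
    exact this.eventually (gt_mem_nhds hHr)
  obtain ⟨K1, hK1⟩ := eventually_atTop.1 (e4.and ((eventually_ge_atTop (1 : ℝ)).and (eventually_ge_atTop (10 * b))))
  refine ⟨4 * π * L + 1, K1, by positivity, fun K hK hLM a ha ha1 => ?_⟩
  obtain ⟨hexp, hK1', hKb⟩ := hK1 K hK
  have hKp : 0 < K := by linarith
  simp only [Sh.ew_EW hH]
  refine (Sh.win_fubini Sh.ewg Sh.ew_measurable Sh.ew_per L a b _ _ hL (by positivity)).trans ?_
  have hrow : ∀ v ∈ Icc (1.2 * K - a) (1.8 * K + b), ENNReal.ofReal (Real.exp (-(2 * v))) *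
      ∫⁻ x in Icc (0 : ℝ) (2 * π), Sh.ewg (Sh.up x (Real.exp (-v))) ≤ ENNReal.ofReal (2 * π * K ^ ((2 : ℝ) / 100)) := by
    intro v hv
    have hv1 : 1.1 * K ≤ v := by linarith [hv.1]
    have hv2 : v ≤ 1.9 * K := by linarith [hv.2]
    have hev : Real.exp (-v) < Sh.Hr := lt_of_le_of_lt (Real.exp_le_exp.2 (by linarith)) hexp
    have h1 : ∫⁻ x in Icc (0 : ℝ) (2 * π), Sh.ewg (Sh.up x (Real.exp (-v)))
        ≤ ENNReal.ofReal (2 * π * Real.exp (2 * v) * Sh.μ v ^ 2) := by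
      rw [← Sh.lintegral_row hH v hev]
      refine lintegral_mono fun x => ?_
      have hm : Sh.up x (Real.exp (-v)) ∈ Sh.D := by
        rw [Sh.mem_D_iff hH, Sh.dep_up x _ hev.le]; exact Real.exp_pos _
      rw [Sh.ew_of_mem _ hm]
      exact ENNReal.ofReal_le_ofReal (by nlinarith [sq_nonneg ‖Sh.f (Sh.up x (Real.exp (-v)))‖])
    refine (mul_le_mul' le_rfl h1).trans ?_
    rw [← ENNReal.ofReal_mul (Real.exp_pos _).le]
    refine ENNReal.ofReal_le_ofReal ?_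
    have hμ := hLM v ⟨by linarith, by linarith⟩
    have hμ2 : Sh.μ v ^ 2 ≤ K ^ ((2 : ℝ) / 100) := by
      have := pow_le_pow_left₀ (Sh.ew_mu_nonneg v) hμ 2
      have e : (K ^ ((1 : ℝ) / 100)) ^ 2 = K ^ ((2 : ℝ) / 100) := by
        rw [← Real.rpow_natCast, ← Real.rpow_mul hKp.le]; norm_num
      rwa [e] at this
    have e2 : Real.exp (-(2 * v)) * Real.exp (2 * v) = 1 := by rw [← Real.exp_add]; simp
    calc Real.exp (-(2 * v)) * (2 * π * Real.exp (2 * v) * Sh.μ v ^ 2)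
        = (Real.exp (-(2 * v)) * Real.exp (2 * v)) * (2 * π * Sh.μ v ^ 2) := by ring
      _ = 2 * π * Sh.μ v ^ 2 := by rw [e2, one_mul]
      _ ≤ _ := by gcongr
  refine (mul_le_mul' le_rfl (setLIntegral_mono' measurableSet_Icc hrow)).trans ?_
  rw [setLIntegral_const, Real.volume_Icc, ← ENNReal.ofReal_mul (by positivity), ← ENNReal.ofReal_mul (by positivity)]
  refine ENNReal.ofReal_le_ofReal ?_
  have hK2 : 0 < K ^ ((2 : ℝ) / 100) := Real.rpow_pos_of_pos hKp _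
  have e3 : K ^ (1 + (2 : ℝ) / 100) = K * K ^ ((2 : ℝ) / 100) := by
    rw [Real.rpow_add hKp, Real.rpow_one]
  rw [e3]
  have hlen : 1.8 * K + b - (1.2 * K - a) ≤ K := by linarith
  have hlen0 : 0 ≤ 1.8 * K + b - (1.2 * K - a) := by linarith
  calc 2 * L * (a + b) * (2 * π * K ^ ((2 : ℝ) / 100) * (1.8 * K + b - (1.2 * K - a)))
      ≤ 2 * L * (a + b) * (2 * π * K ^ ((2 : ℝ) / 100) * K) := by gcongr
    _ = 4 * π * L * (a + b) * (K * K ^ ((2 : ℝ) / 100)) := by ring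
    _ ≤ (4 * π * L + 1) * (a + b) * (K * K ^ ((2 : ℝ) / 100)) := by
        have : 0 ≤ (a + b) * (K * K ^ ((2 : ℝ) / 100)) := by positivity
        nlinarith

theorem ew_asym (A B c : ℝ) (hA : 0 ≤ A) (hB : 0 ≤ B) (hc : 0 < c) : ∀ᶠ K : ℝ in atTop,
    (A * Real.log (2 * K) + B) * K ^ (1 + (2 : ℝ) / 100) ≤ c * K * K ^ ((3 : ℝ) / 100) := by
  have h1 : ∀ᶠ K : ℝ in atTop, (400 * A + B) / c ≤ K ^ ((1 : ℝ) / 200) :=
    (tendsto_rpow_atTop (by norm_num)).eventually_ge_atTop _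
  filter_upwards [h1, eventually_ge_atTop 1] with K hK hK1
  have hKp : 0 < K := by linarith
  have hlog : Real.log (2 * K) ≤ 400 * K ^ ((1 : ℝ) / 200) := by
    have := Real.log_le_rpow_div (x := 2 * K) (by linarith) (ε := 1 / 200) (by norm_num)
    have h2 : (2 * K) ^ ((1 : ℝ) / 200) ≤ 2 * K ^ ((1 : ℝ) / 200) := by
      rw [Real.mul_rpow (by norm_num) hKp.le]
      have : (2 : ℝ) ^ ((1 : ℝ) / 200) ≤ 2 ^ (1 : ℝ) := Real.rpow_le_rpow_of_exponent_le (by norm_num) (by norm_num)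
      rw [Real.rpow_one] at this
      exact mul_le_mul_of_nonneg_right this (Real.rpow_nonneg hKp.le _)
    linarith
  have hp1 : 1 ≤ K ^ ((1 : ℝ) / 200) := Real.one_le_rpow hK1 (by norm_num)
  have hb : A * Real.log (2 * K) + B ≤ (400 * A + B) * K ^ ((1 : ℝ) / 200) := by
    have a1 : A * Real.log (2 * K) ≤ A * (400 * K ^ ((1 : ℝ) / 200)) := mul_le_mul_of_nonneg_left hlog hA
    have a2 : B ≤ B * K ^ ((1 : ℝ) / 200) := le_mul_of_one_le_right hB hp1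
    linarith
  rw [div_le_iff₀ hc] at hK
  have e1 : K * K ^ ((3 : ℝ) / 100) = K ^ (1 + (2 : ℝ) / 100) * (K ^ ((1 : ℝ) / 200) * K ^ ((1 : ℝ) / 200)) := by
    rw [← Real.rpow_add hKp, ← Real.rpow_add hKp]
    nth_rewrite 1 [← Real.rpow_one K]
    rw [← Real.rpow_add hKp]; norm_num
  have hq : 0 < K ^ (1 + (2 : ℝ) / 100) := Real.rpow_pos_of_pos hKp _
  have hr : 0 < K ^ ((1 : ℝ) / 200) := Real.rpow_pos_of_pos hKp _
  calc (A * Real.log (2 * K) + B) * K ^ (1 + (2 : ℝ) / 100)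
      ≤ ((400 * A + B) * K ^ ((1 : ℝ) / 200)) * K ^ (1 + (2 : ℝ) / 100) := mul_le_mul_of_nonneg_right hb hq.le
    _ ≤ ((K ^ ((1 : ℝ) / 200) * c) * K ^ ((1 : ℝ) / 200)) * K ^ (1 + (2 : ℝ) / 100) := by gcongr
    _ = c * (K ^ (1 + (2 : ℝ) / 100) * (K ^ ((1 : ℝ) / 200) * K ^ ((1 : ℝ) / 200))) := by ring
    _ = c * K * K ^ ((3 : ℝ) / 100) := by rw [← e1]; ring

theorem ew_up_eq (x d : ℝ) : Sh.up x d = (x : ℂ) + ((Sh.Hr - d : ℝ) : ℂ) * I := by
  apply Complex.ext <;> simp [up]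

theorem atyp_small (h : Sh.CritPoly) (L b C₁ : ℝ) (hL : 0 ≤ L) (hb : 0 ≤ b) (hC : 0 ≤ C₁) : ∀ ε : ℝ, 0 < ε → ∃ K0 : ℝ, ∀ K, K0 ≤ K →
    Sh.LowMom K →
    volume {p : ℝ × ℝ | p.1 ∈ Icc (0 : ℝ) (2 * π) ∧ p.2 ∈ Icc (1.2 * K) (1.8 * K) ∧
      ¬ Sh.Typ K L (C₁ * Real.log (2 * K) + 2) b p.1 p.2} ≤ ENNReal.ofReal (ε * K) := by
  intro ε hε
  have hH := h.fin
  obtain ⟨Cd, Kd, hCd, hdef⟩ := Sh.tile_def h
  obtain ⟨Ce, Ke, hCe, hEW⟩ := Sh.EW_mean h L b hL hb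
  have t1 : ∀ᶠ K : ℝ in atTop, 2 * Cd / ε ≤ K ^ ((2 : ℝ) / 100) := (tendsto_rpow_atTop (by norm_num)).eventually_ge_atTop _
  have t2 := ew_asym (Ce * C₁) (Ce * (2 + b)) (ε / 2) (by positivity) (by positivity) (by positivity)
  have t3 : ∀ᶠ K : ℝ in atTop, C₁ * Real.log (2 * K) + 2 ≤ 0.1 * K := wc_asym2 C₁ 2 0.1 (by norm_num)
  obtain ⟨K1, hK1⟩ := eventually_atTop.1 (t1.and (t2.and (t3.and ((eventually_ge_atTop (1 : ℝ)).and
    ((eventually_ge_atTop Kd).and (eventually_ge_atTop Ke))))))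
  refine ⟨K1, fun K hK hLM => ?_⟩
  obtain ⟨h1, h2, h3, hK1', hKd, hKe⟩ := hK1 K hK
  have hKp : 0 < K := by linarith
  set a : ℝ := C₁ * Real.log (2 * K) + 2 with ha
  have hlog0 : 0 ≤ Real.log (2 * K) := Real.log_nonneg (by linarith)
  have ha0 : 0 ≤ a := by positivity
  set R : Set (ℝ × ℝ) := Icc (0 : ℝ) (2 * π) ×ˢ Icc (1.2 * K) (1.8 * K) with hR
  have hRm : MeasurableSet R := measurableSet_Icc.prod measurableSet_Icc
  -- first functional
  set φ : ℝ × ℝ → ℝ≥0∞ := fun p => ENNReal.ofReal ((Sh.AA (Sh.tg p.1 p.2) - Sh.aa (Sh.tg p.1 p.2)) ^ 2) with hφ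
  have htg : Measurable fun p : ℝ × ℝ => Sh.tg p.1 p.2 := by
    unfold tg
    simp only [Sh.ew_up_eq]
    fun_prop
  have hφm : Measurable φ :=
    ENNReal.measurable_ofReal.comp (((Sh.measurable_AA.comp htg).sub (Sh.measurable_aa.comp htg)).pow_const 2)
  have hφint : ∫⁻ p in R, φ p ≤ ENNReal.ofReal (Cd * K ^ ((2 : ℝ) / 100) * (0.6 * K)) := by
    have e : ∫⁻ p in R, φ p = ∫⁻ k in Icc (1.2 * K) (1.8 * K), ∫⁻ x in Icc (0 : ℝ) (2 * π), φ (x, k) := by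
      rw [hR, Measure.volume_eq_prod, ← Measure.prod_restrict, lintegral_prod_symm _ hφm.aemeasurable]
    rw [e]
    refine (setLIntegral_mono' measurableSet_Icc fun k hk => hdef K hKd hLM k ⟨by linarith [hk.1], by linarith [hk.2]⟩).trans ?_
    rw [setLIntegral_const, Real.volume_Icc, ← ENNReal.ofReal_mul (by positivity)]
    refine ENNReal.ofReal_le_ofReal (le_of_eq ?_)
    ring
  have hK4 : 0 < K ^ ((4 : ℝ) / 100) := Real.rpow_pos_of_pos hKp _
  have hS1 : volume ({p | ENNReal.ofReal (K ^ ((4 : ℝ) / 100)) ≤ φ p} ∩ R) ≤ ENNReal.ofReal (ε / 2 * K) := by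
    have m1 : ENNReal.ofReal (K ^ ((4 : ℝ) / 100)) * (volume.restrict R) {p | ENNReal.ofReal (K ^ ((4 : ℝ) / 100)) ≤ φ p}
        ≤ ∫⁻ p in R, φ p := mul_meas_ge_le_lintegral hφm _
    rw [Measure.restrict_apply (measurableSet_le measurable_const hφm)] at m1
    have m2 : ENNReal.ofReal (Cd * K ^ ((2 : ℝ) / 100) * (0.6 * K)) ≤ ENNReal.ofReal (K ^ ((4 : ℝ) / 100)) * ENNReal.ofReal (ε / 2 * K) := by
      rw [← ENNReal.ofReal_mul hK4.le]
      refine ENNReal.ofReal_le_ofReal ?_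
      have e4 : K ^ ((4 : ℝ) / 100) = K ^ ((2 : ℝ) / 100) * K ^ ((2 : ℝ) / 100) := by
        rw [← Real.rpow_add hKp]; norm_num
      have hK2 : 0 < K ^ ((2 : ℝ) / 100) := Real.rpow_pos_of_pos hKp _
      rw [div_le_iff₀ hε] at h1
      rw [e4]
      have : Cd * 0.6 ≤ K ^ ((2 : ℝ) / 100) * (ε / 2) := by nlinarith
      calc Cd * K ^ ((2 : ℝ) / 100) * (0.6 * K) = (Cd * 0.6) * (K ^ ((2 : ℝ) / 100) * K) := by ring
        _ ≤ (K ^ ((2 : ℝ) / 100) * (ε / 2)) * (K ^ ((2 : ℝ) / 100) * K) := by gcongr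
        _ = _ := by ring
    exact (ENNReal.mul_le_mul_iff_right (ENNReal.ofReal_pos.2 hK4).ne' ENNReal.ofReal_ne_top).1 ((m1.trans hφint).trans m2)
  -- second functional
  set ψ : ℝ × ℝ → ℝ≥0∞ := fun p => ∫⁻ z in Sh.Win L a b p.1 p.2, Sh.ewg z with hψ
  have hψm : Measurable ψ := Sh.measurable_win _ Sh.ew_measurable L a b
  have hψint : ∫⁻ p in R, ψ p ≤ ENNReal.ofReal (Ce * (a + b) * K ^ (1 + (2 : ℝ) / 100)) := by
    have e : ∫⁻ p in R, ψ p = ∫⁻ k in Icc (1.2 * K) (1.8 * K), ∫⁻ x in Icc (0 : ℝ) (2 * π), ψ (x, k) := by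
      rw [hR, Measure.volume_eq_prod, ← Measure.prod_restrict, lintegral_prod_symm _ hψm.aemeasurable]
    rw [e]
    have := hEW K hKe hLM a ha0 h3
    simp only [Sh.ew_EW hH] at this
    exact this
  have hK3 : 0 < K ^ ((3 : ℝ) / 100) := Real.rpow_pos_of_pos hKp _
  have hS2 : volume ({p | ENNReal.ofReal (K ^ ((3 : ℝ) / 100)) ≤ ψ p} ∩ R) ≤ ENNReal.ofReal (ε / 2 * K) := by
    have m1 : ENNReal.ofReal (K ^ ((3 : ℝ) / 100)) * (volume.restrict R) {p | ENNReal.ofReal (K ^ ((3 : ℝ) / 100)) ≤ ψ p}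
        ≤ ∫⁻ p in R, ψ p := mul_meas_ge_le_lintegral hψm _
    rw [Measure.restrict_apply (measurableSet_le measurable_const hψm)] at m1
    have m2 : ENNReal.ofReal (Ce * (a + b) * K ^ (1 + (2 : ℝ) / 100)) ≤ ENNReal.ofReal (K ^ ((3 : ℝ) / 100)) * ENNReal.ofReal (ε / 2 * K) := by
      rw [← ENNReal.ofReal_mul hK3.le]
      refine ENNReal.ofReal_le_ofReal ?_
      have : Ce * (a + b) = Ce * C₁ * Real.log (2 * K) + Ce * (2 + b) := by rw [ha]; ring
      rw [this]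
      linarith
    exact (ENNReal.mul_le_mul_iff_right (ENNReal.ofReal_pos.2 hK3).ne' ENNReal.ofReal_ne_top).1 ((m1.trans hψint).trans m2)
  -- covering
  have hcover : {p : ℝ × ℝ | p.1 ∈ Icc (0 : ℝ) (2 * π) ∧ p.2 ∈ Icc (1.2 * K) (1.8 * K) ∧ ¬ Sh.Typ K L a b p.1 p.2}
      ⊆ ({p | ENNReal.ofReal (K ^ ((4 : ℝ) / 100)) ≤ φ p} ∩ R) ∪ ({p | ENNReal.ofReal (K ^ ((3 : ℝ) / 100)) ≤ ψ p} ∩ R) := by
    rintro p ⟨hp1, hp2, hp3⟩
    unfold Typ at hp3
    rw [not_and_or] at hp3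
    rcases hp3 with hp3 | hp3
    · left
      refine ⟨?_, hp1, hp2⟩
      show ENNReal.ofReal (K ^ ((4 : ℝ) / 100)) ≤ φ p
      refine ENNReal.ofReal_le_ofReal ?_
      push Not at hp3
      have e4 : K ^ ((4 : ℝ) / 100) = (K ^ ((2 : ℝ) / 100)) ^ 2 := by
        rw [← Real.rpow_natCast, ← Real.rpow_mul hKp.le]; norm_num
      rw [e4, ← sq_abs (Sh.AA (Sh.tg p.1 p.2) - Sh.aa (Sh.tg p.1 p.2))]
      exact pow_le_pow_left₀ (Real.rpow_nonneg hKp.le _) hp3.le 2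
    · right
      refine ⟨?_, hp1, hp2⟩
      show ENNReal.ofReal (K ^ ((3 : ℝ) / 100)) ≤ ψ p
      push Not at hp3
      rw [Sh.ew_EW hH] at hp3
      exact hp3.le
  refine (measure_mono hcover).trans ((measure_union_le _ _).trans ((add_le_add hS1 hS2).trans ?_))
  rw [← ENNReal.ofReal_add (by positivity) (by positivity)]
  exact ENNReal.ofReal_le_ofReal (by linarith)

theorem tc_asym (A B : ℝ) (hA : 0 ≤ A) (hB : 0 ≤ B) : ∀ᶠ K : ℝ in atTop,
    K ^ ((2 : ℝ) / 100) + (A * Real.log (2 * K) + B) * Real.sqrt (1 + K ^ ((3 : ℝ) / 100)) ≤ K ^ ((6 : ℝ) / 100) / 12 := by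
  have h1 : ∀ᶠ K : ℝ in atTop, 12 * (1 + 2 * (200 * A + B)) ≤ K ^ ((35 : ℝ) / 1000) :=
    (tendsto_rpow_atTop (by norm_num)).eventually_ge_atTop _
  filter_upwards [h1, eventually_ge_atTop 1] with K hK hK1
  have hKp : 0 < K := by linarith
  have hlog : Real.log (2 * K) ≤ 200 * K ^ ((1 : ℝ) / 100) := by
    have := Real.log_le_rpow_div (x := 2 * K) (by linarith) (ε := 1 / 100) (by norm_num)
    have h2 : (2 * K) ^ ((1 : ℝ) / 100) ≤ 2 * K ^ ((1 : ℝ) / 100) := by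
      rw [Real.mul_rpow (by norm_num) hKp.le]
      have : (2 : ℝ) ^ ((1 : ℝ) / 100) ≤ 2 ^ (1 : ℝ) := Real.rpow_le_rpow_of_exponent_le (by norm_num) (by norm_num)
      rw [Real.rpow_one] at this
      exact mul_le_mul_of_nonneg_right this (Real.rpow_nonneg hKp.le _)
    linarith
  have hp1 : 1 ≤ K ^ ((1 : ℝ) / 100) := Real.one_le_rpow hK1 (by norm_num)
  have hb : A * Real.log (2 * K) + B ≤ (200 * A + B) * K ^ ((1 : ℝ) / 100) := by
    have a1 : A * Real.log (2 * K) ≤ A * (200 * K ^ ((1 : ℝ) / 100)) := mul_le_mul_of_nonneg_left hlog hA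
    have a2 : B ≤ B * K ^ ((1 : ℝ) / 100) := le_mul_of_one_le_right hB hp1
    linarith
  have hs : Real.sqrt (1 + K ^ ((3 : ℝ) / 100)) ≤ 2 * K ^ ((15 : ℝ) / 1000) := by
    rw [Real.sqrt_le_left (by positivity)]
    have e : (2 * K ^ ((15 : ℝ) / 1000)) ^ 2 = 4 * K ^ ((3 : ℝ) / 100) := by
      rw [mul_pow, ← Real.rpow_natCast (K ^ ((15 : ℝ) / 1000)), ← Real.rpow_mul hKp.le]; norm_num
    rw [e]
    have : 1 ≤ K ^ ((3 : ℝ) / 100) := Real.one_le_rpow hK1 (by norm_num)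
    linarith
  have e25 : K ^ ((1 : ℝ) / 100) * K ^ ((15 : ℝ) / 1000) = K ^ ((25 : ℝ) / 1000) := by
    rw [← Real.rpow_add hKp]; norm_num
  have h20 : K ^ ((2 : ℝ) / 100) ≤ K ^ ((25 : ℝ) / 1000) := Real.rpow_le_rpow_of_exponent_le hK1 (by norm_num)
  have e60 : K ^ ((6 : ℝ) / 100) = K ^ ((25 : ℝ) / 1000) * K ^ ((35 : ℝ) / 1000) := by
    rw [← Real.rpow_add hKp]; norm_num
  have hp25 : 0 < K ^ ((25 : ℝ) / 1000) := Real.rpow_pos_of_pos hKp _
  have hAB : 0 ≤ 200 * A + B := by positivity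
  have hlog0 : 0 ≤ Real.log (2 * K) := Real.log_nonneg (by linarith)
  have hprod : (A * Real.log (2 * K) + B) * Real.sqrt (1 + K ^ ((3 : ℝ) / 100)) ≤ 2 * (200 * A + B) * K ^ ((25 : ℝ) / 1000) := by
    calc (A * Real.log (2 * K) + B) * Real.sqrt (1 + K ^ ((3 : ℝ) / 100))
        ≤ ((200 * A + B) * K ^ ((1 : ℝ) / 100)) * (2 * K ^ ((15 : ℝ) / 1000)) :=
          mul_le_mul hb hs (Real.sqrt_nonneg _) (by positivity)
      _ = 2 * (200 * A + B) * (K ^ ((1 : ℝ) / 100) * K ^ ((15 : ℝ) / 1000)) := by ring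
      _ = _ := by rw [e25]
  rw [e60]
  nlinarith

theorem tc_asym2 (η : ℝ) (hη : 0 < η) : ∀ᶠ K : ℝ in atTop, 2 + 24 * K ^ ((3 : ℝ) / 100) ≤ η * K ^ ((6 : ℝ) / 100) := by
  have h1 : ∀ᶠ K : ℝ in atTop, 26 / η ≤ K ^ ((3 : ℝ) / 100) :=
    (tendsto_rpow_atTop (by norm_num)).eventually_ge_atTop _
  filter_upwards [h1, eventually_ge_atTop 1] with K hK hK1
  have hKp : 0 < K := by linarith
  have e60 : K ^ ((6 : ℝ) / 100) = K ^ ((3 : ℝ) / 100) * K ^ ((3 : ℝ) / 100) := by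
    rw [← Real.rpow_add hKp]; norm_num
  have : 1 ≤ K ^ ((3 : ℝ) / 100) := Real.one_le_rpow hK1 (by norm_num)
  rw [div_le_iff₀ hη] at hK
  rw [e60]
  nlinarith

theorem target_cost (h : Sh.CritPoly) (L₀ C₁ C₂ cs k₁ : ℝ) (hw : Sh.WitC L₀ C₁ C₂ cs k₁) : ∃ c K0 : ℝ, 0 < c ∧ ∀ K, K0 ≤ K →
    ∀ k ∈ Icc (1.2 * K) (1.8 * K), ∀ x : ℝ, Sh.Typ K (4 * L₀ + 3) (C₁ * Real.log (2 * K) + 2) (C₂ + 2) x k →
    |Sh.aa (Sh.tg x k)| ≤ K ^ ((6 : ℝ) / 100) / 4 →
    ENNReal.ofReal c ≤ ∫⁻ z in Sh.Win (4 * L₀ + 3) (C₁ * Real.log (2 * K) + 2) (C₂ + 2) x k,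
      Sh.cost (K ^ ((6 : ℝ) / 100)) z * ENNReal.ofReal ((Sh.dep z ^ 2)⁻¹) := by
  have hH := h.fin
  have hHr := Sh.sb_Hr_pos hH
  obtain ⟨hL₀, hC₁, hC₂, hcs, hk₁, hwit⟩ := hw
  obtain ⟨Cch, hCch, hchain⟩ := Sh.chain_amp hH
  obtain ⟨c', η, hc', hη, hdisc⟩ := Sh.disc_cost hH cs hcs
  have t2 : ∀ᶠ K : ℝ in atTop, C₁ * Real.log (2 * K) + 0 ≤ 0.1 * K := wc_asym2 C₁ 0 0.1 (by norm_num)
  have t3 : ∀ᶠ K : ℝ in atTop, Real.exp (-(1.1 * K)) < Sh.Hr / 4 := by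
    have : Tendsto (fun K : ℝ => Real.exp (-(1.1 * K))) atTop (𝓝 0) :=
      Real.tendsto_exp_neg_atTop_nhds_zero.comp (tendsto_id.const_mul_atTop (by norm_num))
    exact this.eventually (gt_mem_nhds (by positivity))
  have t4 := tc_asym (Cch * C₁) (Cch * (L₀ + C₂ + 1)) (by positivity) (by positivity)
  have t5 := tc_asym2 η hη
  have t6 : ∀ᶠ K : ℝ in atTop, Real.exp (-(0.7 * K)) < cs := by
    have : Tendsto (fun K : ℝ => Real.exp (-(0.7 * K))) atTop (𝓝 0) :=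
      Real.tendsto_exp_neg_atTop_nhds_zero.comp (tendsto_id.const_mul_atTop (by norm_num))
    exact this.eventually (gt_mem_nhds hcs)
  obtain ⟨K0, hK0⟩ := eventually_atTop.1 (t2.and (t3.and (t4.and (t5.and (t6.and
    ((eventually_ge_atTop (1 : ℝ)).and (eventually_ge_atTop (k₁ / 1.2))))))))
  refine ⟨c' / 2, K0, by positivity, fun K hK k hk x hT hmod => ?_⟩
  obtain ⟨h2, h3, h4, h5, h6, hK1, h7⟩ := hK0 K hK
  rw [div_le_iff₀ (by norm_num)] at h7
  rw [add_zero] at h2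
  have hKp : 0 < K := by linarith
  set h₀ : ℝ := K ^ ((6 : ℝ) / 100) with hh₀
  set a₀ : ℝ := C₁ * Real.log (2 * K) with ha₀
  have hlog0 : 0 ≤ Real.log (2 * K) := Real.log_nonneg (by linarith)
  have ha₀p : 0 ≤ a₀ := by positivity
  have hkpos : 0 < k := by linarith [hk.1]
  obtain ⟨z₁, hi, hd, hre, hlo, hup, hM⟩ := hwit k (by linarith [hk.1]) x
  have hlogk : Real.log k ≤ Real.log (2 * K) := Real.log_le_log hkpos (by linarith [hk.2])
  have hWin : z₁ ∈ Sh.Win L₀ a₀ C₂ x k := by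
    refine ⟨hi, hd, hre, ?_, hup⟩
    have : C₁ * Real.log k ≤ a₀ := mul_le_mul_of_nonneg_left hlogk hC₁.le
    linarith
  have hdle : Sh.dep z₁ ≤ Real.exp (-(1.1 * K)) := by
    have : Real.log (Sh.dep z₁) ≤ -(1.1 * K) := by linarith [hWin.2.2.2.1, hk.1]
    calc Sh.dep z₁ = Real.exp (Real.log (Sh.dep z₁)) := (Real.exp_log hd).symm
      _ ≤ _ := Real.exp_le_exp.2 this
  have hCol : Sh.Col z₁ := ⟨hi, hd, by linarith⟩
  have hexpk : Real.exp (-(k - a₀)) < Sh.Hr / 4 :=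
    lt_of_le_of_lt (Real.exp_le_exp.2 (by linarith [hk.1])) h3
  have hE0 : (0 : ℝ) ≤ K ^ ((3 : ℝ) / 100) := Real.rpow_nonneg hKp.le _
  have hch := hchain L₀ a₀ C₂ x k (K ^ ((3 : ℝ) / 100)) hL₀.le ha₀p hC₂.le hE0 hexpk z₁ hWin hT.2
  -- amplitude near the witness
  have hAA : ∀ z ∈ closedBall z₁ (3 * Sh.dep z₁ / 8), |Sh.AA z| ≤ h₀ / 3 := by
    intro z hz
    have c1 := hch z hz
    have c2 := hT.1
    have c3 : Cch * (L₀ + a₀ + C₂ + 1) * Real.sqrt (1 + K ^ ((3 : ℝ) / 100))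
        = (Cch * C₁ * Real.log (2 * K) + Cch * (L₀ + C₂ + 1)) * Real.sqrt (1 + K ^ ((3 : ℝ) / 100)) := by
      rw [ha₀]; ring
    rw [c3] at c1
    have c4 : |Sh.AA z| ≤ |Sh.AA z - Sh.AA (Sh.tg x k)| + |Sh.AA (Sh.tg x k) - Sh.aa (Sh.tg x k)| + |Sh.aa (Sh.tg x k)| := by
      have : Sh.AA z = (Sh.AA z - Sh.AA (Sh.tg x k)) + (Sh.AA (Sh.tg x k) - Sh.aa (Sh.tg x k)) + Sh.aa (Sh.tg x k) := by ring
      calc |Sh.AA z| = |(Sh.AA z - Sh.AA (Sh.tg x k)) + (Sh.AA (Sh.tg x k) - Sh.aa (Sh.tg x k)) + Sh.aa (Sh.tg x k)| := by rw [← this]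
        _ ≤ _ := abs_add_three _ _ _
    linarith
  have hHb : Sh.Hb z₁ ^ 2 ≤ η * h₀ :=
    le_trans (Sh.Hb_le_of_EW hH L₀ a₀ C₂ x k _ hL₀.le hE0 z₁ hWin hCol hT.2) h5
  have hh1 : 1 ≤ h₀ := Real.one_le_rpow hK1 (by norm_num)
  have hz₁D : z₁ ∈ Sh.D := (Sh.mem_D_iff hH z₁).2 hd
  -- the witness is a q-witness
  have hq : cs ^ 2 ≤ Sh.dep z₁ ^ 2 * ‖Sh.q z₁‖ := by
    have hS : 0 < ‖Sh.f z₁‖ + Sh.dep z₁ * ‖deriv Sh.f z₁‖ := by
      rcases Sh.f_f'_ne z₁ hz₁D with h0 | h0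
      · have := norm_pos_iff.2 h0; positivity
      · have := norm_pos_iff.2 h0; positivity
    have hf : ‖Sh.f z₁‖ ≤ Real.exp (h₀ / 3) := by
      have a1 : Sh.AA z₁ ≤ h₀ / 3 := le_trans (le_abs_self _) (hAA z₁ (mem_closedBall_self (by positivity)))
      calc ‖Sh.f z₁‖ ≤ ‖Sh.f z₁‖ + Sh.dep z₁ * ‖deriv Sh.f z₁‖ := le_add_of_nonneg_right (by positivity)
        _ = Real.exp (Sh.AA z₁) := (Real.exp_log hS).symm
        _ ≤ _ := Real.exp_le_exp.2 a1
    have hh₀K : h₀ ≤ K := by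
      calc h₀ ≤ K ^ (1 : ℝ) := Real.rpow_le_rpow_of_exponent_le hK1 (by norm_num)
        _ = K := Real.rpow_one K
    have hdf : Sh.dep z₁ * ‖Sh.f z₁‖ < cs := by
      calc Sh.dep z₁ * ‖Sh.f z₁‖ ≤ Real.exp (-(1.1 * K)) * Real.exp (h₀ / 3) :=
            mul_le_mul hdle hf (norm_nonneg _) (Real.exp_pos _).le
        _ = Real.exp (-(1.1 * K) + h₀ / 3) := (Real.exp_add _ _).symm
        _ ≤ Real.exp (-(0.7 * K)) := Real.exp_le_exp.2 (by linarith)
        _ < cs := h6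
    have hsq : cs ≤ Sh.dep z₁ * Real.sqrt ‖Sh.q z₁‖ := by
      unfold M at hM
      rcases le_total ‖Sh.f z₁‖ (Real.sqrt ‖Sh.q z₁‖) with hle | hle
      · rwa [max_eq_right hle] at hM
      · rw [max_eq_left hle] at hM; linarith
    calc cs ^ 2 ≤ (Sh.dep z₁ * Real.sqrt ‖Sh.q z₁‖) ^ 2 := pow_le_pow_left₀ hcs.le hsq 2
      _ = Sh.dep z₁ ^ 2 * ‖Sh.q z₁‖ := by rw [mul_pow, Real.sq_sqrt (norm_nonneg _)]
  have hdc := hdisc z₁ h₀ hCol hh1
    (fun z hz => hAA z (closedBall_subset_closedBall (by linarith) hz)) hq hHb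
  -- transfer to the window
  have hsub : closedBall z₁ (Sh.dep z₁ / 16) ⊆ Sh.Win (4 * L₀ + 3) (a₀ + 2) (C₂ + 2) x k :=
    (closedBall_subset_closedBall (by linarith)).trans (Sh.tile_subset_Win hH L₀ a₀ C₂ x k hL₀.le z₁ hWin hCol)
  refine le_trans ?_ (lintegral_mono_set hsub)
  have hdepz : ∀ z ∈ closedBall z₁ (Sh.dep z₁ / 16), 0 < Sh.dep z ∧ Sh.dep z ≤ 17 / 16 * Sh.dep z₁ := by
    intro z hz
    refine ⟨(hsub hz).2.1, ?_⟩
    have : |z.im - z₁.im| ≤ Sh.dep z₁ / 16 := by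
      have := Complex.abs_im_le_norm (z - z₁)
      rw [mem_closedBall, dist_eq_norm] at hz
      simpa using this.trans hz
    have h8 := abs_sub_abs_le_abs_sub z₁.im z.im
    rw [abs_sub_comm] at h8
    unfold dep at this ⊢
    linarith
  have hlow : ∀ z ∈ closedBall z₁ (Sh.dep z₁ / 16),
      Sh.cost h₀ z * ENNReal.ofReal ((2 * Sh.dep z₁ ^ 2)⁻¹) ≤ Sh.cost h₀ z * ENNReal.ofReal ((Sh.dep z ^ 2)⁻¹) := by
    intro z hz
    obtain ⟨p1, p2⟩ := hdepz z hz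
    refine mul_le_mul' le_rfl (ENNReal.ofReal_le_ofReal ?_)
    apply inv_anti₀ (by positivity)
    nlinarith
  refine le_trans ?_ (setLIntegral_mono' measurableSet_closedBall hlow)
  rw [lintegral_mul_const _ (Sh.measurable_cost h₀)]
  refine le_trans ?_ (mul_le_mul' hdc le_rfl)
  rw [← ENNReal.ofReal_mul (by positivity)]
  refine ENNReal.ofReal_le_ofReal (le_of_eq ?_)
  field_simp

theorem witness_cost' (h : Sh.CritPoly) : ∀ ε : ℝ, 0 < ε → ∃ K0 : ℝ, ∀ K, K0 ≤ K →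
    (∀ v ∈ Icc (0.9 * K) (2.1 * K), Sh.μ v ≤ K ^ ((1 : ℝ) / 100)) →
    (volume (Sh.modBand (K ^ ((6 : ℝ) / 100) / 4) (1.2 * K) (1.8 * K))).toReal ≤ ε * K := by
  intro ε hε
  have hH := h.fin
  obtain ⟨L₀, C₁, C₂, cs, k₁, hw⟩ := Sh.exists_WitC h
  have hL₀ : 0 < L₀ := hw.1
  have hC₁ : 0 < C₁ := hw.2.1
  have hC₂ : 0 < C₂ := hw.2.2.1
  set L : ℝ := 4 * L₀ + 3 with hL
  set b : ℝ := C₂ + 2 with hb
  have hLp : 0 < L := by positivity
  have hbp : 0 < b := by positivity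
  obtain ⟨Ka, hKa⟩ := Sh.atyp_small h L b C₁ hLp.le hbp.le hC₁.le (ε / 2) (by positivity)
  obtain ⟨c, Kb, hc, hKb⟩ := Sh.target_cost h L₀ C₁ C₂ cs k₁ hw
  obtain ⟨C, Kc, hC, hKc⟩ := Sh.cost_bound h
  have hHr := Sh.sb_Hr_pos hH
  -- thresholds
  have e1 : ∀ᶠ K : ℝ in atTop, C₁ * Real.log (2 * K) + 2 ≤ 0.1 * K := wc_asym2 C₁ 2 0.1 (by norm_num)
  have e2 : ∀ᶠ K : ℝ in atTop, b ≤ 0.1 * K := by
    have := wc_asym2 0 b 0.1 (by norm_num)
    simpa using this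
  have e3 : ∀ᶠ K : ℝ in atTop, ((2 * L * C * C₁) * Real.log (2 * K) + 2 * L * C * (2 + b)) * K ^ ((1 : ℝ) / 2 + 7 / 100) ≤ (c * (ε / 2)) * K :=
    wc_asym _ _ _ (by positivity)
  have e4 : ∀ᶠ K : ℝ in atTop, Real.exp (-(1.1 * K)) ≤ Sh.Hr := by
    have : Tendsto (fun K : ℝ => Real.exp (-(1.1 * K))) atTop (𝓝 0) :=
      Real.tendsto_exp_neg_atTop_nhds_zero.comp (tendsto_id.const_mul_atTop (by norm_num))
    exact (this.eventually (gt_mem_nhds hHr)).mono fun K hK => le_of_lt hK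
  obtain ⟨Kd, hKd⟩ := eventually_atTop.1 (e1.and (e2.and (e3.and (e4.and (eventually_ge_atTop (1 : ℝ))))))
  refine ⟨max (max Ka Kb) (max Kc Kd), fun K hK hlow => ?_⟩
  have hKKa : Ka ≤ K := le_trans (le_trans (le_max_left _ _) (le_max_left _ _)) hK
  have hKKb : Kb ≤ K := le_trans (le_trans (le_max_right _ _) (le_max_left _ _)) hK
  have hKKc : Kc ≤ K := le_trans (le_trans (le_max_left _ _) (le_max_right _ _)) hK
  have hKKd : Kd ≤ K := le_trans (le_trans (le_max_right _ _) (le_max_right _ _)) hK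
  obtain ⟨ha01, hb01, hfin, hexp, hK1⟩ := hKd K hKKd
  have hLM : Sh.LowMom K := hlow
  set a : ℝ := C₁ * Real.log (2 * K) + 2 with ha
  have hap : 0 < a := by
    have : 0 ≤ Real.log (2 * K) := Real.log_nonneg (by linarith)
    positivity
  set h₀ : ℝ := K ^ ((6 : ℝ) / 100) with hh₀
  set R : Set (ℝ × ℝ) := Icc (0 : ℝ) (2 * π) ×ˢ Icc (1.2 * K) (1.8 * K) with hR
  set G : ℝ × ℝ → ℝ≥0∞ := fun p => ∫⁻ z in Sh.Win L a b p.1 p.2, Sh.wcg h₀ z with hG
  have hGm : Measurable G := Sh.measurable_win _ (Sh.wc_measurable_wcg h₀) L a b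
  have hRm : MeasurableSet R := measurableSet_Icc.prod measurableSet_Icc
  -- the integral of G
  have hint : ∫⁻ p in R, G p ≤ ENNReal.ofReal (2 * L * (a + b) * (C * K ^ ((1 : ℝ) / 2 + 7 / 100))) := by
    have t1 : ∫⁻ p in R, G p = ∫⁻ k in Icc (1.2 * K) (1.8 * K), ∫⁻ x in Icc (0 : ℝ) (2 * π), G (x, k) := by
      rw [hR, Measure.volume_eq_prod, ← Measure.prod_restrict, lintegral_prod_symm _ hGm.aemeasurable]
    rw [t1]
    refine le_trans (Sh.win_fubini _ (Sh.wc_measurable_wcg h₀) (Sh.wc_wcg_per hH h₀) L a b _ _ hLp.le (by positivity)) ?_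
    have e5 : ENNReal.ofReal (2 * L * (a + b) * (C * K ^ ((1 : ℝ) / 2 + 7 / 100)))
        = ENNReal.ofReal (2 * L * (a + b)) * ENNReal.ofReal (C * K ^ ((1 : ℝ) / 2 + 7 / 100)) :=
      ENNReal.ofReal_mul (by positivity)
    rw [e5]
    refine mul_le_mul' le_rfl ?_
    refine le_trans ?_ (hKc K hKKc hLM)
    refine le_trans ?_ (Sh.wc_bint_mono _ (1.2 * K - a) (1.8 * K + b) _ _ (by linarith) (by linarith))
    unfold bint
    refine setLIntegral_mono' measurableSet_Icc fun v hv => ?_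
    rw [← lintegral_const_mul' _ _ ENNReal.ofReal_ne_top]
    refine lintegral_mono fun x => ?_
    refine Sh.wc_wcg_up h₀ v x (le_trans (Real.exp_le_exp.2 ?_) hexp)
    linarith [hv.1]
  -- Markov
  set S' : Set (ℝ × ℝ) := {p | ENNReal.ofReal c ≤ G p} with hS'
  have hmarkov : ENNReal.ofReal c * volume (S' ∩ R) ≤ ENNReal.ofReal (c * (ε / 2 * K)) := by
    have m1 : ENNReal.ofReal c * (volume.restrict R) {p | ENNReal.ofReal c ≤ G p} ≤ ∫⁻ p in R, G p :=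
      mul_meas_ge_le_lintegral hGm _
    rw [Measure.restrict_apply (measurableSet_le measurable_const hGm)] at m1
    refine le_trans m1 (le_trans hint (ENNReal.ofReal_le_ofReal ?_))
    have : 2 * L * (a + b) * (C * K ^ ((1 : ℝ) / 2 + 7 / 100))
        = ((2 * L * C * C₁) * Real.log (2 * K) + 2 * L * C * (2 + b)) * K ^ ((1 : ℝ) / 2 + 7 / 100) := by
      rw [ha]; ring
    rw [this]
    linarith
  have hS'vol : volume (S' ∩ R) ≤ ENNReal.ofReal (ε / 2 * K) := by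
    rw [ENNReal.ofReal_mul hc.le] at hmarkov
    exact (ENNReal.mul_le_mul_iff_right (ENNReal.ofReal_pos.2 hc).ne' ENNReal.ofReal_ne_top).1 hmarkov
  -- covering
  have hcover : Sh.modBand (h₀ / 4) (1.2 * K) (1.8 * K) ⊆
      {p : ℝ × ℝ | p.1 ∈ Icc (0 : ℝ) (2 * π) ∧ p.2 ∈ Icc (1.2 * K) (1.8 * K) ∧ ¬ Sh.Typ K L a b p.1 p.2} ∪ (S' ∩ R) := by
    intro p hp
    by_cases hT : Sh.Typ K L a b p.1 p.2
    · right
      refine ⟨?_, hp.1, hp.2.1⟩
      have := hKb K hKKb p.2 hp.2.1 p.1 hT hp.2.2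
      refine le_trans this ?_
      refine setLIntegral_mono' (Sh.wc_measurableSet_Win _ _ _ _ _) fun z hz => ?_
      have hzD : z ∈ Sh.D := (Sh.mem_D_iff hH z).2 hz.2.1
      unfold wcg
      rw [indicator_of_mem hzD]
    · left
      exact ⟨hp.1, hp.2.1, hT⟩
  have hvol : volume (Sh.modBand (h₀ / 4) (1.2 * K) (1.8 * K)) ≤ ENNReal.ofReal (ε * K) := by
    refine le_trans (measure_mono hcover) (le_trans (measure_union_le _ _) ?_)
    refine le_trans (add_le_add (hKa K hKKa hLM) hS'vol) ?_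
    rw [← ENNReal.ofReal_add (by positivity) (by positivity)]
    refine ENNReal.ofReal_le_ofReal ?_
    linarith
  exact ENNReal.toReal_le_of_le_ofReal (by positivity) hvol

end Shape

end Claimed.Agent.R269
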