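/-
Row 269, P1 Sections 11.1-11.6 (first half): THE DETERMINISTIC ROW TEST, top level.  Owner: helper171.
  `large_moment`  = Lemma 11.2   (blueprint: S11/Large.lean),
  `witness_cost`  = Lemma 11.6   (blueprint: S11/Amp.lean, S11/Cost.lean, S11/Wit.lean),
  `robust`        = Proposition 11.8, first half (S11/Robust.lean).
`α = 1/100`; `K^α`, `K^{α/2}`, `h₀ = K^{6α}`.
-/
import Claimed.Agent.R269.S11.Wit
import Claimed.Agent.R269.S11.Robust
import Claimed.Agent.R269.S11.Large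

set_option autoImplicit false

namespace Claimed.Agent.R269

open Complex Metric Set Filter Topology MeasureTheory
open scoped Real ENNReal

namespace Shape

variable (Sh : Shape)

/-- **Lemma 11.2 (the large-moment alternative).** -/
theorem large_moment (h : Sh.CritPoly) : ∀ ε : ℝ, 0 < ε → ∃ K0 : ℝ, ∀ K, K0 ≤ K →
    (∃ j ∈ Icc (0.9 * K) (2.1 * K), K ^ ((1 : ℝ) / 100) ≤ Sh.μ j) →
    ∃ k ∈ Icc (0.8 * K) (2.2 * K), (volume (Sh.modRow (K ^ ((1 : ℝ) / 200)) k)).toReal ≤ ε :=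
  Sh.large_moment' h

/-- **Lemma 11.6 (witnesses force logarithmic oscillation).** -/
theorem witness_cost (h : Sh.CritPoly) : ∀ ε : ℝ, 0 < ε → ∃ K0 : ℝ, ∀ K, K0 ≤ K →
    (∀ v ∈ Icc (0.9 * K) (2.1 * K), Sh.μ v ≤ K ^ ((1 : ℝ) / 100)) →
    (volume (Sh.modBand (K ^ ((6 : ℝ) / 100) / 4) (1.2 * K) (1.8 * K))).toReal ≤ ε * K :=
  Sh.witness_cost' h

/-- **Proposition 11.8, first half (a robust sign disc).** -/
theorem robust (h : Sh.CritPoly) : ∃ C K0 : ℝ, 0 < C ∧ ∀ K, K0 ≤ K → ∀ k ∈ Icc (0.8 * K) (2.2 * K), ∀ σ : ℝ, (σ = 1 ∨ σ = -1) →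
    (volume (Sh.badRow K k σ)).toReal ≤ (volume (Sh.modRow (K ^ ((1 : ℝ) / 200)) k)).toReal
      + C * K ^ 4 * Real.exp (-(h1 K / 10)) :=
  Sh.robust' h

/-! ### LF-S11r-1: assembly -/

/-- slices of an arbitrary set (no measurability) -/
theorem rw_slice_le (s : Set (ℝ × ℝ)) : ∫⁻ y : ℝ, volume ((fun x => (x, y)) ⁻¹' s) ≤ volume s := by
  have h1 : volume (toMeasurable volume s) = volume s := measure_toMeasurable s
  rw [← h1, Measure.volume_eq_prod, Measure.prod_apply_symm (measurableSet_toMeasurable _ _)]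
  refine lintegral_mono fun y => measure_mono ?_
  exact preimage_mono (subset_toMeasurable _ _)

theorem rw_rpow (K : ℝ) (hK : (4 : ℝ) ^ 20 ≤ K) : K ^ ((1 : ℝ) / 200) ≤ K ^ ((6 : ℝ) / 100) / 4 := by
  have hKp : 0 < K := lt_of_lt_of_le (by positivity) hK
  have e : K ^ ((6 : ℝ) / 100) = K ^ ((1 : ℝ) / 200) * K ^ ((11 : ℝ) / 200) := by
    rw [← Real.rpow_add hKp]; norm_num
  have h4 : (4 : ℝ) ≤ K ^ ((11 : ℝ) / 200) := by
    have a : ((4 : ℝ) ^ 20) ^ ((11 : ℝ) / 200) ≤ K ^ ((11 : ℝ) / 200) := Real.rpow_le_rpow (by positivity) hK (by norm_num)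
    have b : ((4 : ℝ) ^ 20) ^ ((11 : ℝ) / 200) = 4 ^ ((11 : ℝ) / 10) := by
      rw [← Real.rpow_natCast, ← Real.rpow_mul (by norm_num)]; norm_num
    have c : (4 : ℝ) ^ (1 : ℝ) ≤ 4 ^ ((11 : ℝ) / 10) := Real.rpow_le_rpow_of_exponent_le (by norm_num) (by norm_num)
    rw [Real.rpow_one] at c
    linarith
  have hp : 0 < K ^ ((1 : ℝ) / 200) := Real.rpow_pos_of_pos hKp _
  rw [e]
  nlinarith

theorem rw_modRow_ne_top (t k : ℝ) : volume (Sh.modRow t k) ≠ ⊤ := by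
  refine ne_top_of_le_ne_top (b := volume (Icc (0 : ℝ) (2 * π))) (by rw [Real.volume_Icc]; exact ENNReal.ofReal_ne_top) (measure_mono fun x hx => hx.1)

theorem rw_modBand_ne_top (t k₁ k₂ : ℝ) : volume (Sh.modBand t k₁ k₂) ≠ ⊤ := by
  refine ne_top_of_le_ne_top (b := volume (Icc (0 : ℝ) (2 * π) ×ˢ Icc k₁ k₂)) ?_ (measure_mono fun x hx => ⟨hx.1, hx.2.1⟩)
  rw [Measure.volume_eq_prod, Measure.prod_prod]
  exact ENNReal.mul_ne_top (by rw [Real.volume_Icc]; exact ENNReal.ofReal_ne_top) (by rw [Real.volume_Icc]; exact ENNReal.ofReal_ne_top)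

theorem row_of_band (h : Sh.CritPoly) : ∀ ε : ℝ, 0 < ε → ∃ K0 : ℝ, ∀ K, K0 ≤ K →
    ∃ k ∈ Icc (0.8 * K) (2.2 * K), (volume (Sh.modRow (K ^ ((1 : ℝ) / 200)) k)).toReal ≤ ε := by
  intro ε hε
  obtain ⟨K1, hK1⟩ := Sh.large_moment h ε hε
  obtain ⟨K2, hK2⟩ := Sh.witness_cost h (ε / 2) (by positivity)
  refine ⟨max (max K1 K2) (4 ^ 20), fun K hK => ?_⟩
  have hKK1 : K1 ≤ K := le_trans (le_trans (le_max_left _ _) (le_max_left _ _)) hK
  have hKK2 : K2 ≤ K := le_trans (le_trans (le_max_right _ _) (le_max_left _ _)) hK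
  have hK4 : (4 : ℝ) ^ 20 ≤ K := le_trans (le_max_right _ _) hK
  have hKp : 0 < K := lt_of_lt_of_le (by positivity) hK4
  by_cases hj : ∃ j ∈ Icc (0.9 * K) (2.1 * K), K ^ ((1 : ℝ) / 100) ≤ Sh.μ j
  · exact hK1 K hKK1 hj
  push Not at hj
  have hband := hK2 K hKK2 (fun v hv => (hj v hv).le)
  by_contra hcon
  push Not at hcon
  -- lower bound for the band
  have hlow : ENNReal.ofReal ε * ENNReal.ofReal (0.6 * K) ≤ volume (Sh.modBand (K ^ ((6 : ℝ) / 100) / 4) (1.2 * K) (1.8 * K)) := by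
    refine le_trans ?_ (rw_slice_le _)
    have : ENNReal.ofReal ε * ENNReal.ofReal (0.6 * K) = ∫⁻ y in Icc (1.2 * K) (1.8 * K), ENNReal.ofReal ε := by
      rw [setLIntegral_const, Real.volume_Icc]
      congr 2
      ring
    rw [this, ← lintegral_indicator measurableSet_Icc]
    refine lintegral_mono fun y => ?_
    by_cases hy : y ∈ Icc (1.2 * K) (1.8 * K)
    · rw [indicator_of_mem hy]
      have hy' : y ∈ Icc (0.8 * K) (2.2 * K) := ⟨by linarith [hy.1], by linarith [hy.2]⟩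
      have h1 := hcon y hy'
      have h2 : ENNReal.ofReal ε ≤ volume (Sh.modRow (K ^ ((1 : ℝ) / 200)) y) :=
        ((ENNReal.ofReal_lt_iff_lt_toReal hε.le (Sh.rw_modRow_ne_top _ _)).2 h1).le
      refine le_trans h2 (measure_mono ?_)
      intro x hx
      exact ⟨hx.1, hy, le_trans hx.2 (rw_rpow K hK4)⟩
    · rw [indicator_of_notMem hy]; exact zero_le
  have h3 := ENNReal.toReal_mono (Sh.rw_modBand_ne_top _ _ _) hlow
  rw [ENNReal.toReal_mul, ENNReal.toReal_ofReal hε.le, ENNReal.toReal_ofReal (by positivity)] at h3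
  nlinarith

theorem row_sign (h : Sh.CritPoly) : ∃ kf : ℝ → ℝ, (∀ᶠ K in atTop, 0.8 * K ≤ kf K ∧ kf K ≤ 2.2 * K) ∧
    Tendsto (fun K => (volume (Sh.modRow (K ^ ((1 : ℝ) / 200)) (kf K))).toReal) atTop (𝓝 0) := by
  set val : ℝ → ℝ → ℝ := fun K k => (volume (Sh.modRow (K ^ ((1 : ℝ) / 200)) k)).toReal with hval
  set S : ℝ → Set ℝ := fun K => val K '' Icc (0.8 * K) (2.2 * K) with hS
  have hex : ∀ K : ℝ, ∃ k : ℝ, 0 < K → k ∈ Icc (0.8 * K) (2.2 * K) ∧ val K k < sInf (S K) + 1 / K := by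
    intro K
    by_cases hK : 0 < K
    · have hne : (S K).Nonempty := ⟨val K (0.8 * K), mem_image_of_mem _ ⟨le_rfl, by linarith⟩⟩
      obtain ⟨v, ⟨k, hk, rfl⟩, hv⟩ := Real.lt_sInf_add_pos hne (ε := 1 / K) (by positivity)
      exact ⟨k, fun _ => ⟨hk, hv⟩⟩
    · exact ⟨0, fun h => absurd h hK⟩
  choose kf hkf using hex
  refine ⟨kf, ?_, ?_⟩
  · filter_upwards [eventually_gt_atTop 0] with K hK
    exact (hkf K hK).1
  · rw [Metric.tendsto_atTop]
    intro ε hε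
    obtain ⟨K0, hK0⟩ := Sh.row_of_band h (ε / 3) (by positivity)
    refine ⟨max (max K0 1) (3 / ε), fun K hK => ?_⟩
    have hKK0 : K0 ≤ K := le_trans (le_trans (le_max_left _ _) (le_max_left _ _)) hK
    have hK1 : 1 ≤ K := le_trans (le_trans (le_max_right _ _) (le_max_left _ _)) hK
    have hKε : 3 / ε ≤ K := le_trans (le_max_right _ _) hK
    have hKp : 0 < K := by linarith
    obtain ⟨k, hk, hkv⟩ := hK0 K hKK0
    have hbdd : BddBelow (S K) := ⟨0, by rintro _ ⟨k, _, rfl⟩; exact ENNReal.toReal_nonneg⟩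
    have hinf : sInf (S K) ≤ ε / 3 := le_trans (csInf_le hbdd (mem_image_of_mem _ hk)) hkv
    have h1K : 1 / K ≤ ε / 3 := by
      rw [div_le_iff₀ hKp]
      rw [div_le_iff₀ hε] at hKε
      linarith
    have := (hkf K hKp).2
    rw [Real.dist_eq, sub_zero, abs_of_nonneg ENNReal.toReal_nonneg]
    have h4 : val K (kf K) = (volume (Sh.modRow (K ^ ((1 : ℝ) / 200)) (kf K))).toReal := rfl
    linarith

theorem rw_exp_lim (C : ℝ) : Tendsto (fun K : ℝ => C * K ^ 4 * Real.exp (-(h1 K / 10))) atTop (𝓝 0) := by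
  have h0 := Real.tendsto_pow_mul_exp_neg_atTop_nhds_zero 800
  have hu : Tendsto (fun K : ℝ => K ^ ((1 : ℝ) / 200) / 20) atTop atTop :=
    (tendsto_rpow_atTop (by norm_num)).atTop_div_const (by norm_num)
  have h1' := (h0.comp hu).const_mul (C * 20 ^ 800)
  rw [mul_zero] at h1'
  refine h1'.congr' ?_
  filter_upwards [eventually_gt_atTop 0] with K hK
  have e : K ^ 4 = (K ^ ((1 : ℝ) / 200)) ^ 800 := by
    rw [← Real.rpow_natCast (K ^ ((1 : ℝ) / 200)), ← Real.rpow_mul hK.le]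
    norm_num
  simp only [Function.comp, h1]
  rw [e, div_pow]
  have : -(K ^ ((1 : ℝ) / 200) / 2 / 10) = -(K ^ ((1 : ℝ) / 200) / 20) := by ring
  rw [this]
  field_simp

theorem row_test (h : Sh.CritPoly) : ∃ kf : ℝ → ℝ, Sh.RowTest kf := by
  obtain ⟨kf, hkf, hlim⟩ := Sh.row_sign h
  obtain ⟨C, K0, hC, hrob⟩ := Sh.robust h
  refine ⟨kf, hkf, fun σ hσ => ?_⟩
  have hsum := hlim.add (rw_exp_lim C)
  rw [add_zero] at hsum
  refine squeeze_zero' (Eventually.of_forall fun K => ENNReal.toReal_nonneg) ?_ hsum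
  filter_upwards [hkf, eventually_ge_atTop K0] with K hK hK0
  exact hrob K hK0 (kf K) hK σ hσ

end Shape

end Claimed.Agent.R269
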