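/-
Row 269: EXPORT of P1 Sections 10-11 = `Shape.last_site` of Stage3.lean.  Owner: helper171.
-/
import Claimed.Agent.R269.S11.Last
import Claimed.Agent.R269.S11.Row

set_option autoImplicit false

namespace Claimed.Agent.R269

open Complex Filter Topology MeasureTheory
open scoped ENNReal Real

/-- **P1 Theorem 11.11**: the nonisotropic finite critical-wall case is impossible. -/
theorem Shape.last_site_main (Sh : Shape) (hc : Sh.H ≠ ⊤ ∧ Sh.order = 1)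
    (hb : ∃ (ε C k₀ : ℝ), 0 < ε ∧ 1 ≤ k₀ ∧ Real.exp (-k₀) < Sh.Hr ∧ ∀ K, k₀ ≤ K →
      ∫ k in k₀..K, Sh.μf k ^ 2 ≤ C * K ^ (2 - ε))
    (hp : ∃ (C k₀ : ℝ), 1 ≤ k₀ ∧ ∀ k, k₀ ≤ k →
      Sh.μ k ≤ C * (1 + k) ∧
        Real.exp (-k) * Sh.rowMax (Sh.Hr - Real.exp (-k)) ≤ C * (1 + k) ^ 2) : False := by
  obtain ⟨Sl, rfl, hn⟩ := Slice.exists_nice Sh hc.1
  obtain ⟨kf, hk⟩ := Sl.Sh.row_test ⟨hc.1, hc.2, hp⟩
  exact Sl.last_site_of_rowTest ⟨hn, hc, hb, hp⟩ kf hk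

end Claimed.Agent.R269
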